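import Vale.Agent.P073.H253.TubeTv3

/-!
# P073, H253, `K3C`: the auxiliary map before the soft collapse

`S5.fq = h4.trans Sm`: the map before the hooks, followed by the last staircase.

* `tlay_id`: the layer of the tubes without a hook.
* `S5.layq`: the layer for `fq`.
* `S5.offq`, `S5.nearq`: positions of `fq`.
* `exists_K4`: local Lipschitz constants of a map over the supports of the last staircase.
* `midEstq`, `tvTube_fq`: the tube case of `TvOut` for `Φ ∘ fq`.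
-/

open Set Metric Topology Filter
open scoped ENNReal

set_option linter.unusedSectionVars false

namespace Vale.Agent.P073.H253.Tube

open _root_.P073 _root_.P073.Net _root_.P073.PA691 _root_.P073.H236 _root_.P073.H936
  _root_.P073.H936.K3 _root_.P073.H142 _root_.P073.H429
open Vale.Agent.P073.St (V)
open Vale.Agent.P073.H471 Vale.Agent.P073.H267
open Vale.Agent.P073.H73 (Mesh)

section gen

variable {Ω Λ : Set V} {v : V} {K : BoxCx Λ v} {S : Rad K} {W : Wid K S} {B : Boxes W}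
  {γ : Type} {φ : γ → K.G} {sl : γ → Finset (ℝ × ℝ)} {μ : γ → ℝ} {Y Y' : Lat B}
  {T : ∀ b, Thn (eal W (φ b)) (ebe W (φ b)) (sl b) (μ b)} {D : Set V}
  {f : ConHomeo Ω Λ} {r : K.G → Fin 3 → ℝ} {hr : ∀ e k, 0 < r e k}
  {hp : ∀ e k, Y'.p e k + r e k ≤ B.T e} {hq : ∀ e k, Y'.q e k + r e k ≤ B.T e}
  {hφ : Function.Injective φ} {ς : γ → ℝ} {h0 : ∀ b, 0 < ς b} {h1 : ∀ b, ς b ≤ 1}
  {Sm : ConHomeo Λ Λ}

/-- **the layer of the tubes without a hook** -/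
theorem tlay_id (hYp : ∀ e k, Y.p e k ≤ Y'.p e k) (hYq : ∀ e k, Y.q e k ≤ Y'.q e k)
    (hS : (tfam Y' r hr hp hq hφ T h0 h1).IsH Sm)
    (hp' : ∀ e k, Y'.p e k + r e k < B.T e) (hq' : ∀ e k, Y'.q e k + r e k < B.T e) :
    TLay B φ (fun b => YB Y (φ b)) (tfam Y' r hr hp hq hφ T h0 h1) D
      (fun b i => (T b).c i - (T b).w i) (fun b i => (T b).c i + (T b).w i) ς f f Sm where
  inj := hφ
  cl := fun b => isClosed_Icc
  j := fun b => rfl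
  PF := fun b y hy => by
    show (tX Y' r hr (T b) (h0 b) (h1 b)).Full y
    exact tX_full.2 (YB_mono hYp hYq _ hy)
  KE := fun b => by
    show (tX Y' r hr (T b) (h0 b) (h1 b)).K ⊆ _
    rw [tX_K (hp := hp) (hq := hq)]
    exact YB_sub_E _ _
  KT := fun b y hy k hk => by
    change y ∈ (tX Y' r hr (T b) (h0 b) (h1 b)).K at hy
    rw [tX_K (hp := hp) (hq := hq)] at hy
    obtain ⟨-, h3⟩ := mem_YB.1 hy
    have h4 := h3 k hk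
    have h5 := hp' (φ b) k
    have h6 := hq' (φ b) k
    change K.w (K.a (φ b)) k - (Y'.p (φ b) k + r (φ b) k) ≤ y k ∧
      y k ≤ K.w (K.a (φ b)) k + (Y'.q (φ b) k + r (φ b) k) at h4
    rw [abs_lt]
    constructor <;> linarith [h4.1, h4.2]
  isH := hS
  bs := fun b => (T b).bs
  ς0 := h0
  ς1 := h1
  k := fun b => rfl
  off := fun _ _ _ => rfl
  mem := fun _ _ _ => Iff.rfl
  loc := fun _ _ _ _ => Eventually.of_forall fun _ _ => le_rfl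

end gen

end Vale.Agent.P073.H253.Tube

namespace Vale.Agent.P073.H267.K3

open _root_.P073 _root_.P073.Net _root_.P073.PA691 _root_.P073.H236
open _root_.P073.H936 _root_.P073.H936.K3
open _root_.P073.H142
open _root_.P073.H345 (PK tg PLev)
open _root_.P073.H880.RP
open _root_.P073.H429
open Vale.Agent.P073.St (V)
open Vale.Agent.P073.H471 Vale.Agent.P073.H267
open Vale.Agent.P073.H73 (Mesh)
open Vale.Agent.P073.H193 (Edges edges)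
open Vale.Agent.P073.H304 (Nb)
open Vale.Agent.P073.H926
open Vale.Agent.P073.H238.K3
open Vale.Agent.P073.H233 (Small3 PSet Xp SoftQ FQ)
open Vale.Agent.P073.H253.Tube

variable {c₀ n δ : ℝ} {j : ℕ} {Ω Λ : Set V} {v w : V} {ρ : V → ℝ} {M : Mesh Ω} {h : ConHomeo Ω Λ}
  {J₀ J : Set (ℕ × (Fin 3 → ℤ))} {P Z : Set M.ι} {K : BoxCx Λ w}
  {D : KIn3 c₀ n j δ v w ρ M h J₀ J P Z} {C : Cells ρ w K} {C₀ μT : ℝ}
  {X : S1 D C C₀ μT} {Y₂ : S2 X} {Ys : Set M.κ} {sc : Sharp} {Y₃ : S3 Y₂ Ys sc} {Y₄ : S4 Y₃}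

namespace S5

/-- **the auxiliary map before the soft collapse** -/
noncomputable def fq (Y₅ : S5 Y₄) : ConHomeo Ω Λ := Y₃.h4.trans Y₅.Sm

theorem fq_eq (Y₅ : S5 Y₄) (x : V) : Y₅.fq.toFun x = Y₅.Sm.toFun (Y₃.h4.toFun x) := rfl

/-- **the layer of the auxiliary map** -/
theorem layq (Y₅ : S5 Y₄) (Dr : Set V) :
    TLay (D.B C) (Subtype.val : pG C J₀ → K.G) (fun b => YB (YT (D.G C) (pS C J₀)) b.1)
    (tfam (YS (D.G C)) (rT (D.G C)) (rT_pos (D.G C))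
      (fun e k => (YS_p_lt (D.G C) e k).le)
      (fun e k => (YS_q_lt (D.G C) e k).le) Y₅.H.inj Y₅.Th Y₅.ς0 Y₅.ς1) Dr
    (fun b i => (Y₅.Th b).c i - (Y₅.Th b).w i) (fun b i => (Y₅.Th b).c i + (Y₅.Th b).w i)
    Y₅.ς Y₃.h4 Y₃.h4 Y₅.Sm :=
  tlay_id (YT_YS_p (D.G C) (pS C J₀)) (YT_YS_q (D.G C) (pS C J₀)) Y₅.isH (YS_p_lt (D.G C))
    (YS_q_lt (D.G C))

/-- nothing changes far from the processed tiles -/
theorem offq (Y₅ : S5 Y₄) : ∀ x ∈ Ω, h.toFun x ∉ Nb w J₀ c₀ → Y₅.fq.toFun x = h.toFun x :=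
  fun _ hx hx0 => last_off D C (Y₅.layq ∅) (fun b => b.2) (fun _ hx h0 => Y₃.off4 hx h0) hx hx0

/-- positions of the auxiliary map -/
theorem nearq (Y₅ : S5 Y₄) : ∀ x ∈ Ω, H581.Near 8192 ρ (h.toFun x) (Y₅.fq.toFun x) :=
  fun _ hx => last_near D C (Y₅.layq ∅) (fun _ hx => Y₃.near4 hx) hx

end S5

end Vale.Agent.P073.H267.K3

namespace Vale.Agent.P073.H253.Tube

open _root_.P073 _root_.P073.Net _root_.P073.PA691 _root_.P073.H236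
open _root_.P073.H936 _root_.P073.H936.K3
open _root_.P073.H142
open _root_.P073.H345 (PK tg PLev)
open _root_.P073.H880.RP
open _root_.P073.H429
open Vale.Agent.P073.St (V)
open Vale.Agent.P073.H471 Vale.Agent.P073.H267 Vale.Agent.P073.H267.K3
open Vale.Agent.P073.H73 (Mesh)
open Vale.Agent.P073.H193 (Edges edges)
open Vale.Agent.P073.H926
open Vale.Agent.P073.H238.K3
open Vale.Agent.P073.H233 (Small3 PSet Xp SoftQ FQ)

variable {c₀ n δ : ℝ} {j : ℕ} {Ω Λ : Set V} {v w : V} {ρ : V → ℝ} {M : Mesh Ω} {h : ConHomeo Ω Λ}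
  {J₀ J : Set (ℕ × (Fin 3 → ℤ))} {P Z : Set M.ι} {K : BoxCx Λ w}
  {D : KIn3 c₀ n j δ v w ρ M h J₀ J P Z} {C : Cells ρ w K} {C₀ μT : ℝ}
  {X : S1 D C C₀ μT} {Y₂ : S2 X} {Ys : Set M.κ} {sc : Sharp} {Y₃ : S3 Y₂ Ys sc} {Y₄ : S4 Y₃}

/-- **local Lipschitz constants over the supports of the last staircase**, for any map -/
theorem exists_K4 (D : KIn3 c₀ n j δ v w ρ M h J₀ J P Z) (C : Cells ρ w K) (f : ConHomeo Ω Λ) :
    ∃ K₄ : pG C J₀ → ℝ, (∀ b, 0 < K₄ b) ∧ ∀ b : pG C J₀, ∀ x ∈ Ω,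
      f.toFun x ∈ YB ((YS (D.G C)).add (rT (D.G C)) (rT_pos (D.G C))
        (fun e k => (YS_p_lt (D.G C) e k).le) fun e k => (YS_q_lt (D.G C) e k).le) b.1 →
      ∀ᶠ y in 𝓝 x, ‖f.toFun y - f.toFun x‖ ≤ K₄ b * ‖y - x‖ := by
  have hL : ∀ b : pG C J₀, ∃ L : ℝ, 0 < L ∧ ∀ x ∈ Ω,
      f.toFun x ∈ YB ((YS (D.G C)).add (rT (D.G C)) (rT_pos (D.G C))
        (fun e k => (YS_p_lt (D.G C) e k).le) fun e k => (YS_q_lt (D.G C) e k).le) b.1 →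
      ∀ᶠ y in 𝓝 x, ‖f.toFun y - f.toFun x‖ ≤ L * ‖y - x‖ :=
    fun b => exists_lip_pre D.bΩ.1 f isCompact_Icc (YB_sub _ _)
  choose K₄ h0 h1 using hL
  exact ⟨K₄, h0, h1⟩

/-- **the local estimate for the auxiliary map** -/
theorem midEstq (Y₅ : S5 Y₄) (hμ : ∀ b, 0 ≤ Y₅.μ b) {μ' : ℝ} (hμ' : ∀ b, Y₅.μ b ≤ μ')
    (hμ'0 : 0 ≤ μ') {K₄ : pG C J₀ → ℝ}
    (hK₄ : ∀ b : pG C J₀, ∀ x ∈ Ω, Y₃.h4.toFun x ∈ YB ((YS (D.G C)).add (rT (D.G C))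
      (rT_pos (D.G C)) (fun e k => (YS_p_lt (D.G C) e k).le)
      fun e k => (YS_q_lt (D.G C) e k).le) b.1 →
      ∀ᶠ y in 𝓝 x, ‖Y₃.h4.toFun y - Y₃.h4.toFun x‖ ≤ K₄ b * ‖y - x‖)
    {εb : pG C J₀ → ℝ} (hε : ∀ b, Y₅.ς b * K₄ b ≤ εb b) {t : M.κ → ℝ} (ht : ∀ k, 0 ≤ t k)
    (hεb : ∀ (b : pG C J₀) k, (Y₃.h4.toFun '' M.F k ∩
      YB ((YS (D.G C)).add (rT (D.G C)) (rT_pos (D.G C)) (fun e k => (YS_p_lt (D.G C) e k).le)
      fun e k => (YS_q_lt (D.G C) e k).le) b.1).Nonempty →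
      εb b * (1 + diam (M.F k)) ≤ t k) :
    MidEst (D.G C) M univ univ Y₃.h4.toFun Y₅.fq.toFun (1 + μ')
      fun k => t k / (1 + diam (M.F k)) :=
  midEst_tlay (Zb := fun _ => ∅) (Y₅.layq _) (YT_p_ge (D.G C) (pS C J₀))
    (YT_q_ge (D.G C) (pS C J₀)) (YT_YS_p (D.G C) (pS C J₀)) (YT_YS_q (D.G C) (pS C J₀)) hμ hμ'
    hμ'0 hK₄ hε ht hεb

/-- **the tube case for the auxiliary map** `Φ ∘ fq` -/
theorem tvTube_fq (Y₅ : S5 Y₄) (hμT0 : 0 ≤ μT) (hμT : μT ≤ n / 128) (hμ : ∀ b, 0 ≤ Y₅.μ b)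
    (hμ' : ∀ b, Y₅.μ b ≤ n / 128) {εk : M.κ → ℝ} (hεk : ∀ k, 0 < εk k)
    (hεT : ∀ k e, (edges M).seg e ⊆ M.F k → 8 * X.εe e ≤ εk k) {K₄ : pG C J₀ → ℝ}
    (hK₄ : ∀ b : pG C J₀, ∀ x ∈ Ω, Y₃.h4.toFun x ∈ YB ((YS (D.G C)).add (rT (D.G C))
      (rT_pos (D.G C)) (fun e k => (YS_p_lt (D.G C) e k).le)
      fun e k => (YS_q_lt (D.G C) e k).le) b.1 →
      ∀ᶠ y in 𝓝 x, ‖Y₃.h4.toFun y - Y₃.h4.toFun x‖ ≤ K₄ b * ‖y - x‖)
    {εb : pG C J₀ → ℝ} (hε : ∀ b, Y₅.ς b * K₄ b ≤ εb b)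
    (hεb : ∀ (b : pG C J₀) k, (Y₃.h4.toFun '' M.F k ∩
      YB ((YS (D.G C)).add (rT (D.G C)) (rT_pos (D.G C)) (fun e k => (YS_p_lt (D.G C) e k).le)
      fun e k => (YS_q_lt (D.G C) e k).le) b.1).Nonempty →
      εb b * (1 + diam (M.F k)) ≤ εk k / 8) :
    ∃ t₀ : M.κ ⊕ M.ι → ℝ, (∀ a, 0 < t₀ a) ∧ ∀ (R : Fac K) (N t : M.κ ⊕ M.ι → ℝ)
      (Φ : ConHomeo Λ Λ), (∀ a, 0 < t a) → (∀ a, t a ≤ t₀ a) →
      Small3 (D.W C) (Xp C J₀) R Y₅.fq.toFun (FQ M) N t → SoftQ D C R Φ →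
      TvTube c₀ δ w ρ M h.toFun J₀ εk fun x => Φ.toFun (Y₅.fq.toFun x) :=
  tvTube_hook D C X.out.near3 (tvsC_of_tout D C X.out) hμT0 hμT
    (by linarith [D.pos] : (0:ℝ) ≤ n / 128) le_rfl hεk hεT (miss4 Y₃)
    (midEstq Y₅ hμ hμ' (by linarith [D.pos]) hK₄ hε (fun k => by linarith [hεk k]) hεb)

/-- the numbers for `fq`: `ς b * K₄ b` is small if the tolerance `ε b` of `S5` is small -/
theorem sK4_le (Y₅ : S5 Y₄) {K₄ εb : pG C J₀ → ℝ} (h0 : ∀ b, 0 < K₄ b)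
    (hε : ∀ b, Y₅.ε b ≤ εb b / K₄ b) (b : pG C J₀) : Y₅.ς b * K₄ b ≤ εb b := by
  have h1 := (Y₅.ςε b).trans (hε b)
  rwa [le_div_iff₀ (h0 b)] at h1

end Vale.Agent.P073.H253.Tube
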