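import Vale.Agent.P073.H253.EstS
import Vale.Agent.P073.H253.AuxMap

/-!
# P073, H253, `K3C`: `EstS` over the stages of H267

* `tfam_al_lt`, `tfam_lt_be`: the ends of the windows are in the zones of the vertices.
* `S5.lipK`: the local Lipschitz constant of `h6` on the supports, for the coordinate of the edge.
* `S5.estS`, `S5.estS0`: the last map, `S5.estSq`, `S5.estSq0`: the auxiliary map `fq`.
-/

open Set Metric Topology Filter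
open scoped ENNReal

set_option linter.unusedSectionVars false

namespace P073.H142

open P073 P073.Net P073.PA691 P073.H236 P073.H429 P073.H880 P073.H936 P073.H936.K3
open Vale.Agent.P073.St (V)
open Vale.Agent.P073.H471 Vale.Agent.P073.H267

variable {Λ : Set V} {v : V} {K : BoxCx Λ v} {S : Rad K} {W : Wid K S} {B : Boxes W}
  {γ : Type} {φ : γ → K.G} {sl : γ → Finset (ℝ × ℝ)} {μ : γ → ℝ} {Y : Lat B}
  {T : ∀ b, Thn (eal W (φ b)) (ebe W (φ b)) (sl b) (μ b)} {r : K.G → Fin 3 → ℝ}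
  {hr : ∀ e k, 0 < r e k} {hp : ∀ e k, Y.p e k + r e k ≤ B.T e}
  {hq : ∀ e k, Y.q e k + r e k ≤ B.T e} {hφ : Function.Injective φ} {ς : γ → ℝ}
  {h0 : ∀ b, 0 < ς b} {h1 : ∀ b, ς b ≤ 1}

/-- the lower end of the window is in the zone of a vertex -/
theorem tfam_al_lt (b : γ) : ((tfam Y r hr hp hq hφ T h0 h1).X b).al <
    K.w (K.a (φ b)) (K.dir (φ b)) + W.wv (K.a (φ b)) := by
  show eal W (φ b) < _
  unfold eal
  linarith [W.wv_pos (K.a (φ b))]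

/-- the upper end of the window is in the zone of a vertex -/
theorem tfam_lt_be (b : γ) : K.w (K.b (φ b)) (K.dir (φ b)) - W.wv (K.b (φ b)) <
    ((tfam Y r hr hp hq hφ T h0 h1).X b).be := by
  show _ < ebe W (φ b)
  unfold ebe
  linarith [W.wv_pos (K.b (φ b))]

end P073.H142

namespace Vale.Agent.P073.H267.K3

open _root_.P073 _root_.P073.Net _root_.P073.PA691 _root_.P073.H236
open _root_.P073.H936 _root_.P073.H936.K3
open _root_.P073.H142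
open _root_.P073.H345 (PK tg PLev)
open _root_.P073.H880.RP
open _root_.P073.H429
open Vale.Agent.P073.St (V)
open Vale.Agent.P073.H471 Vale.Agent.P073.H267
open Vale.Agent.P073.H73 (Mesh)
open Vale.Agent.P073.H193 (Edges edges)
open Vale.Agent.P073.H926
open Vale.Agent.P073.H238.K3

variable {c₀ n δ : ℝ} {j : ℕ} {Ω Λ : Set V} {v w : V} {ρ : V → ℝ} {M : Mesh Ω} {h : ConHomeo Ω Λ}
  {J₀ J : Set (ℕ × (Fin 3 → ℤ))} {P Z : Set M.ι} {K : BoxCx Λ w}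
  {D : KIn3 c₀ n j δ v w ρ M h J₀ J P Z} {C : Cells ρ w K} {C₀ μT : ℝ}
  {X : S1 D C C₀ μT} {Y₂ : S2 X} {Ys : Set M.κ} {sc : Sharp} {Y₃ : S3 Y₂ Ys sc} {Y₄ : S4 Y₃}

/-- a point in the open window and laterally in the open full zone of the staircase of `b` -/
structure InS (D : KIn3 c₀ n j δ v w ρ M h J₀ J P Z) (C : Cells ρ w K) (e : K.G) (y : V) :
    Prop where
  win : y (K.dir e) ∈ Ioo (eal (D.W C) e) (ebe (D.W C) e)
  lat : ∀ i, i ≠ K.dir e → |y i - K.w (K.a e) i| < (D.B C).T e / 2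

theorem InS.mem {e : K.G} {y : V} (H : InS D C e y) :
    y ∈ YB ((YS (D.G C)).add (rT (D.G C)) (rT_pos (D.G C)) (fun e k => (YS_p_lt (D.G C) e k).le)
      fun e k => (YS_q_lt (D.G C) e k).le) e := by
  refine mem_YB.2 ⟨⟨H.win.1.le, H.win.2.le⟩, fun i hi => ?_⟩
  have h1 := abs_lt.1 (H.lat i hi)
  have h2 := rT_pos (D.G C) e i
  show K.w (K.a e) i - ((D.B C).T e / 2 + rT (D.G C) e i) ≤ y i ∧
    y i ≤ K.w (K.a e) i + ((D.B C).T e / 2 + rT (D.G C) e i)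
  constructor <;> linarith [h1.1, h1.2]

theorem InS.lat' {e : K.G} {y : V} (H : InS D C e y) {i : Fin 3} (hi : i ≠ K.dir e) :
    y i ∈ Ioo (ylo (YS (D.G C)) e i) (yhi (YS (D.G C)) e i) := by
  have h1 := abs_lt.1 (H.lat i hi)
  unfold ylo yhi
  rw [if_neg hi, if_neg hi, YS_p, YS_q]
  constructor <;> linarith [h1.1, h1.2]

namespace S5

/-- the local Lipschitz constants on the supports, for the coordinate of the edge -/
theorem lipK (Y₅ : S5 Y₄) {b : pG C J₀} {A : Set V} {x : V} (hx : x ∈ Ω)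
    (hK : Y₄.f5.toFun x ∈ YB ((YS (D.G C)).add (rT (D.G C)) (rT_pos (D.G C))
      (fun e k => (YS_p_lt (D.G C) e k).le) fun e k => (YS_q_lt (D.G C) e k).le) b.1) (i : Fin 3) :
    ∀ᶠ x' in 𝓝[A] x, |Y₅.h6.toFun x' i - Y₅.h6.toFun x i| ≤ Y₅.K₂ b * ‖x' - x‖ := by
  have h1 : Y₅.h6.toFun x ∈ YB ((YS (D.G C)).add (rT (D.G C)) (rT_pos (D.G C))
      (fun e k => (YS_p_lt (D.G C) e k).le) fun e k => (YS_q_lt (D.G C) e k).le) b.1 := by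
    have h2 := (Y₅.lay.memK (b := b) hx).2 (by
      show Y₄.f5.toFun x ∈ (tX (YS (D.G C)) (rT (D.G C)) (rT_pos (D.G C)) (Y₅.Th b) (Y₅.ς0 b)
        (Y₅.ς1 b)).K
      rw [tX_K (hp := fun e k => (YS_p_lt (D.G C) e k).le)
        (hq := fun e k => (YS_q_lt (D.G C) e k).le)]
      exact hK)
    change Y₅.h6.toFun x ∈ (tX (YS (D.G C)) (rT (D.G C)) (rT_pos (D.G C)) (Y₅.Th b) (Y₅.ς0 b)
      (Y₅.ς1 b)).K at h2
    rwa [tX_K (hp := fun e k => (YS_p_lt (D.G C) e k).le)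
      (hq := fun e k => (YS_q_lt (D.G C) e k).le)] at h2
  filter_upwards [nhdsWithin_le_nhds (Y₅.lip6 b x hx h1)] with x' h3
  refine le_trans ?_ h3
  have h4 := norm_le_pi_norm (Y₅.h6.toFun x' - Y₅.h6.toFun x) i
  rwa [Pi.sub_apply, Real.norm_eq_abs] at h4

/-- **the last map in the open full zone**: only the clamps of the thin bands count -/
theorem estS (Y₅ : S5 Y₄) {b : pG C J₀} (hμ : 0 ≤ Y₅.μ b) {A : Set V} (hA : A ⊆ Ω)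
    (hD : Disjoint A (⋃ b, ⋃ i ∈ ZbT Y₄ b, interior (M.Q i))) {x : V} (hx : x ∈ A)
    (hin : InS D C b.1 (Y₄.f5.toFun x)) {c₀' c : V → ℝ}
    (h1 : ∀ᶠ x' in 𝓝[A] x, ∑ i, |clam ((Y₅.Th b).c i - (Y₅.Th b).w i)
        ((Y₅.Th b).c i + (Y₅.Th b).w i) (Y₄.f5.toFun x' (K.dir b.1)) -
      clam ((Y₅.Th b).c i - (Y₅.Th b).w i) ((Y₅.Th b).c i + (Y₅.Th b).w i)
        (Y₄.f5.toFun x (K.dir b.1))| ≤ c₀' x')
    (hc : ∀ᶠ x' in 𝓝[A] x, (1 + Y₅.μ b) * c₀' x' + Y₅.ε b * ‖x' - x‖ ≤ c x') :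
    ∀ᶠ x' in 𝓝[A] x, |Y₅.f.toFun x' (K.dir b.1) - Y₅.f.toFun x (K.dir b.1)| ≤ c x' := by
  refine Y₅.lay.estS (b := b) hA hD hx hin.win (fun i hi => hin.lat' hi)
    ((Y₅.Th b).slG_le (Y₅.ς0 b).le (Y₅.ς1 b) hμ) h1 (Y₅.lipK (hA hx) hin.mem _) ?_
  filter_upwards [hc] with x' h2
  have h3 := mul_le_mul_of_nonneg_right (Y₅.ςK b) (norm_nonneg (x' - x))
  have h4 : Y₅.ς b * (Y₅.K₂ b * ‖x' - x‖) = Y₅.ς b * Y₅.K₂ b * ‖x' - x‖ := by ring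
  linarith

/-- **the last map in a gap between the thin bands** -/
theorem estS0 (Y₅ : S5 Y₄) {b : pG C J₀} {A : Set V} (hA : A ⊆ Ω)
    (hD : Disjoint A (⋃ b, ⋃ i ∈ ZbT Y₄ b, interior (M.Q i))) {x : V} (hx : x ∈ A)
    (hin : InS D C b.1 (Y₄.f5.toFun x))
    (hgap : ∀ i, Y₄.f5.toFun x (K.dir b.1) < (Y₅.Th b).c i - (Y₅.Th b).w i ∨
      (Y₅.Th b).c i + (Y₅.Th b).w i < Y₄.f5.toFun x (K.dir b.1)) :
    ∀ᶠ x' in 𝓝[A] x, |Y₅.f.toFun x' (K.dir b.1) - Y₅.f.toFun x (K.dir b.1)| ≤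
      Y₅.ε b * ‖x' - x‖ := by
  refine Y₅.lay.estS0 (b := b) hA hD hx hin.win (fun i hi => hin.lat' hi)
    (fun i => by linarith [(Y₅.Th b).w_pos i]) hgap (Y₅.lipK (hA hx) hin.mem _)
    (Eventually.of_forall fun x' => ?_)
  have h3 := mul_le_mul_of_nonneg_right (Y₅.ςK b) (norm_nonneg (x' - x))
  have h4 : Y₅.ς b * (Y₅.K₂ b * ‖x' - x‖) = Y₅.ς b * Y₅.K₂ b * ‖x' - x‖ := by ring
  linarith

/-- **the auxiliary map in the open full zone** -/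
theorem estSq (Y₅ : S5 Y₄) {b : pG C J₀} (hμ : 0 ≤ Y₅.μ b) {A : Set V} (hA : A ⊆ Ω)
    {x : V} (hx : x ∈ A) (hin : InS D C b.1 (Y₃.h4.toFun x)) {K₄ ε : ℝ}
    (hK₄ : ∀ᶠ y in 𝓝 x, ‖Y₃.h4.toFun y - Y₃.h4.toFun x‖ ≤ K₄ * ‖y - x‖)
    (hε : Y₅.ς b * K₄ ≤ ε) {c₀' c : V → ℝ}
    (h1 : ∀ᶠ x' in 𝓝[A] x, ∑ i, |clam ((Y₅.Th b).c i - (Y₅.Th b).w i)
        ((Y₅.Th b).c i + (Y₅.Th b).w i) (Y₃.h4.toFun x' (K.dir b.1)) -
      clam ((Y₅.Th b).c i - (Y₅.Th b).w i) ((Y₅.Th b).c i + (Y₅.Th b).w i)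
        (Y₃.h4.toFun x (K.dir b.1))| ≤ c₀' x')
    (hc : ∀ᶠ x' in 𝓝[A] x, (1 + Y₅.μ b) * c₀' x' + ε * ‖x' - x‖ ≤ c x') :
    ∀ᶠ x' in 𝓝[A] x, |Y₅.fq.toFun x' (K.dir b.1) - Y₅.fq.toFun x (K.dir b.1)| ≤ c x' := by
  refine (Y₅.layq ∅).estS (b := b) hA (disjoint_empty _) hx hin.win (fun i hi => hin.lat' hi)
    ((Y₅.Th b).slG_le (Y₅.ς0 b).le (Y₅.ς1 b) hμ) h1 (c₂ := fun x' => K₄ * ‖x' - x‖) ?_ ?_
  · filter_upwards [nhdsWithin_le_nhds hK₄] with x' h3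
    refine le_trans ?_ h3
    have h4 := norm_le_pi_norm (Y₃.h4.toFun x' - Y₃.h4.toFun x) (K.dir b.1)
    rwa [Pi.sub_apply, Real.norm_eq_abs] at h4
  · filter_upwards [hc] with x' h2
    have h3 := mul_le_mul_of_nonneg_right hε (norm_nonneg (x' - x))
    have h4 : Y₅.ς b * (K₄ * ‖x' - x‖) = Y₅.ς b * K₄ * ‖x' - x‖ := by ring
    linarith

/-- **the auxiliary map in a gap between the thin bands** -/
theorem estSq0 (Y₅ : S5 Y₄) {b : pG C J₀} {A : Set V} (hA : A ⊆ Ω) {x : V} (hx : x ∈ A)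
    (hin : InS D C b.1 (Y₃.h4.toFun x)) {K₄ ε : ℝ}
    (hK₄ : ∀ᶠ y in 𝓝 x, ‖Y₃.h4.toFun y - Y₃.h4.toFun x‖ ≤ K₄ * ‖y - x‖)
    (hε : Y₅.ς b * K₄ ≤ ε)
    (hgap : ∀ i, Y₃.h4.toFun x (K.dir b.1) < (Y₅.Th b).c i - (Y₅.Th b).w i ∨
      (Y₅.Th b).c i + (Y₅.Th b).w i < Y₃.h4.toFun x (K.dir b.1)) :
    ∀ᶠ x' in 𝓝[A] x, |Y₅.fq.toFun x' (K.dir b.1) - Y₅.fq.toFun x (K.dir b.1)| ≤
      ε * ‖x' - x‖ := by
  refine (Y₅.layq ∅).estS0 (b := b) hA (disjoint_empty _) hx hin.win (fun i hi => hin.lat' hi)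
    (fun i => by linarith [(Y₅.Th b).w_pos i]) hgap (c₂ := fun x' => K₄ * ‖x' - x‖) ?_
    (Eventually.of_forall fun x' => ?_)
  · filter_upwards [nhdsWithin_le_nhds hK₄] with x' h3
    refine le_trans ?_ h3
    have h4 := norm_le_pi_norm (Y₃.h4.toFun x' - Y₃.h4.toFun x) (K.dir b.1)
    rwa [Pi.sub_apply, Real.norm_eq_abs] at h4
  · have h3 := mul_le_mul_of_nonneg_right hε (norm_nonneg (x' - x))
    have h4 : Y₅.ς b * (K₄ * ‖x' - x‖) = Y₅.ς b * K₄ * ‖x' - x‖ := by ring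
    linarith

end S5

end Vale.Agent.P073.H267.K3
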