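import Vale.Agent.P073.H253.PreBeam
import Vale.Agent.P073.H194.GoodC

/-!
# P073, rank one: pieces of the producer of `PreBeam` (statements)

* `SpecBeamCol`: the collapse `T` near the image of the line;
* `SpecBV`: the generic origin, the good slice and the good line in it;
* `SpecPlaneSum`: energy on the plane.
-/

namespace Vale.Agent.P073.H253

open MeasureTheory Set Filter Topology Metric Vale.Agent.P073.St Vale.Agent.P073.AB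
open Vale.Agent.P073.SQ (ev)
open Vale.Agent.P073.LOC (Near Q1 BdClose)
open Vale.Agent.P073.H73 (MinEdge segP onSeg faceL)
open Vale.Agent.P073.AB.P86 (sc)
open Vale.Agent.P073.H194 (sInt Gen idx)
open Vale.Agent.P073.H83 (GenB)
open Vale.Agent.P073.H235
open _root_.P073 (ConHomeo)
open _root_.P073.Net (len dyc dyo IsTile SizeFn)
open scoped ENNReal

/-- **[BEAM-T]** the collapse `T`; hypotheses as in `SpecSeg`.  `G`: good intervals of generation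
`n₃`. -/
def SpecBeamCol : Prop :=
  ∀ ε : ℝ, 0 < ε → ∃ κ > 0, ∀ (v₀ : ℝ) (m₀ : ℕ) (z₀ z₁ : ℤ) (Λ : Set V) (γ : ℝ → V) (ψ : ℝ → ℝ),
    z₀ < z₁ → (z₁ - z₀ : ℝ) / 2 ^ m₀ ≤ 1 → IsOpen Λ →
    ContinuousOn γ (Icc (v₀ + z₀ / 2 ^ m₀) (v₀ + z₁ / 2 ^ m₀)) →
    MapsTo γ (Icc (v₀ + z₀ / 2 ^ m₀) (v₀ + z₁ / 2 ^ m₀)) Λ →
    IntegrableOn ψ (Icc (v₀ + z₀ / 2 ^ m₀) (v₀ + z₁ / 2 ^ m₀)) → (∀ t, 0 ≤ ψ t) →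
    (∀ s t, v₀ + z₀ / 2 ^ m₀ ≤ s → s ≤ t → t ≤ v₀ + z₁ / 2 ^ m₀ →
      ‖(γ t - t • ev 0) - (γ s - s • ev 0)‖ ≤ ∫ x in s..t, ψ x) →
    ∫ x in Icc (v₀ + z₀ / 2 ^ m₀) (v₀ + z₁ / 2 ^ m₀), ψ x ≤ κ →
    ∃ n₀ : ℕ, ∀ n₃ ≥ n₀, ∃ (G : Finset ℤ) (mt₀ : ℕ) (K₀ : Set V), K₀ ⊆ Λ ∧ IsCompact K₀ ∧
      -- the good intervals of generation `n₃`
      (∀ k ∈ G, iv v₀ n₃ k ⊆ Icc (v₀ + z₀ / 2 ^ m₀) (v₀ + z₁ / 2 ^ m₀)) ∧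
      (z₁ - z₀ : ℝ) / 2 ^ m₀ - (G.card : ℝ) / 2 ^ n₃ ≤ ε ∧
      -- the collapse
      ∀ mt ≥ mt₀, ∀ δ > 0, ∃ (T : ConHomeo Λ Λ) (r : ℝ), 0 < r ∧
        (∀ y ∈ Λ, y ∉ K₀ → T.toFun y = y) ∧
        (∀ y ∈ Λ, ∀ y' ∈ Λ, ‖T.toFun y - T.toFun y'‖ ≤ 2 * ‖y - y'‖) ∧
        (∀ y ∈ Λ, ‖T.toFun y - y‖ ≤ ε) ∧
        (∀ y ∈ Λ, T.toFun y 0 = y 0) ∧
        ∀ k ∈ G, ∃ t : Fin 3 → ℤ, ∀ u ∈ iv v₀ n₃ k, ∀ y ∈ Λ, ‖y - γ u‖ ≤ r → ∀ j, j ≠ 0 →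
          |T.toFun y j - t j / 2 ^ mt| ≤ δ / 2 ^ mt

/-- the generic origin for the compressed map `f` on the thin beam, a good slice
`x 1 = v 1 + B₁ / 2 ^ m₀`, and a good line `x 1 = v 1 + B₁ / 2 ^ m₀`, `x 2 = v 2 + B₂ / 2 ^ m₀` -/
structure BVData (p θ₁ θ₂ κ : ℝ) (m₀ : ℕ) (Λ : Set V) (f : V → V) (F : V → Mat) where
  v : V
  nn : ℕ → ℕ
  mono : StrictMono nn
  /-- energy density of the compressed map `f` -/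
  H : V → ℝ≥0∞
  /-- energy density of `f - P1` -/
  H₁ : V → ℝ≥0∞
  N : Set V
  null : volume N = 0
  rep : ∀ A A' : V → ℝ≥0∞, (∀ x, x ∉ N → A x = A' x) →
    (∀ e, eInt v e A = eInt v e A') ∧ ∀ s, sInt v s A = sInt v s A'
  meas : Measurable H
  meas₁ : Measurable H₁
  fin : ∫⁻ x, H x ≠ ⊤
  eq : ∀ x ∈ Bx (bm θ₁ θ₂), x ∉ N → H x = ‖cl (cmpD (bm θ₁ θ₂) F x)‖ₑ ^ p
  eq₁ : ∀ x ∈ Bx (bm θ₁ θ₂), x ∉ N → H₁ x = ‖cl (cmpD (bm θ₁ θ₂) F x) - P1‖ₑ ^ p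
  gen : Gen v nn H
  genB : GenB v nn H
  genB₁ : GenB v nn H₁
  /-- the same for `H` plus the indicator function of a ball -/
  gk : ∀ k : ℕ, Gen v nn (fun x => H x + H194.Bk k x) ∧ GenB v nn (fun x => H x + H194.Bk k x)
  rat : RatGood v (Bx (bm θ₁ θ₂)) (cmp (bm θ₁ θ₂) f) (cmpD (bm θ₁ θ₂) F)
  /-- the images of the dyadic planes are null sets -/
  planes : ∀ h : V → V, St.IsInv (Bx (bm θ₁ θ₂)) Λ (cmp (bm θ₁ θ₂) f) h →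
    ∀ᵐ y : V, y ∈ Λ → ∀ n, h y ∈ dyo v n (idx v n (h y))
  /-- total energy of `f - P1` -/
  small : ∫⁻ x in Bx (bm θ₁ θ₂), H₁ x ≤ ENNReal.ofReal κ
  B₁ : ℤ
  B₂ : ℤ
  mid₁ : |v 1 + B₁ / 2 ^ m₀ - θ₁| ≤ 1 / 2 ^ m₀
  mid₂ : |v 2 + B₂ / 2 ^ m₀ - θ₂| ≤ 1 / 2 ^ m₀
  /-- energy of `f - P1` on the slice -/
  slice : ∀ S : Finset (Fin 3 → ℤ), (∀ k ∈ S, k 1 = B₁ ∧ squ v ((m₀, k), 1) ⊆ Bx (bm θ₁ θ₂)) →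
    ∑ k ∈ S, sInt v ((m₀, k), 1) H₁ ≤ ENNReal.ofReal κ
  /-- energy of `f - P1` on the line -/
  line : ∀ S : Finset ℤ, (∀ k ∈ S, edge v (ledge m₀ B₁ B₂ k) ⊆ Bx (bm θ₁ θ₂)) →
    ∑ k ∈ S, eInt v (ledge m₀ B₁ B₂ k) H₁ ≤ ENNReal.ofReal κ

/-- **[BEAM-V]** -/
def SpecBV : Prop :=
  ∀ p : ℝ, 1 ≤ p → ∀ (θ₁ θ₂ κ : ℝ) (m₀ : ℕ), 0 < θ₁ → θ₁ ≤ 1 / 4 → 0 < θ₂ → θ₂ ≤ 1 / 4 → 0 < κ →
    ∃ κ' > 0, ∀ (Λ : Set V) (f : V → V) (F : V → Mat), Near p κ' P1 Λ f F →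
      Nonempty (BVData p θ₁ θ₂ κ m₀ Λ f F) ∧
      St.IsHomeo (Bx (bm θ₁ θ₂)) Λ (cmp (bm θ₁ θ₂) f) ∧
      St.IsSobolev p (Bx (bm θ₁ θ₂)) (cmp (bm θ₁ θ₂) f) (cmpD (bm θ₁ θ₂) F)

open Classical in
/-- **[PLANE-SUM]** from the energies of the squares to the integral over the plane `x l = c`;
`S`: a subset of the squares, `E`: their edges. -/
def SpecPlaneSum : Prop :=
  ∀ (p : ℝ), 1 ≤ p → ∃ K > 0, ∀ (l : Fin 3) (Ω Λ : Set V) (v : V) (I : Set Idx) (nS : ℕ)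
    (a b : Fin 3 → ℤ) (g : ConHomeo Ω Λ) (ℓ : Idx × Fin 3 → ℝ≥0∞) (D s : ℝ), 0 < D →
    0 ≤ s → IsOpen Ω → Part Ω v I → (∀ j, j ≠ l → (b j - a j : ℝ) / 2 ^ nS ≤ 1) →
    (∀ k ∈ rectN l a b, MinSq v I ((nS, k), l)) →
    (∀ i, i ≠ l → ∀ k ∈ redgeN l a b i, MinEdge v I ((nS, k), i)) →
    (∀ k ∈ rectN l a b, faceL p g.toFun (sc v ((nS, k), l)) l (1 / 2 / 2 ^ nS) ≤
      ENNReal.ofReal (D * (1 / 2 ^ nS) ^ 2) *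
        ∑' e : {e : Idx × Fin 3 // MinEdge v I e ∧ edge v e ⊆ squ v ((nS, k), l)},
          ENNReal.ofReal ((1 / 2 ^ e.1.1.1) ^ (1 - p)) *
            (ℓ e.1 + ENNReal.ofReal (s / 2 ^ nS)) ^ p) →
    ∀ (S : Finset (Fin 3 → ℤ)) (A : Set V), S ⊆ rectN l a b →
      (∀ x ∈ A, ∃ k ∈ S, Function.update x l (v l + a l / 2 ^ nS) ∈ squ v ((nS, k), l)) →
      (∃ t₀ t₁ : ℝ, t₁ ≤ t₀ + 1 ∧ ∀ x ∈ A, x l ∈ Icc t₀ t₁) →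
      ∑ j ∈ Finset.univ.erase l, ∫⁻ x in A,
        ENNReal.ofReal (‖lineDeriv ℝ g.toFun (Function.update x l (v l + a l / 2 ^ nS))
          (ev j)‖ ^ p) ≤
        ENNReal.ofReal (K * D) * (∑ i ∈ Finset.univ.erase l, ∑ k ∈ redgeN l a b i with
            ∃ k' ∈ S, EdgeOfSq ((nS, k), i) ((nS, k'), l),
          ENNReal.ofReal (1 / 2 ^ nS) * (ENNReal.ofReal ((1 / 2 ^ nS) ^ (1 - p)) *
            ℓ ((nS, k), i) ^ p)) + ENNReal.ofReal (K * D * s ^ p)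

end Vale.Agent.P073.H253
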