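import Vale.Agent.P073.H253.BeamSpec

/-!
# P073, rank one: leaves (statements)
-/

namespace Vale.Agent.P073.H253

open MeasureTheory Set Filter Topology Metric
open Vale.Agent.P073.St (V)
open Vale.Agent.P073.SQ (ev)
open scoped ContDiff ENNReal

/-- **[RP-A]** smoothing of the density -/
def SpecRPA : Prop :=
  ∀ (p ε M τ a b : ℝ) (w : V) (G : ℝ → V), 1 ≤ p → 1 ≤ M → a < b → 0 < ε →
    ContinuousOn G (Icc a b) → LineOK p ε M τ a b w G → ∀ δ > 0,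
    ∃ r : ℝ → ℝ, ContDiff ℝ ∞ r ∧ (∀ u, 1 / M ≤ r u ∧ r u ≤ M) ∧
      (∀ u, u ∉ Icc (a - δ) (b + δ) → r u = 1) ∧
      ∫ u in (a - δ)..(b + δ), r u = b + δ - (a - δ) ∧
      (∀ u, |∫ t in (a - δ)..u, (r t - 1)| ≤ τ) ∧
      ∫⁻ u in Icc a b, ENNReal.ofReal (‖(r u)⁻¹ • G u - w‖ ^ p * r u) ≤
        ENNReal.ofReal (2 * ε)

/-- the dyadic interval -/
noncomputable def iv (v₀ : ℝ) (n : ℕ) (z : ℤ) : Set ℝ := Icc (v₀ + z / 2 ^ n) (v₀ + (z + 1) / 2 ^ n)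

/-- the dyadic interval without margins of relative size `ϑ` -/
noncomputable def ivm (v₀ ϑ : ℝ) (n : ℕ) (z : ℤ) : Set ℝ :=
  Icc (v₀ + (z + ϑ) / 2 ^ n) (v₀ + (z + 1 - ϑ) / 2 ^ n)

/-- Good dyadic intervals `z ∈ J` of generation `n` of the line; the curve `γ` is close to
`t e₀ + A z`. -/
structure BeamsAt (γ : ℝ → V) (ψ : ℝ → ℝ) (κ ϑ : ℝ) (Λ : Set V) (v₀ : ℝ) (n : ℕ) (J : Finset ℤ)
    (A : ℤ → V) : Prop where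
  near : ∀ z ∈ J, ∀ t ∈ iv v₀ n z, ‖γ t - (t • ev 0 + A z)‖ ≤ κ / 2 ^ n
  small : ∀ z ∈ J, ∫ t in iv v₀ n z, ψ t ≤ κ / 2 ^ n
  sep : ∀ z ∈ J, ∀ z' ∈ J, z < z' → ∀ t ∈ ivm v₀ ϑ n z, ∀ t' ∈ ivm v₀ ϑ n z',
    ϑ / 2 ^ n ≤ (t' + A z' 0) - (t + A z 0)
  inside : ∀ z ∈ J, ∀ t ∈ iv v₀ n z, closedBall (t • ev 0 + A z) (1 / 2 ^ n) ⊆ Λ

/-- **[SEG]** choice of the intervals: `a < b` are dyadic, `γ` is a curve in the open set `Λ`,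
absolutely continuous with `‖(γ - t e₀)'‖ ≤ ψ`. The constant `1000` is arbitrary. -/
def SpecSeg : Prop :=
  ∀ (κ ϑ : ℝ), 0 < κ → κ ≤ ϑ / 8 → ϑ ≤ 1 / 4 →
    ∀ (v₀ : ℝ) (m₀ : ℕ) (z₀ z₁ : ℤ) (Λ : Set V) (γ : ℝ → V) (ψ : ℝ → ℝ), z₀ < z₁ → IsOpen Λ →
      ContinuousOn γ (Icc (v₀ + z₀ / 2 ^ m₀) (v₀ + z₁ / 2 ^ m₀)) →
      MapsTo γ (Icc (v₀ + z₀ / 2 ^ m₀) (v₀ + z₁ / 2 ^ m₀)) Λ →
      IntegrableOn ψ (Icc (v₀ + z₀ / 2 ^ m₀) (v₀ + z₁ / 2 ^ m₀)) → (∀ t, 0 ≤ ψ t) →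
      (∀ s t, v₀ + z₀ / 2 ^ m₀ ≤ s → s ≤ t → t ≤ v₀ + z₁ / 2 ^ m₀ →
        ‖(γ t - t • ev 0) - (γ s - s • ev 0)‖ ≤ ∫ x in s..t, ψ x) →
      ∀ᶠ n in atTop, ∃ (J : Finset ℤ) (A : ℤ → V), BeamsAt γ ψ κ ϑ Λ v₀ n J A ∧
        (∀ z ∈ J, iv v₀ n z ⊆ Icc (v₀ + z₀ / 2 ^ m₀) (v₀ + z₁ / 2 ^ m₀)) ∧
        volume (Icc (v₀ + z₀ / 2 ^ m₀) (v₀ + z₁ / 2 ^ m₀) \ ⋃ z ∈ J, ivm v₀ ϑ n z) ≤
          ENNReal.ofReal (1000 / κ * (∫ t in Icc (v₀ + z₀ / 2 ^ m₀) (v₀ + z₁ / 2 ^ m₀), ψ t) +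
            2 * ϑ * ((z₁ - z₀) / 2 ^ m₀))

/-- **[ROW1]** discrete: on a row `t 0 < … < t N` with increments `x i` of the first coordinate of a
curve `y`, total variation `≤ ℓ + s`, net displacement `≥ ℓ - s`, the increments inside of a
zone `Z` of small measure are small. `r` is the primitive of the indicator function of `Z`. -/
def SpecRow1 : Prop :=
  ∀ (N : ℕ) (y : ℕ → ℝ) (r : ℝ → ℝ) (ℓ s q : ℝ), Monotone r → Monotone (fun t => t - r t) →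
    ∑ i ∈ Finset.range N, |y (i + 1) - y i| ≤ ℓ + s → ℓ - s ≤ y N - y 0 →
    r (y N) - r (y 0) ≤ q →
    ∑ i ∈ Finset.range N, |r (y (i + 1)) - r (y i)| ≤ q + 2 * s

end Vale.Agent.P073.H253
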