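import Vale.Agent.P073.H235.R2Parts
import Vale.Agent.P073.H253.R1Spec

/-!
# P073, rank one, `2 ≤ p < 3`: the producer of `ConBeamT` (statements)

`L = P1 = diag (1, 0, 0)`, domain: the thin beam `Bx (bm θ₁ θ₂)`.

`PreBeam` collects everything that comes from the analysis: partition of the beam (without protected
cells), conical homeomorphism `h`, weighted lengths `ℓ`, the plane `x 1 = v 1 + a 1 / 2 ^ nS` (only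
bounds) and the line `x 1 = v 1 + a 1 / 2 ^ nS`, `x 2 = v 2 + m₂ / 2 ^ nS` in it, whose good edges
are mapped close to edges of the target grid.

* `SpecPreBeam`: the data exist;
* `SpecPostBeam`: the face theorem with the sharp clause for edges turns them into `ConBeamT`;
* `SpecLineOK`: the line.
-/

namespace Vale.Agent.P073.H253

open MeasureTheory Set Filter Topology Metric Vale.Agent.P073.St Vale.Agent.P073.AB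
open Vale.Agent.P073.SQ (ev)
open Vale.Agent.P073.LOC (Near Q1 BdClose)
open Vale.Agent.P073.H73 (MinEdge segP onSeg K2AS)
open Vale.Agent.P073.H235
open _root_.P073 (ConHomeo)
open _root_.P073.Net (len dyc dyo IsTile SizeFn)
open scoped ENNReal

/-- positions of the squares of the rectangle `[a, b)` in the plane `x l = v l + a l / 2 ^ n` -/
noncomputable def rectN (l : Fin 3) (a b : Fin 3 → ℤ) : Finset (Fin 3 → ℤ) :=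
  Fintype.piFinset fun j => if j = l then {a l} else Finset.Ico (a j) (b j)

/-- positions of the edges of direction `i` in the closed rectangle -/
noncomputable def redgeN (l : Fin 3) (a b : Fin 3 → ℤ) (i : Fin 3) : Finset (Fin 3 → ℤ) :=
  Fintype.piFinset fun j => if j = l then {a l} else if j = i then Finset.Ico (a j) (b j)
    else Finset.Icc (a j) (b j)

/-- the edge `k` of the line `x 1 = v 1 + k₁ / 2 ^ n`, `x 2 = v 2 + k₂ / 2 ^ n` -/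
def ledge (n : ℕ) (k₁ k₂ k : ℤ) : Idx × Fin 3 := ((n, ![k, k₁, k₂]), 0)

/-- error of the first component of `h` on an edge of the line -/
noncomputable def xL (h : V → V) (v : V) (e : Idx × Fin 3) : ℝ≥0∞ :=
  eInt v e fun x => ENNReal.ofReal |lineDeriv ℝ h x (ev 0) 0 - 1|

/-- **The data.** `ε`: all errors; `δ`: from the face theorem. -/
structure PreBeam (p C θ₁ θ₂ ν₁ ν τ ε δ : ℝ) (Λ : Set V) (f : V → V) extends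
    BoxData δ (Bx (bm θ₁ θ₂)) Λ (cmp (bm θ₁ θ₂) f) where
  bulk : eSum p v I ℓ univ ≤ ENNReal.ofReal (C * θ₁ * θ₂)
  frame : eSum p v I ℓ (Fr (bm θ₁ θ₂) (3 * ν₁) {0, 2}) ≤ ENNReal.ofReal (C * ν₁ * θ₁ * θ₂)
  -- the plane
  /-- generation of the squares of the plane, in the core -/
  nS : ℕ
  fine : 1 / 2 ^ nS ≤ ε
  /-- the core rectangle; the plane is `x 1 = v 1 + a 1 / 2 ^ nS` -/
  a : Fin 3 → ℤ
  b : Fin 3 → ℤ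
  alt : ∀ i, i ≠ 1 → a i < b i
  unit : (b 0 - a 0 : ℝ) / 2 ^ nS ≤ 1
  mid₁ : |v 1 + a 1 / 2 ^ nS - θ₁| ≤ τ
  plane : ∀ q ∈ I, ∀ x : V, x 1 = v 1 + a 1 / 2 ^ nS → x ∉ dyo v q.1 q.2
  minS : ∀ k ∈ rectN 1 a b, MinSq v I ((nS, k), 1)
  minE : ∀ i, i ≠ 1 → ∀ k ∈ redgeN 1 a b i, MinEdge v I ((nS, k), i)
  cov : ∀ x ∈ Bx (fl θ₂) ∩ Co (fl θ₂) (ν₁ / 2) {0, 2}, ∃ k ∈ rectN 1 a b,
    Function.update x 1 (v 1 + a 1 / 2 ^ nS) ∈ squ v ((nS, k), 1)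
  /-- energy of the edges of the plane -/
  plBulk : ∑ i ∈ Finset.univ.erase (1 : Fin 3), ∑ k ∈ redgeN 1 a b i,
    ENNReal.ofReal (1 / 2 ^ nS) * (ENNReal.ofReal ((1 / 2 ^ nS) ^ (1 - p)) *
      ℓ ((nS, k), i) ^ p) ≤ ENNReal.ofReal (C * θ₂)
  plFrame : ∑ i ∈ Finset.univ.erase (1 : Fin 3), ∑ k ∈ redgeN 1 a b i with
      v 0 + k 0 / 2 ^ nS ≤ 4 * ν ∨ 1 - 4 * ν ≤ v 0 + k 0 / 2 ^ nS,
    ENNReal.ofReal (1 / 2 ^ nS) * (ENNReal.ofReal ((1 / 2 ^ nS) ^ (1 - p)) *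
      ℓ ((nS, k), i) ^ p) ≤ ENNReal.ofReal (C * ν * θ₂)
  -- the line
  /-- the line is `x 1 = v 1 + a 1 / 2 ^ nS`, `x 2 = v 2 + m₂ / 2 ^ nS` -/
  m₂ : ℤ
  m₂mem : m₂ ∈ Icc (a 2) (b 2)
  mid₂ : |v 2 + m₂ / 2 ^ nS - θ₂| ≤ τ
  /-- generation of the tiles near the image of the core of the line -/
  mt : ℕ
  mtε : 1 / 2 ^ mt ≤ ε
  tile : ∀ k ∈ Finset.Ico (a 0) (b 0), ∀ x ∈ edge v (ledge nS (a 1) m₂ k), ∀ z : Fin 3 → ℤ,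
    (∃ y ∈ dyc 0 mt z, ‖h.toFun x - y‖ ≤ 4 / 2 ^ mt) → IsTile ρ 0 mt z
  /-- the good edges -/
  G : Finset ℤ
  Gsub : G ⊆ Finset.Ico (a 0) (b 0)
  tube : ∀ k ∈ G, ∃ t : Fin 3 → ℤ, ∀ x ∈ edge v (ledge nS (a 1) m₂ k), ∀ j, j ≠ 0 →
    |h.toFun x j - t j / 2 ^ mt| ≤ δ / 2 ^ mt
  /-- energy of the bad edges -/
  bad : ∑ k ∈ Finset.Ico (a 0) (b 0) \ G,
    ENNReal.ofReal ((1 / 2 ^ nS) ^ (1 - p)) * ℓ (ledge nS (a 1) m₂ k) ^ p ≤ ENNReal.ofReal ε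
  /-- the error on the edges of the line -/
  X : ℤ → ℝ≥0∞
  /-- on the line the first component of `h` is close to the identity -/
  near : ∀ k ∈ Finset.Ico (a 0) (b 0), xL h.toFun v (ledge nS (a 1) m₂ k) ≤ X k
  /-- on the good edges the weights are bounded -/
  good : ∀ k ∈ G, ℓ (ledge nS (a 1) m₂ k) ≤ ENNReal.ofReal C * (ENNReal.ofReal (1 / 2 ^ nS) + X k)
  close : ∑ k ∈ Finset.Ico (a 0) (b 0),
    ENNReal.ofReal ((1 / 2 ^ nS) ^ (1 - p)) * X k ^ p ≤ ENNReal.ofReal ε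

/-- **[PRE-BEAM]** the data exist. -/
def SpecPreBeam (p : ℝ) : Prop :=
  ∃ C > 0, ∀ ν, 0 < ν → ν ≤ 1 / 4 → ∀ θ₂, 0 < θ₂ → θ₂ ≤ 1 / 4 →
    ∀ ν₁, 0 < ν₁ → ν₁ ≤ ν / 4 → ∃ θ₀ > 0, ∀ θ₁, 0 < θ₁ → θ₁ ≤ θ₀ → ∀ τ > 0, ∀ δ > 0, ∀ ε > 0,
    ∃ κ > 0, ∀ (Λ : Set V) (f : V → V) (F : V → Mat), Near p κ P1 Λ f F →
      Nonempty (PreBeam p C θ₁ θ₂ ν₁ ν τ ε δ Λ f)

/-- **[POST-BEAM]** -/
def SpecPostBeam (p : ℝ) : Prop :=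
  K2AS p → ∃ D > 0, ∀ C > 0, ∀ ε > 0, ∃ M ≥ 1, ∀ (θ₁ θ₂ ν₁ ν : ℝ), 0 < θ₁ → θ₁ ≤ 1 / 4 →
    0 < θ₂ → θ₂ ≤ 1 / 4 → 0 < ν₁ → ν₁ ≤ ν / 4 → ν ≤ 1 / 4 → ∀ τ > 0, ∃ δ > 0, ∃ ε' > 0,
    ∀ (τ' : ℝ) (Λ : Set V) (f : V → V), St.IsBoundedDomain Λ → ContinuousOn f (closure Q1) →
      τ' ≤ τ → τ' < θ₁ → τ' < θ₂ →
      PreBeam p C θ₁ θ₂ ν₁ ν τ' ε' δ Λ f → ConBeamT p (D * C) M θ₁ θ₂ ν₁ ν τ ε P1 Λ f

theorem specConBeamT_of {p : ℝ} (hK : K2AS p) (h1 : SpecPreBeam p) (h2 : SpecPostBeam p) :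
    SpecConBeamT p P1 := by
  obtain ⟨D, hD, H2⟩ := h2 hK
  obtain ⟨C, hC, H1⟩ := h1
  refine ⟨D * C, by positivity, fun ε hε => ?_⟩
  obtain ⟨M, hM, H2'⟩ := H2 C hC ε hε
  refine ⟨M, hM, fun ν hν hν4 θ₂ hθ₂ hθ₂4 ν₁ hν₁ hν₁4 => ?_⟩
  obtain ⟨θ₀, hθ₀, H1'⟩ := H1 ν hν hν4 θ₂ hθ₂ hθ₂4 ν₁ hν₁ hν₁4
  refine ⟨min θ₀ (1 / 4), by positivity, fun θ₁ hθ₁ hθ₁' τ hτ => ?_⟩
  obtain ⟨δ, hδ, ε', hε', H2''⟩ := H2' θ₁ θ₂ ν₁ ν hθ₁ (hθ₁'.trans (min_le_right _ _)) hθ₂ hθ₂4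
    hν₁ hν₁4 hν4 τ hτ
  obtain ⟨κ, hκ, H1''⟩ := H1' θ₁ hθ₁ (hθ₁'.trans (min_le_left _ _))
    (min τ (min (θ₁ / 2) (θ₂ / 2))) (by positivity) δ hδ ε' hε'
  refine ⟨κ, hκ, fun Λ f F hN => ?_⟩
  obtain ⟨P⟩ := H1'' Λ f F hN
  have h3 : min τ (min (θ₁ / 2) (θ₂ / 2)) ≤ θ₁ / 2 := (min_le_right _ _).trans (min_le_left _ _)
  have h4 : min τ (min (θ₁ / 2) (θ₂ / 2)) ≤ θ₂ / 2 := (min_le_right _ _).trans (min_le_right _ _)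
  exact H2'' _ Λ f hN.dom hN.cont (min_le_left _ _) (by linarith) (by linarith) P

/-! ### The line -/

/-- The situation on the line; `ε`: small errors, `c`: margin of the sharp clause. -/
structure LineData {Ω Λ : Set V} (p C D c ε : ℝ) (v : V) (nS mt : ℕ) (k₁ k₂ α β : ℤ)
    (G : Finset ℤ) (h g : ConHomeo Ω Λ) (ℓ X : ℤ → ℝ≥0∞) : Prop where
  lt : α < β
  unit : (β - α : ℝ) / 2 ^ nS ≤ 1
  sub : ∀ k ∈ Finset.Ico α β, edge v (ledge nS k₁ k₂ k) ⊆ Ω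
  fine : 1 / 2 ^ nS ≤ ε
  mtε : 1 / 2 ^ mt ≤ ε
  Gsub : G ⊆ Finset.Ico α β
  near : ∀ k ∈ Finset.Ico α β, xL h.toFun v (ledge nS k₁ k₂ k) ≤ X k
  close : ∑ k ∈ Finset.Ico α β, ENNReal.ofReal ((1 / 2 ^ nS) ^ (1 - p)) * X k ^ p ≤
    ENNReal.ofReal ε
  osc : ∀ k ∈ Finset.Ico α β, ∀ x ∈ edge v (ledge nS k₁ k₂ k), ∀ y ∈ edge v (ledge nS k₁ k₂ k),
    ‖h.toFun x - h.toFun y‖ ≤ c / 2 ^ mt
  app : ∀ k ∈ Finset.Ico α β, ∀ x ∈ edge v (ledge nS k₁ k₂ k), ‖g.toFun x - h.toFun x‖ ≤ D / 2 ^ mt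
  /-- sharp clause on the good edges in the middle of the tiles -/
  tv : ∀ k ∈ G, (∃ z : ℤ, ∀ x ∈ edge v (ledge nS k₁ k₂ k),
      (z + c) / 2 ^ mt ≤ h.toFun x 0 ∧ h.toFun x 0 ≤ (z + 1 - c) / 2 ^ mt) →
    H239.tv g.toFun (segP v (ledge nS k₁ k₂ k)) Finset.univ ≤
      ENNReal.ofReal (1 + c) * H239.tv h.toFun (segP v (ledge nS k₁ k₂ k)) {0} +
        ENNReal.ofReal (ε / 2 ^ nS)
  elip : ∀ k ∈ Finset.Ico α β, ℓ k ≠ ⊤ → ∀ x ∈ edge v (ledge nS k₁ k₂ k),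
    ∀ y ∈ edge v (ledge nS k₁ k₂ k), ‖g.toFun x - g.toFun y‖ ≤
      D * (((ℓ k).toReal + ε / 2 ^ nS) * 2 ^ nS) * ‖x - y‖
  bad : ∑ k ∈ Finset.Ico α β \ G, ENNReal.ofReal ((1 / 2 ^ nS) ^ (1 - p)) * ℓ k ^ p ≤
    ENNReal.ofReal ε
  good : ∀ k ∈ G, ℓ k ≤ ENNReal.ofReal C * (ENNReal.ofReal (1 / 2 ^ nS) + X k)

/-- **[LINE-OK]** -/
def SpecLineOK : Prop :=
  ∀ p C D ε₁ : ℝ, 2 ≤ p → 0 < C → 0 < D → 0 < ε₁ → ∃ M ≥ 1, ∃ c₁ > 0, ∀ c, 0 < c → c ≤ c₁ →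
    ∀ τ > 0, ∃ ε > 0, ∀ (Ω Λ : Set V) (v : V) (nS mt : ℕ) (k₁ k₂ α β : ℤ) (G : Finset ℤ)
      (h g : ConHomeo Ω Λ) (ℓ X : ℤ → ℝ≥0∞), LineData p C D c ε v nS mt k₁ k₂ α β G h g ℓ X →
      ∀ a b : ℝ, a + 1 / 2 ≤ b → v 0 + α / 2 ^ nS ≤ a → b ≤ v 0 + β / 2 ^ nS →
        LineOK p ε₁ M τ a b (ev 0) fun u =>
          lineDeriv ℝ g.toFun (lpt (v 1 + k₁ / 2 ^ nS) (v 2 + k₂ / 2 ^ nS) u) (ev 0)

end Vale.Agent.P073.H253
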