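import Vale.Agent.P073.H235.ConSpec

/-!
# P073, rank one: statements

The constant `C` of the bounded theorems may depend on the final error `ε` (`SpecFlatW`,
`SpecBeamW`).  On the middle line only the total variation is sharp, so the line is
reparametrised (`LineOK`): `ρ` is the derivative of the inverse of the reparametrisation.
-/

namespace Vale.Agent.P073.H253

open MeasureTheory Set Filter Topology Metric Vale.Agent.P073.LOC Vale.Agent.P073.H235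
open Vale.Agent.P073.St (V Mat)
open Vale.Agent.P073.SQ (ev cube Cells)
open Vale.Agent.P073.H73 (enL)
open _root_.P073 (ConHomeo)
open scoped ContDiff ENNReal

/-- rank two, the constant may depend on `ε` -/
def SpecFlatW (p : ℝ) (L : V →L[ℝ] V) : Prop :=
  ∀ ε > 0, ∃ C > 0, ∀ ν, 0 < ν → ν ≤ 1 / 4 → ∃ θ₀ > 0, ∀ θ, 0 < θ → θ ≤ θ₀ → ∃ κ > 0,
    ∀ (Λ : Set V) (f : V → V) (F : V → Mat), Near p κ L Λ f F → ∃ g, Flat p C θ ν ε L Λ f g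

/-- rank one, the constant may depend on `ε` -/
def SpecBeamW (p : ℝ) (L : V →L[ℝ] V) : Prop :=
  ∀ ε > 0, ∃ C > 0, ∀ ν, 0 < ν → ν ≤ 1 / 4 → ∀ θ₂, 0 < θ₂ → θ₂ ≤ 1 / 4 → ∀ ν₁, 0 < ν₁ →
    ν₁ ≤ ν / 4 → ∃ θ₀ > 0, ∀ θ₁, 0 < θ₁ → θ₁ ≤ θ₀ → ∃ κ > 0,
    ∀ (Λ : Set V) (f : V → V) (F : V → Mat), Near p κ L Λ f F →
      ∃ g, Beam2 p C θ₁ θ₂ ν₁ ν ε L Λ f g

/-- **(C4W)** -/
def SpecC4W : Prop :=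
  ∀ (p : ℝ) (L : V →L[ℝ] V), 1 ≤ p → L (ev 1) = 0 → L (ev 2) = 0 → SpecBeamW p L → SpecFlatW p L

/-- **(UNCW)** -/
def SpecUncW : Prop :=
  ∀ (p : ℝ) (L : V →L[ℝ] V), 1 ≤ p → L (ev 2) = 0 → SpecFlatW p L → LocThm p L

theorem specFlatW_of {p : ℝ} {L : V →L[ℝ] V} (h : SpecFlat p L) : SpecFlatW p L := by
  obtain ⟨C, hC, h⟩ := h
  intro ε hε
  refine ⟨C, hC, fun ν h1 h2 => ?_⟩
  obtain ⟨θ₀, h3, h4⟩ := h ν h1 h2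
  exact ⟨θ₀, h3, fun θ h5 h6 => h4 θ h5 h6 ε hε⟩

/-- The curve with derivative `G` on `[a, b]` has a reparametrisation with derivative close to `w`.
`ρ` is the derivative of the inverse `σ` of the reparametrisation `ψ`: `(γ ∘ ψ)' = ρ⁻¹ G` at
`u = ψ t`, `dt = ρ du`. -/
def LineOK (p ε M τ a b : ℝ) (w : V) (G : ℝ → V) : Prop :=
  ∃ ρ : ℝ → ℝ, Measurable ρ ∧ (∀ u, 1 / M ≤ ρ u ∧ ρ u ≤ M) ∧ (∀ u, u ∉ Icc a b → ρ u = 1) ∧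
    ∫ u in a..b, ρ u = b - a ∧ (∀ u ∈ Icc a b, |∫ t in a..u, (ρ t - 1)| ≤ τ) ∧
    ∫⁻ u in Icc a b, ENNReal.ofReal (‖(ρ u)⁻¹ • G u - w‖ ^ p * ρ u) ≤ ENNReal.ofReal ε

/-- the point of the line `x 1 = c₁`, `x 2 = c₂` -/
def lpt (c₁ c₂ u : ℝ) : V := ![u, c₁, c₂]

/-- As `ConBeam`, with a reparametrisation of the line. Frames of relative width `3 ν₁`, `3 ν`. -/
def ConBeamT (p C M θ₁ θ₂ ν₁ ν τ ε : ℝ) (L : V →L[ℝ] V) (Λ : Set V) (f : V → V) : Prop :=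
  ∃ (c₁ c₂ : ℝ) (W : Cells (Bx (bm θ₁ θ₂)) ∅) (h : ConHomeo (Bx (bm θ₁ θ₂)) Λ),
    |c₁ - θ₁| ≤ τ ∧ |c₂ - θ₂| ≤ τ ∧ Dec W 1 c₁ ∧
    BdClose (Bx (bm θ₁ θ₂)) (cmp (bm θ₁ θ₂) f) h.toFun ∧
    enS W p h.toFun univ ≤ ENNReal.ofReal (C * θ₁ * θ₂) ∧
    enS W p h.toFun (Fr (bm θ₁ θ₂) (3 * ν₁) {0, 2}) ≤ ENNReal.ofReal (C * ν₁ * θ₁ * θ₂) ∧
    -- the plane `x 1 = c₁`
    ∑ j ∈ Finset.univ.erase (1 : Fin 3), ∫⁻ x in Bx (fl θ₂) ∩ Co (fl θ₂) (ν₁ / 2) {0, 2},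
      ENNReal.ofReal (‖lineDeriv ℝ h.toFun (Function.update x 1 c₁) (ev j)‖ ^ p) ≤
        ENNReal.ofReal (C * θ₂) ∧
    ∑ j ∈ Finset.univ.erase (1 : Fin 3),
      ∫⁻ x in Bx (fl θ₂) ∩ Co (fl θ₂) (ν₁ / 2) {0, 2} ∩ Fr (fl θ₂) (3 * ν) {0},
      ENNReal.ofReal (‖lineDeriv ℝ h.toFun (Function.update x 1 c₁) (ev j)‖ ^ p) ≤
        ENNReal.ofReal (C * ν * θ₂) ∧
    -- the line `x 1 = c₁`, `x 2 = c₂`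
    LineOK p ε M τ (ν / 8) (1 - ν / 8) (L (ev 0))
      (fun u => lineDeriv ℝ h.toFun (lpt c₁ c₂ u) (ev 0))

/-- **producer, rank one** -/
def SpecConBeamT (p : ℝ) (L : V →L[ℝ] V) : Prop :=
  ∃ C > 0, ∀ ε > 0, ∃ M ≥ 1, ∀ ν, 0 < ν → ν ≤ 1 / 4 → ∀ θ₂, 0 < θ₂ → θ₂ ≤ 1 / 4 →
    ∀ ν₁, 0 < ν₁ → ν₁ ≤ ν / 4 → ∃ θ₀ > 0, ∀ θ₁, 0 < θ₁ → θ₁ ≤ θ₀ → ∀ τ > 0, ∃ κ > 0,
    ∀ (Λ : Set V) (f : V → V) (F : V → Mat), Near p κ L Λ f F →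
      ConBeamT p C M θ₁ θ₂ ν₁ ν τ ε L Λ f

/-- The same for a diffeomorphism (any exponent); the line and the plane are at `c₁`, `c₂`; frames
of relative width `a₁`, `a`. -/
structure BeamT (p C M θ₁ θ₂ ν₁ ν a₁ a τ ε c₁ c₂ : ℝ) (L : V →L[ℝ] V) (Λ : Set V)
    (f g : V → V) : Prop where
  diffeo : St.IsDiffeo (Bx (bm θ₁ θ₂)) Λ g
  close : BdClose (Bx (bm θ₁ θ₂)) (cmp (bm θ₁ θ₂) f) g
  bulk : En p g Finset.univ (Bx (bm θ₁ θ₂)) ≤ ENNReal.ofReal (C * θ₁ * θ₂)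
  frame : En p g Finset.univ (Bx (bm θ₁ θ₂) ∩ Fr (bm θ₁ θ₂) a₁ {0, 2}) ≤
    ENNReal.ofReal (C * ν₁ * θ₁ * θ₂)
  /-- the plane `x 1 = c₁` -/
  pl : En2 p g (Finset.univ.erase 1) 1 c₁ (Bx (fl θ₂) ∩ Co (fl θ₂) (ν₁ / 2) {0, 2}) ≤
    ENNReal.ofReal (C * θ₂)
  plFrame : En2 p g (Finset.univ.erase 1) 1 c₁
    (Bx (fl θ₂) ∩ Co (fl θ₂) (ν₁ / 2) {0, 2} ∩ Fr (fl θ₂) a {0}) ≤ ENNReal.ofReal (C * ν * θ₂)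
  /-- the line `x 1 = c₁`, `x 2 = c₂` -/
  line : LineOK p ε M τ (ν / 8) (1 - ν / 8) (L (ev 0))
    (fun u => fderiv ℝ g (lpt c₁ c₂ u) (ev 0))

/-- **(RP)** reparametrisation of the line and shift of the plane and the line to the middle; the
error on the line does not depend on `M` -/
def SpecRP : Prop :=
  ∀ (p M : ℝ), 1 ≤ p → 1 ≤ M → ∃ K > 0, ∀ (C θ₁ θ₂ ν₁ ν ε : ℝ), 0 < C → 0 < θ₁ → 0 < θ₂ →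
    θ₂ ≤ 1 / 4 → 0 < ν₁ → ν₁ ≤ ν / 4 → ν ≤ 1 / 4 → 0 < ε → ∃ τ > 0, ∀ (c₁ c₂ : ℝ)
    (L : V →L[ℝ] V) (Λ : Set V) (f g : V → V), |c₁ - θ₁| ≤ τ → |c₂ - θ₂| ≤ τ →
    ContinuousOn f (closure Q1) →
    BeamT p C M θ₁ θ₂ ν₁ ν (2 * ν₁) (2 * ν) τ ε c₁ c₂ L Λ f g →
    ∃ g', Beam2 p (K * C) θ₁ θ₂ ν₁ ν (2 * ε) L Λ f g'

end Vale.Agent.P073.H253
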