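import Vale.Agent.P073.H228.EdgeP5C
import Vale.Agent.P073.H253.EstS2
import Vale.Agent.P073.H155.NumS
import Vale.Agent.P073.H236.SlotP

/-!
# P073, H253, [EDGE-P] (P2): the layer of the tubes on the edges

* `seg_disj`: an edge misses the open cells.
* `tOk_gen`: `PRes` before the layer of the tubes gives `LAtC` after it, for any map.
* `S5.tOk`: the last map; `S5.tOkq`: the auxiliary map `fq`.
* `gap_win`: the fattened windows are in the gaps of the thin bands (from `TBand.offX`).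
* `exists_tolE`: the tolerance of the last staircase for given tolerances of the edges.
-/

open Set Metric Topology Filter
open scoped ENNReal

set_option linter.unusedSectionVars false

namespace Vale.Agent.P073.H253.EdT

open _root_.P073 _root_.P073.Net _root_.P073.PA691 _root_.P073.H236
open _root_.P073.H936 _root_.P073.H936.K3
open _root_.P073.H142
open _root_.P073.H345 (PK tg bt PLev)
open _root_.P073.H880.RP
open _root_.P073.H429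
open _root_.P073.H228.EP
open Vale.Agent.P073.St (V)
open Vale.Agent.P073.H471 Vale.Agent.P073.H267 Vale.Agent.P073.H267.K3
open Vale.Agent.P073.H73 (Mesh)
open Vale.Agent.P073.H193 (Edges edges LAtC)
open Vale.Agent.P073.H926
open Vale.Agent.P073.H238.K3
open Vale.Agent.P073.H233 (PSet Xp)

/-- **an edge misses the open cells** -/
theorem seg_disj {Ω : Set V} (M : Mesh Ω) (e : (edges M).ε) {γ : Type*} {Zb : γ → Set M.ι} :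
    Disjoint ((edges M).seg e) (⋃ b, ⋃ i ∈ Zb b, interior (M.Q i)) := by
  obtain ⟨k, hk⟩ := (edges M).own e
  rw [Set.disjoint_left]
  intro y hy hy'
  obtain ⟨b', hy'⟩ := mem_iUnion.1 hy'
  obtain ⟨i', -, hy'⟩ := mem_iUnion₂.1 hy'
  exact _root_.P073.H919.not_interior_of_face M i' (hk hy) hy'

variable {c₀ n δ : ℝ} {j : ℕ} {Ω Λ : Set V} {v w : V} {ρ : V → ℝ} {M : Mesh Ω} {h : ConHomeo Ω Λ}
  {J₀ J : Set (ℕ × (Fin 3 → ℤ))} {P Z : Set M.ι} {K : BoxCx Λ w}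
  {D : KIn3 c₀ n j δ v w ρ M h J₀ J P Z} {C : Cells ρ w K}

/-- the support of the last staircase -/
noncomputable abbrev KS (D : KIn3 c₀ n j δ v w ρ M h J₀ J P Z) (C : Cells ρ w K) (e : K.G) :
    Set V :=
  YB ((YS (D.G C)).add (rT (D.G C)) (rT_pos (D.G C)) (fun e k => (YS_p_lt (D.G C) e k).le)
    fun e k => (YS_q_lt (D.G C) e k).le) e

section gen

variable {sl : pG C J₀ → Finset (ℝ × ℝ)} {μ : pG C J₀ → ℝ}
  {Th : ∀ b : pG C J₀, Thn (eal (D.W C) b.1) (ebe (D.W C) b.1) (sl b) (μ b)}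
  {hφ : Function.Injective (Subtype.val : pG C J₀ → K.G)} {ς : pG C J₀ → ℝ}
  {h0 : ∀ b, 0 < ς b} {h1 : ∀ b, ς b ≤ 1} {Pb : pG C J₀ → Set V} {Dr : Set V}
  {f5 h6 : ConHomeo Ω Λ} {Sm : ConHomeo Λ Λ}

/-- **after the layer of the tubes**, any map -/
theorem tOk_gen (TL : TLay (D.B C) (Subtype.val : pG C J₀ → K.G) Pb
      (tfam (YS (D.G C)) (rT (D.G C)) (rT_pos (D.G C)) (fun e k => (YS_p_lt (D.G C) e k).le)
        (fun e k => (YS_q_lt (D.G C) e k).le) hφ Th h0 h1) Dr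
      (fun b i => (Th b).c i - (Th b).w i) (fun b i => (Th b).c i + (Th b).w i) ς f5 h6 Sm)
    (μ0 : ∀ b, 0 ≤ μ b) (μ1 : ∀ b, μ b ≤ 1)
    (μu : ∀ b : pG C J₀, μ b * (ebe (D.W C) b.1 - eal (D.W C) b.1) ≤ (D.G C).uT b.1 / 4)
    {A : Set V} (hA : A ⊆ Ω) (hD : Disjoint A Dr) {Sv : K.G → Set ℝ}
    (hSv : ∀ b : pG C J₀, ∀ t ∈ Sv b.1, ∀ i, t < (Th b).c i - (Th b).w i ∨
      (Th b).c i + (Th b).w i < t) {εT : ℝ} (hεT : 0 ≤ εT)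
    (hε : ∀ x ∈ A, ∀ b : pG C J₀, f5.toFun x ∈ KS D C b.1 →
      ∀ᶠ x' in 𝓝[A] x, ς b * |h6.toFun x' (K.dir b.1) - h6.toFun x (K.dir b.1)| ≤
        εT * ‖x' - x‖) {x : V} (hx : x ∈ A) {cst : V → ℝ} (hc0 : ∀ y, 0 ≤ cst y)
    (HP : PRes (D.B C) (Xp C J₀) (FlT (D.B C)) Sv cst A f5.toFun x) :
    LAtC (D.B C) (Xp C J₀) (fun y => 4 * cst y + εT * ‖y - x‖) A
      (fun y => Sm.toFun (h6.toFun y)) x := by
  refine PRes.final TL (fun b => ⟨b.2, pW_of_pG b.2 (Or.inl rfl), pW_of_pG b.2 (Or.inr rfl)⟩)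
    (fun e he => ⟨⟨e, he⟩, rfl⟩) (fun b => rfl) (fun b => rfl) (fun b i t hi ht => ?_)
    (fun b t ht i => hSv b t ht i) hA hD hx HP (Eventually.of_forall hc0) (sl := 2) (κ := 1)
    (c₂ := fun y => εT * ‖y - x‖) (fun b hb => ⟨?_, ?_, ?_⟩) (Eventually.of_forall fun y => ?_)
  · have h2 := abs_lt.1 ht
    show t ∈ Ioo (ylo (YS (D.G C)) b.1 i) (yhi (YS (D.G C)) b.1 i)
    unfold ylo yhi
    rw [if_neg hi, if_neg hi, YS_p, YS_q]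
    constructor <;> linarith [h2.1, h2.2]
  · exact ((Th b).slG_le (h0 b).le (h1 b) (μ0 b)).trans (by linarith [μ1 b])
  · have hu : 0 < (D.G C).uT b.1 / 4 := by have := (D.G C).uT_pos b.1; positivity
    refine ⟨(D.G C).uT b.1 / 4, hu, fun i => le_rfl, ?_⟩
    rw [div_le_iff₀ hu, one_mul]
    exact ((Th b).disp_le (μ0 b)).trans (μu b)
  · refine hε x hx b ?_
    change f5.toFun x ∈ (tX (YS (D.G C)) (rT (D.G C)) (rT_pos (D.G C)) (Th b) (h0 b) (h1 b)).K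
      at hb
    rwa [tX_K (hp := fun e k => (YS_p_lt (D.G C) e k).le)
      (hq := fun e k => (YS_q_lt (D.G C) e k).le)] at hb
  · have h2 := hc0 y
    have h3 : 0 ≤ εT * ‖y - x‖ := mul_nonneg hεT (norm_nonneg _)
    refine ⟨by linarith, by linarith, by linarith⟩

end gen

variable {C₀ μT : ℝ} {X : S1 D C C₀ μT} {Y₂ : S2 X} {Ys : Set M.κ} {sc : Sharp} {Y₃ : S3 Y₂ Ys sc}
  {Y₄ : S4 Y₃}

/-- **the fattened windows are in the gaps of the thin bands** -/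
theorem gap_win (Y₅ : S5 Y₄) {Dd : ℝ} {b : pG C J₀} {sl₀ : Finset (ℝ × ℝ)}
    {Fσ : Bool → BFam 3 (D.dat C).S₀ Λ}
    {ς' : Bool → (D.dat C).S₀ → ℝ} (HB : _root_.P073.H155.TBand Y₃.Lt Fσ ς' b.1 sl₀ (Y₂.win b.1) Dd (Y₅.Th b))
    {t : ℝ} (ht : ∃ p ∈ Y₂.win b.1, t ∈ Icc (p.1 - 2 * Dd) (p.2 + 2 * Dd)) (i : (Y₅.Th b).I) :
    t < (Y₅.Th b).c i - (Y₅.Th b).w i ∨ (Y₅.Th b).c i + (Y₅.Th b).w i < t := by
  obtain ⟨p, hp, h1, h2⟩ := ht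
  rcases HB.offX i p hp with h3 | h3
  · left; linarith
  · right; linarith

/-- **(P2)**: the last map -/
theorem tOk (Y₅ : S5 Y₄) (μ0 : ∀ b, 0 ≤ Y₅.μ b) (μ1 : ∀ b, Y₅.μ b ≤ 1)
    (μu : ∀ b : pG C J₀, Y₅.μ b * (ebe (D.W C) b.1 - eal (D.W C) b.1) ≤ (D.G C).uT b.1 / 4)
    {Sv : K.G → Set ℝ} (hSv : ∀ b : pG C J₀, ∀ t ∈ Sv b.1, ∀ i,
      t < (Y₅.Th b).c i - (Y₅.Th b).w i ∨ (Y₅.Th b).c i + (Y₅.Th b).w i < t)
    (e : (edges M).ε) {εT : ℝ} (hεT : 0 ≤ εT)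
    (hε : ∀ b : pG C J₀, (Y₄.f5.toFun '' (edges M).seg e ∩ KS D C b.1).Nonempty → Y₅.ε b ≤ εT) :
    ∀ x ∈ (edges M).seg e, ∀ cst : V → ℝ, (∀ y, 0 ≤ cst y) →
      PRes (D.B C) (Xp C J₀) (FlT (D.B C)) Sv cst ((edges M).seg e) Y₄.f5.toFun x →
      LAtC (D.B C) (Xp C J₀) (fun y => 4 * cst y + εT * ‖y - x‖) ((edges M).seg e)
        Y₅.f.toFun x := by
  intro x hx cst hc0 HP
  refine tOk_gen Y₅.lay μ0 μ1 μu ((edges M).seg_sub_Ω e) (seg_disj M e) hSv hεT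
    (fun z hz b hb => ?_) hx hc0 HP
  have h1 := hε b ⟨_, ⟨z, hz, rfl⟩, hb⟩
  filter_upwards [Y₅.lipK (A := (edges M).seg e) ((edges M).seg_sub_Ω e hz) hb (K.dir b.1)]
    with y h2
  calc Y₅.ς b * |Y₅.h6.toFun y (K.dir b.1) - Y₅.h6.toFun z (K.dir b.1)|
      ≤ Y₅.ς b * (Y₅.K₂ b * ‖y - z‖) := mul_le_mul_of_nonneg_left h2 (Y₅.ς0 b).le
    _ = Y₅.ς b * Y₅.K₂ b * ‖y - z‖ := by ring
    _ ≤ εT * ‖y - z‖ := mul_le_mul_of_nonneg_right ((Y₅.ςK b).trans h1) (norm_nonneg _)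

/-- **(P2)**: the auxiliary map -/
theorem tOkq (Y₅ : S5 Y₄) (μ0 : ∀ b, 0 ≤ Y₅.μ b) (μ1 : ∀ b, Y₅.μ b ≤ 1)
    (μu : ∀ b : pG C J₀, Y₅.μ b * (ebe (D.W C) b.1 - eal (D.W C) b.1) ≤ (D.G C).uT b.1 / 4)
    {Sv : K.G → Set ℝ} (hSv : ∀ b : pG C J₀, ∀ t ∈ Sv b.1, ∀ i,
      t < (Y₅.Th b).c i - (Y₅.Th b).w i ∨ (Y₅.Th b).c i + (Y₅.Th b).w i < t)
    {K₄ : pG C J₀ → ℝ}
    (hK₄ : ∀ b : pG C J₀, ∀ x ∈ Ω, Y₃.h4.toFun x ∈ KS D C b.1 →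
      ∀ᶠ y in 𝓝 x, ‖Y₃.h4.toFun y - Y₃.h4.toFun x‖ ≤ K₄ b * ‖y - x‖)
    (e : (edges M).ε) {εT : ℝ} (hεT : 0 ≤ εT)
    (hε : ∀ b : pG C J₀, (Y₃.h4.toFun '' (edges M).seg e ∩ KS D C b.1).Nonempty →
      Y₅.ς b * K₄ b ≤ εT) :
    ∀ x ∈ (edges M).seg e, ∀ cst : V → ℝ, (∀ y, 0 ≤ cst y) →
      PRes (D.B C) (Xp C J₀) (FlT (D.B C)) Sv cst ((edges M).seg e) Y₃.h4.toFun x →
      LAtC (D.B C) (Xp C J₀) (fun y => 4 * cst y + εT * ‖y - x‖) ((edges M).seg e)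
        Y₅.fq.toFun x := by
  intro x hx cst hc0 HP
  refine tOk_gen (Y₅.layq ∅) μ0 μ1 μu ((edges M).seg_sub_Ω e) (disjoint_empty _) hSv hεT
    (fun z hz b hb => ?_) hx hc0 HP
  have h1 := hε b ⟨_, ⟨z, hz, rfl⟩, hb⟩
  filter_upwards [nhdsWithin_le_nhds (hK₄ b z ((edges M).seg_sub_Ω e hz) hb)] with y h2
  have h3 := norm_le_pi_norm (Y₃.h4.toFun y - Y₃.h4.toFun z) (K.dir b.1)
  rw [Pi.sub_apply, Real.norm_eq_abs] at h3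
  calc Y₅.ς b * |Y₃.h4.toFun y (K.dir b.1) - Y₃.h4.toFun z (K.dir b.1)|
      ≤ Y₅.ς b * (K₄ b * ‖y - z‖) := mul_le_mul_of_nonneg_left (h3.trans h2) (Y₅.ς0 b).le
    _ = Y₅.ς b * K₄ b * ‖y - z‖ := by ring
    _ ≤ εT * ‖y - z‖ := mul_le_mul_of_nonneg_right h1 (norm_nonneg _)

/-- **a tolerance over the supports from tolerances of the edges**, for any map -/
theorem exists_tolE1 (D : KIn3 c₀ n j δ v w ρ M h J₀ J P Z) (C : Cells ρ w K) (f : ConHomeo Ω Λ)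
    {εT : (edges M).ε → ℝ} (hεT : ∀ e, 0 < εT e) :
    ∃ t : pG C J₀ → ℝ, (∀ b, 0 < t b) ∧ ∀ (b : pG C J₀) e,
      (f.toFun '' (edges M).seg e ∩ KS D C b.1).Nonempty → t b ≤ εT e :=
  _root_.Vale.Agent.P073.H236.Slot.exists_min_over f (fun e => (edges M).seg_sub_Ω e)
    (edges M).fin (N := fun b : pG C J₀ => KS D C b.1) (fun _ => isCompact_Icc)
    (fun _ => YB_sub _ _) hεT

/-- **the tolerance of the last staircase**, both maps (slot (7)) -/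
theorem exists_tolE (Y₃ : S3 Y₂ Ys sc) {εT : (edges M).ε → ℝ} (hεT : ∀ e, 0 < εT e) :
    ∃ (K₄ : pG C J₀ → ℝ) (tq : pG C J₀ → ℝ), (∀ b, 0 < K₄ b) ∧ (∀ b, 0 < tq b) ∧
      (∀ b : pG C J₀, ∀ x ∈ Ω, Y₃.h4.toFun x ∈ KS D C b.1 →
        ∀ᶠ y in 𝓝 x, ‖Y₃.h4.toFun y - Y₃.h4.toFun x‖ ≤ K₄ b * ‖y - x‖) ∧
      ∀ {Y₄ : S4 Y₃}, ∃ t : pG C J₀ → ℝ, (∀ b, 0 < t b) ∧ ∀ Y₅ : S5 Y₄, (∀ b, Y₅.ε b ≤ t b) →
        (∀ b, Y₅.ε b ≤ tq b) → ∀ e,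
        (∀ b : pG C J₀, (Y₄.f5.toFun '' (edges M).seg e ∩ KS D C b.1).Nonempty →
          Y₅.ε b ≤ εT e) ∧
        ∀ b : pG C J₀, (Y₃.h4.toFun '' (edges M).seg e ∩ KS D C b.1).Nonempty →
          Y₅.ς b * K₄ b ≤ εT e := by
  obtain ⟨K₄, k0, hK⟩ := _root_.Vale.Agent.P073.H253.Tube.exists_K4 D C Y₃.h4
  obtain ⟨t4, t40, ht4⟩ := exists_tolE1 D C Y₃.h4 hεT
  refine ⟨K₄, fun b => t4 b / K₄ b, k0, fun b => div_pos (t40 b) (k0 b), hK, fun {Y₄} => ?_⟩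
  obtain ⟨t, t0, ht⟩ := exists_tolE1 D C Y₄.f5 hεT
  exact ⟨t, t0, fun Y₅ h1 h2 e => ⟨fun b hb => (h1 b).trans (ht b e hb), fun b hb =>
    (_root_.Vale.Agent.P073.H253.Tube.sK4_le Y₅ k0 h2 b).trans (ht4 b e hb)⟩⟩

end Vale.Agent.P073.H253.EdT
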