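import Vale.Agent.P073.H253.TubeTv

/-!
# P073, H253, `K3C`, **[SHARP-TUBE]**, part 2: the T-layer, numbers, the tube case for `g` and `q`

* `exists_eb`: tiny numbers of the boxes from tiny numbers of the faces.
* `midEst_tlay`: the local estimate `MidEst` for the T-layer (hook and second staircase).
* `num_tube`: the numbers.
* `tvTube_hook`, `tvTube_aux`: the tube case of `TvOut` for `g` (through the T-layer) and for `q`.
-/

open Set Metric Topology Filter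
open scoped ENNReal

namespace Vale.Agent.P073.H253.Tube

open _root_.P073 _root_.P073.Net _root_.P073.PA691 _root_.P073.H236 _root_.P073.TM
open Vale.Agent.P073.St (V)
open Vale.Agent.P073.H471 Vale.Agent.P073.H267 Vale.Agent.P073.H926
open Vale.Agent.P073.H73 (Mesh onSeg)
open Vale.Agent.P073.H193 (Edges edges)
open Vale.Agent.P073.H212 (IsSoft)
open Vale.Agent.P073.H233 (Small3 PSet Xp SoftQ FQ)
open _root_.P073.H267 (tvE lenE)
open _root_.P073.H429 _root_.P073.H142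

section layer

variable {Ω Λ : Set V} {v : V} {K : BoxCx Λ v} {S : Rad K} {W : Wid K S} {B : Boxes W}
  {M : Mesh Ω} {γ : Type} {φ : γ → K.G} {sl : γ → Finset (ℝ × ℝ)} {μ : γ → ℝ} {Y : Lat B}
  {T : ∀ b, Thn (eal W (φ b)) (ebe W (φ b)) (sl b) (μ b)} {Zb : γ → Set M.ι}
  {f5 h6 : ConHomeo Ω Λ} {G : Geo B} {r : K.G → Fin 3 → ℝ} {hr : ∀ e k, 0 < r e k}
  {Y' : Lat B} {hp : ∀ e k, Y'.p e k + r e k ≤ B.T e} {hq : ∀ e k, Y'.q e k + r e k ≤ B.T e}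
  {hφ : Function.Injective φ} {ς : γ → ℝ} {h0 : ∀ b, 0 < ς b} {h1 : ∀ b, ς b ≤ 1}
  {Sm : ConHomeo Λ Λ} {K₂ εb : γ → ℝ}

/-- **tiny numbers of the boxes** from tiny numbers of the faces -/
theorem exists_eb (f : ConHomeo Ω Λ) (Kb : γ → Set V) (hK : ∀ b, IsCompact (Kb b))
    (hΛ : ∀ b, Kb b ⊆ Λ) {t : M.κ → ℝ} (ht : ∀ k, 0 < t k) :
    ∃ εb : γ → ℝ, (∀ b, 0 < εb b) ∧ ∀ b k, (f.toFun '' M.F k ∩ Kb b).Nonempty →
      εb b * (1 + diam (M.F k)) ≤ t k := by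
  have key : ∀ b, ∃ e > 0, ∀ k, (f.toFun '' M.F k ∩ Kb b).Nonempty →
      e * (1 + diam (M.F k)) ≤ t k := by
    intro b
    have hC : IsCompact (f.invFun '' Kb b) :=
      (hK b).image_of_continuousOn (f.cont_inv.mono (hΛ b))
    have hCΩ : f.invFun '' Kb b ⊆ Ω := by
      rintro _ ⟨y, hy, rfl⟩
      exact f.mapsTo_inv (hΛ b hy)
    have hfin := M.ffin _ hCΩ hC
    have hd : ∀ k, 0 < 1 + diam (M.F k) := fun k => by
      have : 0 ≤ diam (M.F k) := diam_nonneg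
      linarith
    obtain ⟨e, he, h1⟩ : ∃ e > 0, ∀ k ∈ hfin.toFinset, e ≤ t k / (1 + diam (M.F k)) := by
      generalize hfin.toFinset = s
      classical
      induction s using Finset.induction_on with
      | empty => exact ⟨1, one_pos, by simp⟩
      | insert a s ha ih =>
        obtain ⟨e, he, h2⟩ := ih
        refine ⟨min e (t a / (1 + diam (M.F a))), lt_min he (div_pos (ht a) (hd a)), ?_⟩
        intro k hk
        rcases Finset.mem_insert.1 hk with rfl | hk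
        · exact min_le_right _ _
        · exact (min_le_left _ _).trans (h2 k hk)
    refine ⟨e, he, fun k hk => ?_⟩
    obtain ⟨_, ⟨x, hx, rfl⟩, hy⟩ := hk
    have hxΩ := H193.mesh_sub M k hx
    have h2 : k ∈ hfin.toFinset := by
      rw [Set.Finite.mem_toFinset]
      exact ⟨x, hx, _, hy, f.left_inv hxΩ⟩
    have h3 := h1 k h2
    rwa [le_div_iff₀ (hd k)] at h3
  choose e he h using key
  exact ⟨e, he, h⟩

/-- **the T-layer**: hook and second staircase -/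
theorem midEst_tlay (H : TLay B φ (fun b => YB Y (φ b)) (tfam Y' r hr hp hq hφ T h0 h1)
      (⋃ b, ⋃ i ∈ Zb b, interior (M.Q i)) (fun b i => (T b).c i - (T b).w i)
      (fun b i => (T b).c i + (T b).w i) ς f5 h6 Sm)
    (hYp : ∀ e k, G.uT e / 2 ≤ Y.p e k) (hYq : ∀ e k, G.uT e / 2 ≤ Y.q e k)
    (hYY : ∀ e k, Y.p e k ≤ Y'.p e k) (hYY' : ∀ e k, Y.q e k ≤ Y'.q e k)
    (hμ : ∀ b, 0 ≤ μ b) {μ' : ℝ} (hμ' : ∀ b, μ b ≤ μ') (hμ'0 : 0 ≤ μ')
    (hK₂ : ∀ b, ∀ x ∈ Ω, h6.toFun x ∈ YB (Y'.add r hr hp hq) (φ b) →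
      ∀ᶠ y in 𝓝 x, ‖h6.toFun y - h6.toFun x‖ ≤ K₂ b * ‖y - x‖)
    (hς : ∀ b, ς b * K₂ b ≤ εb b) {t : M.κ → ℝ} (ht : ∀ k, 0 ≤ t k)
    (hεb : ∀ b k, (f5.toFun '' M.F k ∩ YB (Y'.add r hr hp hq) (φ b)).Nonempty →
      εb b * (1 + diam (M.F k)) ≤ t k) :
    MidEst G M univ univ f5.toFun (fun x => Sm.toFun (h6.toFun x)) (1 + μ')
      fun k => t k / (1 + diam (M.F k)) := by
  intro k _ i _ A hA hm x hx
  have hd : 0 < 1 + diam (M.F k) := by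
    have : 0 ≤ diam (M.F k) := diam_nonneg
    linarith
  have hAΩ : A ⊆ Ω := hA.trans (H193.mesh_sub M k)
  have hmx := hm x hx
  by_cases hi : ∃ b, φ b = i
  · obtain ⟨b, rfl⟩ := hi
    have hxY := interior_subset (hmx.memY hYp hYq)
    have hse := YB_sub_se Y (φ b) hxY
    have h6Y : h6.toFun x ∈ YB Y (φ b) := (H.mem b x (hAΩ hx)).2 hxY
    have hK : h6.toFun x ∈ ((tfam Y' r hr hp hq hφ T h0 h1).X b).K := H.PK b h6Y
    have hKK : h6.toFun x ∈ YB (Y'.add r hr hp hq) (φ b) := by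
      change h6.toFun x ∈ (tX Y' r hr (T b) (h0 b) (h1 b)).K at hK
      rwa [tX_K (hp := hp) (hq := hq)] at hK
    refine ⟨H.KE b (H.isH.mem hK), ?_⟩
    obtain ⟨ρ, hρ, hρr⟩ : ∃ ρ > 0, ∀ i, ρ ≤ r (φ b) i := by
      obtain ⟨i₀, h2⟩ := Finite.exists_min fun i => r (φ b) i
      exact ⟨_, hr (φ b) i₀, h2⟩
    have hD : Disjoint A (⋃ b, ⋃ i ∈ Zb b, interior (M.Q i)) := by
      rw [Set.disjoint_left]
      intro y hy hy'
      obtain ⟨b', hy'⟩ := mem_iUnion.1 hy'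
      obtain ⟨i', -, hy'⟩ := mem_iUnion₂.1 hy'
      exact _root_.P073.H919.not_interior_of_face M i' (hA hy) hy'
    have hest := H.estC (b := b) hAΩ hD hx hse (c₀ := fun x' =>
        |f5.toFun x' (K.dir (φ b)) - f5.toFun x (K.dir (φ b))|) (c₁ := fun _ => 0)
      (c₂ := fun x' => K₂ b * ‖x' - x‖) (c := fun x' => (1 + μ') *
        |f5.toFun x' (K.dir (φ b)) - f5.toFun x (K.dir (φ b))| +
          t k / (1 + diam (M.F k)) * ‖x' - x‖) (sl := 1 + μ') hρ hρr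
      (((T b).slG_le (h0 b).le (h1 b) (hμ b)).trans (by linarith [hμ' b])) le_rfl
      (Eventually.of_forall fun x' => le_rfl) (fun i hij => Or.inl ?_)
      (Eventually.of_forall fun x' => le_rfl) ?_ (Eventually.of_forall fun x' => ?_)
    · exact hest
    · have hij' : i ≠ K.dir (φ b) := hij
      have h2 := abs_le.1 (hmx.lat i hij')
      have h3 := (hYp (φ b) i).trans (hYY (φ b) i)
      have h4 := (hYq (φ b) i).trans (hYY' (φ b) i)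
      have h5 := G.uT_pos (φ b)
      show f5.toFun x i ∈ Ioo (ylo Y' (φ b) i) (yhi Y' (φ b) i)
      unfold ylo yhi
      rw [if_neg hij', if_neg hij']
      constructor <;> linarith [h2.1, h2.2]
    · filter_upwards [nhdsWithin_le_nhds (hK₂ b x (hAΩ hx) hKK)] with x' h2
      exact (abs_sub_le_norm _ _ _).trans h2
    · have h2 : ς b * (K₂ b * ‖x' - x‖) ≤ t k / (1 + diam (M.F k)) * ‖x' - x‖ := by
        rw [← mul_assoc]
        refine mul_le_mul_of_nonneg_right ((hς b).trans ?_) (norm_nonneg _)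
        rw [le_div_iff₀ hd]
        refine hεb b k ⟨f5.toFun x, ⟨x, hA hx, rfl⟩, ?_⟩
        exact YB_mono (fun e k => by
          show Y.p e k ≤ Y'.p e k + r e k
          linarith [hr e k, hYY e k]) (fun e k => by
          show Y.q e k ≤ Y'.q e k + r e k
          linarith [hr e k, hYY' e k]) _ hxY
      show (1 + μ') * |f5.toFun x' (K.dir (φ b)) - f5.toFun x (K.dir (φ b))| + _ * 0 +
        ς b * (K₂ b * ‖x' - x‖) ≤ _
      linarith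
  · push Not at hi
    have hse : f5.toFun x ∈ W.se i := Ze_subset (B.E_subset i hmx.memE)
    have hoff : ∀ y, y ∈ W.se i → ∀ b, y ∉ ((tfam Y' r hr hp hq hφ T h0 h1).X b).K :=
      fun y hy b hb => Set.disjoint_left.1 (disjoint_se (hi b)) (H.Ese b hb) hy
    have e1 := H.eventually_eq hAΩ hx (hoff _ hse)
    have e2 : Sm.toFun (h6.toFun x) = f5.toFun x := e1.self_of_nhdsWithin hx
    refine ⟨by show Sm.toFun (h6.toFun x) ∈ B.E i; rw [e2]; exact hmx.memE, ?_⟩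
    filter_upwards [e1] with x' h2
    show |Sm.toFun (h6.toFun x') (K.dir i) - Sm.toFun (h6.toFun x) (K.dir i)| ≤ _
    rw [h2, e2]
    have h3 : 0 ≤ μ' * |f5.toFun x' (K.dir i) - f5.toFun x (K.dir i)| :=
      mul_nonneg hμ'0 (abs_nonneg _)
    have h4 : 0 ≤ t k / (1 + diam (M.F k)) * ‖x' - x‖ :=
      mul_nonneg (div_nonneg (ht k) hd.le) (norm_nonneg _)
    nlinarith

end layer

variable {c₀ n δ : ℝ} {j : ℕ} {Ω Λ : Set V} {v w : V} {ρ : V → ℝ} {M : Mesh Ω}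
  {h : ConHomeo Ω Λ} {J₀ J : Set (ℕ × (Fin 3 → ℤ))} {P Z : Set M.ι} {K : BoxCx Λ w}

/-- **the numbers** -/
theorem num_tube (D : KIn3 c₀ n j δ v w ρ M h J₀ J P Z) {μ' μ₁ : ℝ} (hμ'0 : 0 ≤ μ')
    (hμ' : μ' ≤ n / 128) (hμ₁0 : 0 ≤ μ₁) (hμ₁ : μ₁ ≤ n / 128) :
    (1 + 3 * (20 / (1 / μN n))) * (1 + μ') * (1 + μ₁) ≤ 1 + c₀ ∧ 3 * (20 / (1 / μN n)) ≤ 1 := by
  have h1 := D.nle
  have h2 := D.le
  have h3 := D.pos
  have e : 20 / (1 / μN n) = 20 * (n / 64) := by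
    unfold μN
    field_simp
  rw [e]
  refine ⟨?_, by linarith⟩
  have h4 : (1 + μ') * (1 + μ₁) ≤ 1 + n / 60 := by
    have h5 : μ' * μ₁ ≤ n / 128 * (n / 128) := mul_le_mul hμ' hμ₁ hμ₁0 (by linarith)
    nlinarith
  have h5 : (0:ℝ) ≤ 1 + 3 * (20 * (n / 64)) := by positivity
  calc (1 + 3 * (20 * (n / 64))) * (1 + μ') * (1 + μ₁) =
        (1 + 3 * (20 * (n / 64))) * ((1 + μ') * (1 + μ₁)) := by ring
    _ ≤ (1 + 3 * (20 * (n / 64))) * (1 + n / 60) := mul_le_mul_of_nonneg_left h4 h5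
    _ ≤ 1 + c₀ := by nlinarith

/-- **the tube case for the last map**, through the T-layer -/
theorem tvTube_hook (D : KIn3 c₀ n j δ v w ρ M h J₀ J P Z) (C : Cells ρ w K)
    {h1 : ConHomeo Ω Λ}
    (near : ∀ x ∈ Ω, ∀ q, h.toFun x ∈ K.cube q → ‖h1.toFun x - h.toFun x‖ ≤ (D.G C).om q)
    {μ₁ μ' : ℝ} {εT : (edges M).ε → ℝ}
    (tvs : TvsC (D.G C) (edges M) (ω3T δ C) (pG C J₀) h.toFun h1.toFun μ₁ εT) (hμ₁0 : 0 ≤ μ₁)
    (hμ₁ : μ₁ ≤ n / 128) (hμ'0 : 0 ≤ μ') (hμ' : μ' ≤ n / 128) {εk : M.κ → ℝ}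
    (hεk : ∀ k, 0 < εk k) (hεT : ∀ k e, (edges M).seg e ⊆ M.F k → 8 * εT e ≤ εk k)
    {f5 f : V → V}
    (hoff : ∀ a, Miss (D.G C) (pS C J₀) h1 (M.Q a) → EqOn f5 h1.toFun (M.Q a))
    (hf : MidEst (D.G C) M univ univ f5 f (1 + μ') fun k => εk k / 8 / (1 + diam (M.F k))) :
    ∃ t₀ : M.κ ⊕ M.ι → ℝ, (∀ a, 0 < t₀ a) ∧ ∀ (R : Fac K) (N t : M.κ ⊕ M.ι → ℝ)
      (Φ : ConHomeo Λ Λ), (∀ a, 0 < t a) → (∀ a, t a ≤ t₀ a) →
      Small3 (D.W C) (Xp C J₀) R f (FQ M) N t → SoftQ D C R Φ →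
      TvTube c₀ δ w ρ M h.toFun J₀ εk fun x => Φ.toFun (f x) := by
  obtain ⟨hμs, -⟩ := H233.soft_mu D
  obtain ⟨h2, h3⟩ := num_tube D hμ'0 hμ' hμ₁0 hμ₁
  have hd : ∀ k : M.κ, 0 ≤ diam (M.F k) := fun k => diam_nonneg
  obtain ⟨t₀, ht₀, H⟩ := tv_of_mid D C near tvs
    ((hf.anti (subset_univ _) (subset_univ _)).pre fun k ⟨a, hk, ha⟩ => (hoff a ha).mono hk)
    (by linarith : (0:ℝ) ≤ 1 + μ') (fun k => by
      have h4 := hεk k
      have h5 := hd k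
      positivity) hμs hμ₁0 h2 h3 hεk hεT fun k => by
        have h4 := hεk k
        have h5 := hd k
        have h6 : εk k / 8 / (1 + diam (M.F k)) * diam (M.F k) ≤ εk k / 8 := by
          rw [div_mul_eq_mul_div, div_le_iff₀ (by linarith)]
          nlinarith
        linarith
  exact ⟨t₀, ht₀, fun R N t Φ ht0 ht HS HΦ => H R N t Φ ht0 ht HS HΦ.2.1.toIsSoft⟩

/-- **the tube case for the auxiliary function** `q = Φ' ∘ h4` -/
theorem tvTube_aux (D : KIn3 c₀ n j δ v w ρ M h J₀ J P Z) (C : Cells ρ w K)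
    {h1 : ConHomeo Ω Λ}
    (near : ∀ x ∈ Ω, ∀ q, h.toFun x ∈ K.cube q → ‖h1.toFun x - h.toFun x‖ ≤ (D.G C).om q)
    {μ₁ : ℝ} {εT : (edges M).ε → ℝ}
    (tvs : TvsC (D.G C) (edges M) (ω3T δ C) (pG C J₀) h.toFun h1.toFun μ₁ εT) (hμ₁0 : 0 ≤ μ₁)
    (hμ₁ : μ₁ ≤ n / 128) {εk : M.κ → ℝ}
    (hεk : ∀ k, 0 < εk k) (hεT : ∀ k e, (edges M).seg e ⊆ M.F k → 8 * εT e ≤ εk k)
    {h4 : V → V}
    (hoff : ∀ a, Miss (D.G C) (pS C J₀) h1 (M.Q a) → EqOn h4 h1.toFun (M.Q a)) :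
    ∃ t₀ : M.κ ⊕ M.ι → ℝ, (∀ a, 0 < t₀ a) ∧ ∀ (R : Fac K) (N t : M.κ ⊕ M.ι → ℝ)
      (Φ : ConHomeo Λ Λ), (∀ a, 0 < t a) → (∀ a, t a ≤ t₀ a) →
      Small3 (D.W C) (Xp C J₀) R h4 (FQ M) N t → SoftQ D C R Φ →
      TvTube c₀ δ w ρ M h.toFun J₀ εk fun x => Φ.toFun (h4 x) :=
  tvTube_hook D C near tvs hμ₁0 hμ₁ le_rfl (by linarith [D.pos]) hεk hεT hoff
    (midEst_self.mono (by norm_num) fun k => by
      have h4 := hεk k
      have h5 : 0 ≤ diam (M.F k) := diam_nonneg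
      positivity)

/-- the clamped variation, from the output of ROUND T -/
theorem tvsC_of_tout (D : KIn3 c₀ n j δ v w ρ M h J₀ J P Z) (C : Cells ρ w K) {E : Edges M}
    {T : ∀ k, FStar E k} {C₀ μ : ℝ} {ε : E.ε → ℝ} {εd : pB C J₀ → ℝ} {La : E.ε → ℝ}
    {Lf : M.κ → E.ε → ℝ} {Lam1 : M.κ → ℝ} {sl : pB C J₀ → Finset (ℝ × ℝ)} {h1 : ConHomeo Ω Λ}
    (TO : H238.K3.TOut3 D C E T C₀ μ ε εd La Lf Lam1 sl h1) :
    TvsC (D.G C) E (ω3T δ C) (pG C J₀) h.toFun h1.toFun μ ε := by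
  intro e i hi hx
  have hb : (.inl i : TBx K) ∈ pB C J₀ := inl_mem_pB.2 hi
  refine TO.tvs e (.inl i) hb hx _ _ le_rfl ?_ le_rfl
  have h1' := eal_lt_ebe (D.W C) i
  unfold eal ebe at h1'
  have hba := (D.G C).be_wv (K.a i)
  have hbb := (D.G C).be_wv (K.b i)
  have hba0 := (D.G C).be_pos (K.a i)
  have hbb0 := (D.G C).be_pos (K.b i)
  have h2 : 16777216 * ω3T δ C (.inl i) ≤ (D.G C).oG i := D.ω3T_oT C (.inl i)
  have h2' := D.ω3T_pos C (.inl i)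
  have h3 := (D.G C).oG_uT i
  have h4 := (D.G C).uT_pos i
  have h6 := (D.G C).uT_lam i
  have h7 := (D.G C).lam_a i
  have h8 := (D.G C).lam_b i
  show (if K.dir i = K.dir i then _ else _) + _ ≤ (if K.dir i = K.dir i then _ else _) - _
  rw [if_pos rfl, if_pos rfl]
  change _ + 50 * ω3T δ C (.inl i) ≤ _ - 50 * ω3T δ C (.inl i)
  linarith

end Vale.Agent.P073.H253.Tube
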