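import Vale.Agent.P073.H212.SharpTV
import Vale.Agent.P073.H212.Sharp3
import Vale.Agent.P073.H429.TEx
import Vale.Agent.P073.H429.Stg3Off
import Vale.Agent.P073.H926.DatA
import Vale.Agent.P073.H233.Tail3I

/-!
# P073, H253, `K3C`, **[SHARP-TUBE]**: the tube case of the sharp edges (`TvOut`, `A = {l}`)

* `InMid G i y`: the middle part of the tube of the edge `i`: off the supports of all plates and off
  all other boxes of ROUND T, in the window between the vertex zones, laterally `uT / 4`.  Only the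
  coordinate `K.dir i` is alive here (`InMid ⊆ B.E i`).
* `deep_mid`: the cells which meet a set which is deep in a tube are drawn (not protected), their
  images under `h1` are in the middle part; the clamps of `TOut3.tvs` are inactive there.
* `MidEst G M X Fs f1 f κ c`: the local estimate of the alive coordinate in the middle parts, on the
  faces of `Fs`.
* `TvTube`, `TvPlate`, `tvOut_of`; `TvsC`; `tv_of_mid`: the tube case of `TvOut`, after the soft
  collapse.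
-/

open Set Metric Topology Filter
open scoped ENNReal

namespace Vale.Agent.P073.H253.Tube

open _root_.P073 _root_.P073.Net _root_.P073.PA691 _root_.P073.H236 _root_.P073.TM
open Vale.Agent.P073.St (V)
open Vale.Agent.P073.H471 Vale.Agent.P073.H267 Vale.Agent.P073.H926
open Vale.Agent.P073.H73 (Mesh onSeg)
open Vale.Agent.P073.H304 (Nb)
open Vale.Agent.P073.H193 (Edges edges)
open Vale.Agent.P073.H212 (IsSoft exists_edge tv_single tv_of_local tendsto_seg seg_sub)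
open Vale.Agent.P073.H233 (Small3 PSet Xp SoftQ FQ)
open _root_.P073.H267 (tvE lenE)
open _root_.P073.H429 _root_.P073.H142 _root_.P073.H345

section geo

variable {Λ : Set V} {v : V} {K : BoxCx Λ v} {S : Rad K} {W : Wid K S} {B : Boxes W}

/-- **the middle part of a tube** -/
structure InMid (G : Geo B) (i : K.G) (y : V) : Prop where
  lo : K.w (K.a i) (K.dir i) + W.wv (K.a i) ≤ y (K.dir i)
  hi : y (K.dir i) ≤ K.w (K.b i) (K.dir i) - W.wv (K.b i)
  lat : ∀ k, k ≠ K.dir i → |y k - K.w (K.a i) k| ≤ G.uT i / 4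
  off : ∀ s, y ∉ PK G s
  offT : ∀ b, b ≠ .inl i → y ∉ G.TB false b

variable {G : Geo B} {i : K.G} {y : V}

theorem InMid.memY (H : InMid G i y) {Y : Lat B} (hp : ∀ e k, G.uT e / 2 ≤ Y.p e k)
    (hq : ∀ e k, G.uT e / 2 ≤ Y.q e k) : y ∈ interior (YB Y i) := by
  have h1 := W.wv_pos (K.a i)
  have h2 := W.wv_pos (K.b i)
  have h3 := G.uT_pos i
  refine mem_YB_interior ?_ ?_ fun k hk => ?_
  · have := H.lo
    unfold eal
    linarith
  · have := H.hi
    unfold ebe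
    linarith
  · have h4 := abs_le.1 (H.lat k hk)
    have h5 := hp i k
    have h6 := hq i k
    constructor <;> linarith [h4.1, h4.2]

theorem InMid.memE (H : InMid G i y) : y ∈ B.E i :=
  YB_sub_E (YT G ∅) i (interior_subset (H.memY (YT_p_ge G ∅) (YT_q_ge G ∅)))

/-- the local estimate of the alive coordinate in the middle parts of the tubes of `X`, on the faces
of `Fs`: `f1` is the map after the levels of ROUND T, `f` is a later map -/
def MidEst (G : Geo B) {Ω : Set V} (M : Mesh Ω) (X : Set K.G) (Fs : Set M.κ) (f1 f : V → V) (κ : ℝ)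
    (c : M.κ → ℝ) : Prop :=
  ∀ k ∈ Fs, ∀ i ∈ X, ∀ A ⊆ M.F k, (∀ x ∈ A, InMid G i (f1 x)) → ∀ x ∈ A, f x ∈ B.E i ∧
    ∀ᶠ x' in 𝓝[A] x, |f x' (K.dir i) - f x (K.dir i)| ≤
      κ * |f1 x' (K.dir i) - f1 x (K.dir i)| + c k * ‖x' - x‖

variable {Ω : Set V} {M : Mesh Ω} {X X' : Set K.G} {Fs Fs' : Set M.κ} {f0 f1 f : V → V} {κ : ℝ}
  {c : M.κ → ℝ}

/-- without hooks -/
theorem midEst_self : MidEst G M X Fs f1 f1 1 fun _ => 0 := by
  intro k _ i _ A _ hm x hx
  exact ⟨(hm x hx).memE, Eventually.of_forall fun x' => by simp⟩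

/-- maps which agree in the middle parts -/
theorem MidEst.pre (H : MidEst G M X Fs f1 f κ c)
    (h : ∀ k ∈ Fs, EqOn f1 f0 (M.F k)) : MidEst G M X Fs f0 f κ c := by
  intro k hk i hi A hA hm x hx
  have e : ∀ x ∈ A, f1 x = f0 x := fun x hx => h k hk (hA hx)
  obtain ⟨h1, h2⟩ := H k hk i hi A hA (fun x hx => by rw [e x hx]; exact hm x hx) x hx
  refine ⟨h1, ?_⟩
  filter_upwards [h2, self_mem_nhdsWithin] with x' h3 hx'
  rwa [e x' hx', e x hx] at h3

theorem MidEst.mono (H : MidEst G M X Fs f1 f κ c) {κ' : ℝ} (hκ : κ ≤ κ') {c' : M.κ → ℝ}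
    (hc : ∀ k, c k ≤ c' k) : MidEst G M X Fs f1 f κ' c' := by
  intro k hk i hi A hA hm x hx
  obtain ⟨h1, h2⟩ := H k hk i hi A hA hm x hx
  refine ⟨h1, ?_⟩
  filter_upwards [h2] with x' h3
  have h4 := mul_le_mul_of_nonneg_right hκ (abs_nonneg (f1 x' (K.dir i) - f1 x (K.dir i)))
  have h5 := mul_le_mul_of_nonneg_right (hc k) (norm_nonneg (x' - x))
  linarith

theorem MidEst.anti (H : MidEst G M X Fs f1 f κ c) (hX : X' ⊆ X) (hF : Fs' ⊆ Fs) :
    MidEst G M X' Fs' f1 f κ c := fun k hk i hi => H k (hF hk) i (hX hi)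

end geo

variable {c₀ n δ : ℝ} {j : ℕ} {Ω Λ : Set V} {v w : V} {ρ : V → ℝ} {M : Mesh Ω}
  {h : ConHomeo Ω Λ} {J₀ J : Set (ℕ × (Fin 3 → ℤ))} {P Z : Set M.ι} {K : BoxCx Λ w}

/-- a point which is close to the frontier of a tile and off the plates is off their supports -/
theorem not_PK {S : Rad K} {W : Wid K S} {B : Boxes W} {G : Geo B} {y z : V} {q q' : K.T}
    (hy : ∀ s, y ∉ G.PB (1 / 2) s) (hq : y ∈ K.cube q) (hz : z ∈ frontier (K.cube q'))
    (hyz : ‖y - z‖ ≤ G.κ q) (s : K.S) : y ∉ PK G s := by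
  intro hs
  have hs' := PK_sub_PX s hs
  have hqs := tile_PX hs' hq
  obtain ⟨-, h1⟩ := nrm_of_frontier (near_PX hs' hqs hyz) hz
  have hp := Geo.p_pos (G := G) s
  have hτ := B.τ_pos s
  refine hy s (Geo.mem_PB.2 ⟨fun k hk => ?_, ?_⟩)
  · have h2 := hs.1 k hk
    constructor <;> linarith
  · rw [← h1]
    refine (abs_sub_le_norm _ _ _).trans (hyz.trans ?_)
    have := G.κ_τ q s hqs
    linarith

/-- the faces of the cells which miss the supports of the processed plates, under `h1` -/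
def Ms {S : Rad K} {W : Wid K S} {B : Boxes W} (G : Geo B) (S₀ : Set K.S) (M : Mesh Ω)
    (h1 : ConHomeo Ω Λ) : Set M.κ :=
  {k | ∃ a, M.F k ⊆ M.Q a ∧ Miss G S₀ h1 (M.Q a)}

/-- **positions**: `h1` is close to `h` -/
theorem deep_mid (D : KIn3 c₀ n j δ v w ρ M h J₀ J P Z) (C : Cells ρ w K) {h1 : V → V}
    (near : ∀ x ∈ Ω, ∀ q, h.toFun x ∈ K.cube q → ‖h1 x - h.toFun x‖ ≤ (D.G C).om q)
    {X : Set V} {m : ℕ} {z : Fin 3 → ℤ} {l : Fin 3}
    (H : H239.Deep c₀ δ w ρ J₀ {l} m z (h.toFun '' X)) :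
    ∃ i ∈ pG C J₀, K.dir i = l ∧ ∀ x ∈ X,
      closedBall (h.toFun x) (30 * ω3T δ C (.inl i)) ⊆ (D.G C).TB true (.inl i) ∧
      ∀ a, x ∈ M.Q a → a ∉ P ∧ a ∈ H238.K3.Zd D ∧ ∀ y ∈ M.Q a, InMid (D.G C) i (h1 y) ∧
        (D.G C).tlo true (.inl i) (K.dir i) + 50 * ω3T δ C (.inl i) ≤ h1 y (K.dir i) ∧
        h1 y (K.dir i) ≤ (D.G C).thi true (.inl i) (K.dir i) - 50 * ω3T δ C (.inl i) := by
  obtain ⟨i, hi, hsG, hw, -, hiG, hball⟩ := D.deep_tube C H
  refine ⟨i, hiG, hi, fun x hx => ?_⟩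
  have hb := hball _ ⟨x, hx, rfl⟩
  have h2m : (0:ℝ) < 1 / 2 ^ m := by positivity
  have hκm : κ3 n / 2 ^ m = κ3 n * (1 / 2 ^ m) := by ring
  have hδm : δ / 2 ^ m = δ * (1 / 2 ^ m) := by ring
  have hκ := κ3_pos D.pos
  have ho := o3_pos D.pos
  have eo : o3 n = κ3 n / 4000 := rfl
  have hδ0 := D.δpos
  have hδ1 := D.δ_le
  have hδ2 := δ3_eq (n := n)
  have hδ3 : 4000000 * δ ≤ κ3 n := by linarith
  have hωi : ω3T δ C (.inl i) = 4 * δ * (1 / 2 ^ m) := by
    show 4 * δ * C.sG i = _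
    rw [hsG]
  have hoG : (D.G C).oG i = κ3 n / 1000 * (1 / 2 ^ m) := by
    show 4 * o3 n * C.sG i = _
    rw [hsG, eo]
    ring
  have hδu : δ * (1 / 2 ^ m) ≤ κ3 n / 4000000 * (1 / 2 ^ m) :=
    mul_le_mul_of_nonneg_right (by linarith) h2m.le
  have hκu : 0 < κ3 n * (1 / 2 ^ m) := by positivity
  have huT := (D.G C).oG_uT i
  have huT0 := (D.G C).uT_pos i
  have hself : h.toFun x ∈ closedBall (h.toFun x) (κ3 n / 2 ^ m) :=
    mem_closedBall_self (by positivity)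
  have hTx := hb.1 hself
  -- lateral position
  have hlat : ∀ k, k ≠ K.dir i → |h.toFun x k - K.w (K.a i) k| ≤ δ * (1 / 2 ^ m) := by
    intro k hk
    have h9 := H.near _ ⟨x, hx, rfl⟩ k (by rw [Finset.mem_singleton, ← hi]; exact hk)
    rwa [← hw k, hδm] at h9
  have hfootx : ‖h.toFun x - foot K i (h.toFun x)‖ ≤ δ * (1 / 2 ^ m) := by
    rw [pi_norm_le_iff_of_nonneg (by positivity)]
    intro k
    rw [Pi.sub_apply, Real.norm_eq_abs]
    by_cases hk : k = K.dir i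
    · rw [hk, foot_dir, sub_self, abs_zero]
      positivity
    · rw [foot_ne hk]
      exact hlat k hk
  have hba := (D.G C).be_wv (K.a i)
  have hbb := (D.G C).be_wv (K.b i)
  have hba0 := (D.G C).be_pos (K.a i)
  have hbb0 := (D.G C).be_pos (K.b i)
  have hmemx := (Geo.mem_inl.1 hTx).1
  obtain ⟨q, hq, hiq⟩ := id hiG
  have hfe : foot K i (h.toFun x) ∈ K.edge i := foot_mem (by linarith) (by linarith)
  have hff : ∀ q, K.edge i ⊆ K.cube q → foot K i (h.toFun x) ∈ frontier (K.cube q) :=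
    fun q hq => edge_frontier hq hfe
  refine ⟨(closedBall_subset_closedBall ?_).trans hb.1, fun a hxa => ?_⟩
  · rw [hωi, hκm]
    nlinarith
  -- the cell is not protected
  have haP : a ∉ P := by
    intro haP
    obtain ⟨q', -, hq'⟩ := D.prot_tile C haP
    have h1' : h.toFun x ∈ H304.mid w (1 / 2 ^ j) (C.fT q') := by
      rw [← hq']
      exact mem_image_of_mem _ hxa
    rw [KIn3.mem_mid C (D.η_le_one.trans (by norm_num))] at h1'
    have hT0 := C.sT_pos q'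
    have hη0 : (0:ℝ) < 1 / 2 ^ j := KIn3.η_pos
    have hηT : 0 < 1 / 2 ^ j / 2 * C.sT q' := by positivity
    have hxq' : h.toFun x ∈ K.cube q' :=
      ⟨fun k => by linarith [(h1' k).1], fun k => by linarith [(h1' k).2]⟩
    have hiq' := Geo.tile_TB_inl (Geo.TB_true_subset _ hTx) hxq'
    have hsT := (C.sG_sT D.hρ hiq').1
    rw [hsG] at hsT
    refine not_int_of_frontier (hff q' hiq') fun k => ?_
    have h2 := (abs_le.1 ((abs_sub_le_norm _ _ k).trans hfootx))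
    have h3 : δ * (1 / 2 ^ m) ≤ δ * C.sT q' := mul_le_mul_of_nonneg_left hsT hδ0.le
    have h4 : δ * C.sT q' < 1 / 2 ^ j / 2 * C.sT q' :=
      mul_lt_mul_of_pos_right (by linarith [D.δle]) hT0
    have h5 := h1' k
    constructor <;> linarith [h2.1, h2.2, h5.1, h5.2]
  -- small images
  have hsT := C.sG_sT D.hρ hiq
  rw [hsG] at hsT
  have hδc : δ ≤ c₀ := by
    have h8 := D.κ_le_c₀
    have h9 := D.c₀_pos
    linarith
  have hdq : ‖h.toFun x - foot K i (h.toFun x)‖ ≤ δ * C.sT q :=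
    hfootx.trans (mul_le_mul_of_nonneg_left hsT.1 hδ0.le)
  have hN : h.toFun x ∈ Nb w {C.fT q} c₀ :=
    (mem_Nb_one C).2 ⟨_, hff q hiq, hdq.trans (mul_le_mul_of_nonneg_right hδc (C.sT_pos q).le)⟩
  have hsm : ∀ y ∈ M.Q a, ‖h.toFun y - h.toFun x‖ ≤ δ * C.sT q := fun y hy =>
    D.small C haP hq ⟨_, ⟨x, hxa, rfl⟩, hN⟩ y hy x hxa
  refine ⟨haP, ⟨haP, ?_⟩, fun y hy => ?_⟩
  · rintro _ ⟨y, hy, rfl⟩
    refine mem_Nb_of C hq ((mem_Nb_one C).2 ⟨_, hff q hiq, ?_⟩)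
    have h7 : ‖h.toFun y - foot K i (h.toFun x)‖ ≤
        ‖h.toFun y - h.toFun x‖ + ‖h.toFun x - foot K i (h.toFun x)‖ := by
      have := norm_add_le (h.toFun y - h.toFun x) (h.toFun x - foot K i (h.toFun x))
      rwa [sub_add_sub_cancel] at this
    have h8 : 2 * δ ≤ 2 / 2 ^ j := by
      have h9 := D.δle
      have h10 : (2:ℝ) / 2 ^ j = 2 * (1 / 2 ^ j) := by ring
      rw [h10]
      linarith
    have h9 := mul_le_mul_of_nonneg_right h8 (C.sT_pos q).le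
    have h10 := hsm y hy
    linarith
  have hyΩ := M.sub a hy
  have hsm4 : ‖h.toFun y - h.toFun x‖ ≤ κ3 n / 1000000 * (1 / 2 ^ m) := by
    refine (hsm y hy).trans ((mul_le_mul_of_nonneg_left hsT.2 hδ0.le).trans ?_)
    have : δ * (4 * (1 / 2 ^ m)) = 4 * (δ * (1 / 2 ^ m)) := by ring
    rw [this]
    linarith
  -- the move of round T
  have hyT : h.toFun y ∈ (D.G C).TB true (.inl i) := by
    refine hb.1 ?_
    rw [mem_closedBall, dist_eq_norm, hκm]
    linarith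
  have hmove : ‖h1 y - h.toFun y‖ ≤ (D.G C).oG i := by
    obtain ⟨q, hq⟩ := K.cover _ (h.mapsTo hyΩ)
    exact (near y hyΩ q hq).trans ((D.G C).om_oG q i
      (Geo.tile_TB_inl (Geo.TB_true_subset _ hyT) hq))
  have hmv : ‖h1 y - h.toFun x‖ ≤ κ3 n / 500 * (1 / 2 ^ m) := by
    rw [hoG] at hmove
    have h7 : ‖h1 y - h.toFun x‖ ≤ ‖h1 y - h.toFun y‖ + ‖h.toFun y - h.toFun x‖ := by
      have := norm_add_le (h1 y - h.toFun y) (h.toFun y - h.toFun x)
      rwa [sub_add_sub_cancel] at this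
    linarith
  have hin : h1 y ∈ closedBall (h.toFun x) (κ3 n / 2 ^ m) := by
    rw [mem_closedBall, dist_eq_norm, hκm]
    linarith
  obtain ⟨hv1, hv2⟩ := hb.2.2.2.2 _ hin
  have hwa : (D.W C).wv (K.a i) = A3 n * C.sW (K.a i) := rfl
  have hwb : (D.W C).wv (K.b i) = A3 n * C.sW (K.b i) := rfl
  have hwa0 := (D.W C).wv_pos (K.a i)
  have hwb0 := (D.W C).wv_pos (K.b i)
  rw [← hwa, ← hi] at hv1
  rw [← hwb, ← hi] at hv2
  have hωu : 50 * ω3T δ C (.inl i) ≤ (D.G C).uT i := by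
    rw [hωi]
    rw [hoG] at huT
    linarith
  have h6 := (D.G C).uT_lam i
  have h7 := (D.G C).lam_a i
  have h8 := (D.G C).lam_b i
  have hT1 := Geo.TB_true_subset _ (hb.1 hin)
  obtain ⟨q₁, hq₁⟩ := K.cover _ (Geo.TB_sub _ hT1)
  have hiq₁ := Geo.tile_TB_inl hT1 hq₁
  refine ⟨⟨by linarith, by linarith, fun k hk => ?_, not_PK (hb.2.2.1 _ hin) hq₁ (hff q hiq) ?_,
    fun b hne => hb.2.2.2.1 _ hin b hne⟩, ?_, ?_⟩
  · have h13 := abs_le.1 (hlat k hk)
    have h14 := abs_le.1 ((abs_sub_le_norm (h1 y) (h.toFun x) k).trans hmv)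
    rw [hoG] at huT
    rw [abs_le]
    constructor <;> linarith [h13.1, h13.2, h14.1, h14.2]
  · have h13 : ‖h1 y - foot K i (h.toFun x)‖ ≤
        ‖h1 y - h.toFun x‖ + ‖h.toFun x - foot K i (h.toFun x)‖ := by
      have := norm_add_le (h1 y - h.toFun x) (h.toFun x - foot K i (h.toFun x))
      rwa [sub_add_sub_cancel] at this
    have hsT₁ := (C.sG_sT D.hρ hiq₁).1
    rw [hsG] at hsT₁
    have h14 : κ3 n * (1 / 2 ^ m) ≤ κ3 n * C.sT q₁ := mul_le_mul_of_nonneg_left hsT₁ hκ.le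
    show _ ≤ κ3 n * C.sT q₁
    linarith
  · show (if K.dir i = K.dir i then _ else _) + _ ≤ _
    rw [if_pos rfl]
    linarith
  · show _ ≤ (if K.dir i = K.dir i then _ else _) - _
    rw [if_pos rfl]
    linarith

/-! ### the clamped coordinate -/

section clamp

variable {E : Edges M}

/-- in the window the clamp is inactive -/
theorem tv_clamp {h1 : V → V} {e : E.ε} {l : Fin 3} {lo hi : ℝ}
    (hx : ∀ x ∈ E.seg e, lo ≤ h1 x l ∧ h1 x l ≤ hi) :
    eVariationOn (fun t : ℝ => max lo (min hi (h1 (E.a e + t • (E.b e - E.a e)) l))) (Icc 0 1) =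
      tvE E h1 e l := by
  refine eVariationOn.congr (fun t ht => ?_ : EqOn (fun t : ℝ => max lo (min hi
    (h1 (E.a e + t • (E.b e - E.a e)) l))) (fun t => onSeg h1 (E.a e, E.b e) t l) (Icc 0 1))
  have h1' := hx _ (Small.onSeg_mem (e := (E.a e, E.b e)) ht)
  show max lo (min hi (h1 (E.a e + t • (E.b e - E.a e)) l)) = h1 (E.a e + t • (E.b e - E.a e)) l
  rw [min_eq_right h1'.2, max_eq_right h1'.1]

theorem abs_clamp_sub_le (lo hi s t : ℝ) :
    |max lo (min hi s) - max lo (min hi t)| ≤ |s - t| := by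
  rw [max_comm lo, max_comm lo]
  refine (abs_max_sub_max_le_abs _ _ _).trans ?_
  have h := abs_min_sub_min_le_max hi s hi t
  simpa using h

/-- `TOut3.tvs` in the clamped form, in the processed tubes -/
def TvsC {S : Rad K} {W : Wid K S} {B : Boxes W} (G : Geo B) (E : Edges M) (ω : TBx K → ℝ)
    (X : Set K.G) (h h1 : V → V) (μ : ℝ) (ε : E.ε → ℝ) : Prop :=
  ∀ e, ∀ i ∈ X, (∀ x ∈ E.seg e, closedBall (h x) (30 * ω (.inl i)) ⊆ G.TB true (.inl i)) →
    eVariationOn (fun t : ℝ => max (G.tlo true (.inl i) (K.dir i) + 50 * ω (.inl i))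
      (min (G.thi true (.inl i) (K.dir i) - 50 * ω (.inl i))
        (h1 (E.a e + t • (E.b e - E.a e)) (K.dir i)))) (Icc 0 1) ≤
      ENNReal.ofReal (1 + μ) * tvE E h e (K.dir i) + ENNReal.ofReal (ε e)

/-- from the form without clamps -/
theorem tvsC_of_tvs {S : Rad K} {W : Wid K S} {B : Boxes W} {G : Geo B} {ω : TBx K → ℝ}
    {X : Set K.G} {h h1 : V → V} {μ : ℝ} {ε : E.ε → ℝ}
    (H : ∀ e, ∀ i ∈ X, (∀ x ∈ E.seg e, closedBall (h x) (30 * ω (.inl i)) ⊆ G.TB true (.inl i)) →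
      tvE E h1 e (K.dir i) ≤
        ENNReal.ofReal (1 + μ) * tvE E h e (K.dir i) + ENNReal.ofReal (ε e)) :
    TvsC G E ω X h h1 μ ε := by
  intro e i hi hx
  refine le_trans ?_ (H e i hi hx)
  have h1' := eVariationOn_le_of_edist (C := 1) (s := Icc (0:ℝ) 1)
    (f := fun t => max (G.tlo true (.inl i) (K.dir i) + 50 * ω (.inl i))
      (min (G.thi true (.inl i) (K.dir i) - 50 * ω (.inl i))
        (h1 (E.a e + t • (E.b e - E.a e)) (K.dir i))))
    (g := fun t => onSeg h1 (E.a e, E.b e) t (K.dir i)) (fun x _ y _ => by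
      rw [one_mul, edist_dist, edist_dist]
      exact ENNReal.ofReal_le_ofReal (abs_clamp_sub_le _ _ _ _))
  rw [one_mul] at h1'
  exact h1'

end clamp

/-! ### the tube case -/

/-- `TvOut` for the tubes -/
def TvTube (c δ : ℝ) (w : V) (ρ : V → ℝ) (M : Mesh Ω) (h : V → V)
    (J₀ : Set (ℕ × (Fin 3 → ℤ))) (ε : M.κ → ℝ) (q : V → V) : Prop :=
  ∀ k e, H304.IsEdge M e → segment ℝ e.1 e.2 ⊆ M.F k → ∀ l m z,
    H239.Deep c δ w ρ J₀ {l} m z (h '' segment ℝ e.1 e.2) →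
    H239.tv q e Finset.univ ≤ ENNReal.ofReal (1 + c) * H239.tv h e {l} + ENNReal.ofReal (ε k)

/-- `TvOut` for the plates -/
def TvPlate (c δ : ℝ) (w : V) (ρ : V → ℝ) (M : Mesh Ω) (h : V → V)
    (J₀ : Set (ℕ × (Fin 3 → ℤ))) (ε : M.κ → ℝ) (q : V → V) : Prop :=
  ∀ k e, H304.IsEdge M e → segment ℝ e.1 e.2 ⊆ M.F k → ∀ l m z,
    H239.Deep c δ w ρ J₀ (Finset.univ.erase l) m z (h '' segment ℝ e.1 e.2) →
    H239.tv q e Finset.univ ≤
      ENNReal.ofReal (1 + c) * H239.tv h e (Finset.univ.erase l) + ENNReal.ofReal (ε k)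

theorem tvOut_of {c δ : ℝ} {h q : V → V} {ε : M.κ → ℝ} (H1 : TvTube c δ w ρ M h J₀ ε q)
    (H2 : TvPlate c δ w ρ M h J₀ ε q) : H212.TvOut c δ w ρ M h J₀ ε q := by
  intro k e he hk A hA hA' m z hD
  rcases H212.card_cases A hA hA' with ⟨l, rfl⟩ | ⟨l, rfl⟩
  · exact H1 k e he hk l m z hD
  · exact H2 k e he hk l m z hD

theorem length_le_diam {k : M.κ} {e : V × V} (hk : segment ℝ e.1 e.2 ⊆ M.F k) :
    ‖e.2 - e.1‖ ≤ diam (M.F k) := by
  have h1 := dist_le_diam_of_mem (H233.isCompact_FQ M (.inl k)).isBounded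
    (hk (right_mem_segment ℝ _ _)) (hk (left_mem_segment ℝ _ _))
  rwa [dist_eq_norm] at h1

/-- **the tube case of the sharp edges**, after the soft collapse -/
theorem tv_of_mid (D : KIn3 c₀ n j δ v w ρ M h J₀ J P Z) (C : Cells ρ w K)
    {h1 : ConHomeo Ω Λ} {f : V → V}
    (near : ∀ x ∈ Ω, ∀ q, h.toFun x ∈ K.cube q → ‖h1.toFun x - h.toFun x‖ ≤ (D.G C).om q)
    {μ₁ μs κ : ℝ} {εT : (edges M).ε → ℝ}
    (tvs : TvsC (D.G C) (edges M) (ω3T δ C) (pG C J₀) h.toFun h1.toFun μ₁ εT) {c : M.κ → ℝ}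
    (hf : MidEst (D.G C) M (pG C J₀) (Ms (D.G C) (pS C J₀) M h1) h1.toFun f κ c) (hκ : 0 ≤ κ) (hc : ∀ k, 0 ≤ c k) (hμs : 0 ≤ μs)
    (hμ₁ : 0 ≤ μ₁) (hnum : (1 + 3 * μs) * κ * (1 + μ₁) ≤ 1 + c₀) (hμs1 : 3 * μs ≤ 1)
    {εk : M.κ → ℝ} (hεk : ∀ k, 0 < εk k)
    (hεT : ∀ k e, (edges M).seg e ⊆ M.F k → 8 * εT e ≤ εk k)
    (hck : ∀ k, 8 * (c k * diam (M.F k)) ≤ εk k) :
    ∃ t₀ : M.κ ⊕ M.ι → ℝ, (∀ a, 0 < t₀ a) ∧ ∀ (R : Fac K) (N t : M.κ ⊕ M.ι → ℝ)
      (Φ : ConHomeo Λ Λ), (∀ a, 0 < t a) → (∀ a, t a ≤ t₀ a) →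
      Small3 (D.W C) (Xp C J₀) R f (FQ M) N t → IsSoft (D.B C) μs R Φ →
      TvTube c₀ δ w ρ M h.toFun J₀ εk fun x => Φ.toFun (f x) := by
  have hc₀ := D.le
  have hc₀0 := D.c₀_pos
  have hd : ∀ a : M.κ ⊕ M.ι, 0 < 1 + diam (FQ M a) := fun a => by
    have : 0 ≤ diam (FQ M a) := diam_nonneg
    linarith
  refine ⟨fun a => Sum.elim (fun k => εk k / (16 * (1 + diam (M.F k)))) (fun _ => 1) a,
    fun a => ?_, fun R N t Φ ht0 ht HS HΦ => ?_⟩
  · rcases a with k | i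
    · have := hd (.inl k)
      exact div_pos (hεk k) (mul_pos (by norm_num) this)
    · exact one_pos
  intro k e₀ he hk l m z hDeep
  obtain ⟨e, he', htv⟩ := exists_edge he
  have hek : (edges M).seg e ⊆ M.F k := by rw [he']; exact hk
  rw [htv, htv]
  rw [← he'] at hDeep
  obtain ⟨i, hi, hil, hpos'⟩ := deep_mid D C near hDeep
  obtain ⟨a, b, -, hab⟩ := M.two k
  have hpos : ∀ x ∈ (edges M).seg e, InMid (D.G C) i (h1.toFun x) ∧
      closedBall (h.toFun x) (30 * ω3T δ C (.inl i)) ⊆ (D.G C).TB true (.inl i) ∧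
      (D.G C).tlo true (.inl i) (K.dir i) + 50 * ω3T δ C (.inl i) ≤ h1.toFun x (K.dir i) ∧
      h1.toFun x (K.dir i) ≤ (D.G C).thi true (.inl i) (K.dir i) - 50 * ω3T δ C (.inl i) := by
    intro x hx
    obtain ⟨h3, h4⟩ := hpos' x hx
    have hxa := (hab (hek hx)).1
    obtain ⟨h5, h6⟩ := (h4 a hxa).2.2 x hxa
    exact ⟨h5, h3, h6⟩
  have hkM : k ∈ Ms (D.G C) (pS C J₀) M h1 :=
    ⟨a, hab.trans inter_subset_left, fun y hy s _ =>
      (((hpos' _ ((edges M).left_mem e)).2 a (hab (hek ((edges M).left_mem e))).1).2.2 y hy).1.off s⟩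
  set e₁ : V × V := ((edges M).a e, (edges M).b e) with he₁
  have hseg : segment ℝ e₁.1 e₁.2 ⊆ M.F k := hek
  have hloc := hf k hkM i hi _ hek fun x hx => (hpos x hx).1
  set Le : ℝ := ‖e₁.2 - e₁.1‖ with hLe
  have hLe0 : 0 ≤ Le := norm_nonneg _
  have hLd : Le ≤ diam (M.F k) := length_le_diam hseg
  set s₀ : ℝ := 1 + 3 * μs with hs₀
  have hs₀0 : 0 ≤ s₀ := by linarith
  have hs₀2 : s₀ ≤ 2 := by linarith
  have htk := ht (.inl k)
  change t (.inl k) ≤ εk k / (16 * (1 + diam (M.F k))) at htk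
  have hdk : 0 < 1 + diam (M.F k) := hd (.inl k)
  rw [le_div_iff₀ (by positivity)] at htk
  have htk0 := ht0 (.inl k)
  -- the local estimate
  have key := tv_of_local (f := h1.toFun) (g := fun x => Φ.toFun (f x)) (e := e₁) {l}
    (κ := s₀ * κ) (c := (s₀ * c k + 3 * t (.inl k)) * Le) (by positivity)
    (mul_nonneg (add_nonneg (mul_nonneg hs₀0 (hc k)) (by linarith)) hLe0) (by
    intro s hs
    have m1 : e₁.1 + s • (e₁.2 - e₁.1) ∈ (edges M).seg e := Small.onSeg_mem hs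
    obtain ⟨hE1, hev⟩ := hloc _ m1
    have hev' := (tendsto_seg e₁ (s := s)).eventually hev
    filter_upwards [hev', self_mem_nhdsWithin] with s' h3 hs'
    have m2 : e₁.1 + s' • (e₁.2 - e₁.1) ∈ (edges M).seg e := Small.onSeg_mem hs'
    have hE2 := (hloc _ m2).1
    rw [Finset.sum_singleton]
    have h4 := HΦ.sum_e hE2 hE1
    have h5 := (HS.e3 (k := .inl k) hi (hek m2) (hek m1) ((D.B C).E_subset i hE2)).1
    have h6 : ‖e₁.1 + s' • (e₁.2 - e₁.1) - (e₁.1 + s • (e₁.2 - e₁.1))‖ = |s' - s| * Le :=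
      seg_sub e₁ s s'
    rw [h6] at h3 h5
    show ∑ j, |Φ.toFun (f (e₁.1 + s' • (e₁.2 - e₁.1))) j -
      Φ.toFun (f (e₁.1 + s • (e₁.2 - e₁.1))) j| ≤ s₀ * κ * |h1.toFun (e₁.1 + s' • (e₁.2 - e₁.1)) l -
        h1.toFun (e₁.1 + s • (e₁.2 - e₁.1)) l| + (s₀ * c k + 3 * t (.inl k)) * Le * |s' - s|
    rw [hil] at h3 h4
    have h7 := mul_le_mul_of_nonneg_left h3 hs₀0
    calc _ ≤ _ := h4
      _ ≤ s₀ * (κ * |h1.toFun (e₁.1 + s' • (e₁.2 - e₁.1)) l - h1.toFun (e₁.1 + s • (e₁.2 - e₁.1)) l| +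
          c k * (|s' - s| * Le)) + 21 * (t (.inl k) / 7 * (|s' - s| * Le)) :=
        add_le_add h7 (mul_le_mul_of_nonneg_left h5 (by norm_num))
      _ = _ := by ring)
  refine (show _ ≤ _ from key).trans ?_
  have h8 : H239.tv h1.toFun e₁ {l} ≤ ENNReal.ofReal (1 + μ₁) * H239.tv h.toFun e₁ {l} +
      ENNReal.ofReal (εT e) := by
    have h9 := tvs e i hi fun x hx => (hpos x hx).2.1
    rw [tv_clamp fun x hx => (hpos x hx).2.2] at h9
    rw [tv_single, tv_single]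
    rw [hil] at h9
    exact h9
  have hA : 0 ≤ s₀ * κ := by positivity
  have hA2 : s₀ * κ ≤ 2 := by nlinarith
  calc ENNReal.ofReal (s₀ * κ) * H239.tv h1.toFun e₁ {l} +
        ENNReal.ofReal ((s₀ * c k + 3 * t (.inl k)) * Le)
      ≤ ENNReal.ofReal (s₀ * κ) * (ENNReal.ofReal (1 + μ₁) * H239.tv h.toFun e₁ {l} +
        ENNReal.ofReal (εT e)) + ENNReal.ofReal ((s₀ * c k + 3 * t (.inl k)) * Le) := by
        gcongr
    _ = ENNReal.ofReal (s₀ * κ * (1 + μ₁)) * H239.tv h.toFun e₁ {l} +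
        (ENNReal.ofReal (s₀ * κ * εT e) +
          ENNReal.ofReal ((s₀ * c k + 3 * t (.inl k)) * Le)) := by
        rw [mul_add, ← mul_assoc, ← ENNReal.ofReal_mul hA, ← ENNReal.ofReal_mul hA, add_assoc]
    _ ≤ _ := by
        refine add_le_add (mul_le_mul' (ENNReal.ofReal_le_ofReal hnum) le_rfl) ?_
        have h10 := hεT k e hek
        have h11 := hck k
        have h12 := hεk k
        have h13 := hc k
        have e1 : ENNReal.ofReal (s₀ * κ * εT e) ≤ ENNReal.ofReal (εk k / 4) := by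
          rcases le_total 0 (εT e) with h14 | h14
          · refine ENNReal.ofReal_le_ofReal ?_
            have := mul_le_mul_of_nonneg_right hA2 h14
            linarith
          · rw [ENNReal.ofReal_of_nonpos (mul_nonpos_of_nonneg_of_nonpos hA h14)]
            exact bot_le
        have e2 : (s₀ * c k + 3 * t (.inl k)) * Le ≤ εk k / 2 := by
          have h14 : (s₀ * c k + 3 * t (.inl k)) * Le ≤
              (2 * c k + 3 * t (.inl k)) * diam (M.F k) := by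
            refine mul_le_mul ?_ hLd hLe0 (by positivity)
            have := mul_le_mul_of_nonneg_right hs₀2 h13
            linarith
          nlinarith
        refine (add_le_add e1 (ENNReal.ofReal_le_ofReal e2)).trans ?_
        rw [← ENNReal.ofReal_add (by linarith) (by linarith)]
        exact ENNReal.ofReal_le_ofReal (by linarith)

end Vale.Agent.P073.H253.Tube
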