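import Vale.Agent.P073.H253.TubeTv2
import Vale.Agent.P073.H237.Plug1

/-!
# P073, H253, `K3C`, **[SHARP-TUBE]**, part 3: over the stages of H267

* `miss4`, `miss5`: the cells which miss the plates, for `h4`, `f5`.
* `exists_epsb`: the tolerances `ε b` of `S5`.
* `tvTube_g`: the tube case of `TvOut` for the last map, over `S5`.
* `tvTube_q`: the tube case of `TvOut` for the auxiliary function, over `S3`.
-/

open Set Metric Topology Filter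
open scoped ENNReal

set_option linter.unusedSectionVars false

namespace Vale.Agent.P073.H253.Tube

open _root_.P073 _root_.P073.Net _root_.P073.PA691 _root_.P073.H236
open _root_.P073.H936 _root_.P073.H936.K3
open _root_.P073.H142
open _root_.P073.H345 (PK tg PLev)
open _root_.P073.H880.RP
open _root_.P073.H429
open Vale.Agent.P073.St (V)
open Vale.Agent.P073.H471 Vale.Agent.P073.H267 Vale.Agent.P073.H267.K3
open Vale.Agent.P073.H73 (Mesh)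
open Vale.Agent.P073.H193 (Edges edges)
open Vale.Agent.P073.H926
open Vale.Agent.P073.H238.K3
open Vale.Agent.P073.H233 (Small3 PSet Xp SoftQ FQ)

variable {c₀ n δ : ℝ} {j : ℕ} {Ω Λ : Set V} {v w : V} {ρ : V → ℝ} {M : Mesh Ω} {h : ConHomeo Ω Λ}
  {J₀ J : Set (ℕ × (Fin 3 → ℤ))} {P Z : Set M.ι} {K : BoxCx Λ w}
  {D : KIn3 c₀ n j δ v w ρ M h J₀ J P Z} {C : Cells ρ w K} {C₀ μT : ℝ}
  {X : S1 D C C₀ μT} {Y₂ : S2 X} {Ys : Set M.κ} {sc : Sharp} {Y₃ : S3 Y₂ Ys sc} {Y₄ : S4 Y₃}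

/-- the cells which miss the plates, for the map `h4` -/
theorem miss4 (Y₃ : S3 Y₂ Ys sc) (a : M.ι) (ha : Miss (D.G C) (pS C J₀) X.h1 (M.Q a)) :
    EqOn Y₃.h4.toFun X.h1.toFun (M.Q a) := Y₃.mvOut4.miss a ha

/-- the cells which miss the plates, for the map `f5` -/
theorem miss5 (Y₄ : S4 Y₃) (a : M.ι) (ha : Miss (D.G C) (pS C J₀) X.h1 (M.Q a)) :
    EqOn Y₄.f5.toFun X.h1.toFun (M.Q a) := Y₄.mvOut.miss a ha

/-- **the tolerances of the last staircase** -/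
theorem exists_epsb (f : ConHomeo Ω Λ) (J₀ : Set (ℕ × (Fin 3 → ℤ))) {t : M.κ → ℝ}
    (ht : ∀ k, 0 < t k) :
    ∃ εb : pG C J₀ → ℝ, (∀ b, 0 < εb b) ∧ ∀ b k, (f.toFun '' M.F k ∩
      YB ((YS (D.G C)).add (rT (D.G C)) (rT_pos (D.G C)) (fun e k => (YS_p_lt (D.G C) e k).le)
      fun e k => (YS_q_lt (D.G C) e k).le) b.1).Nonempty →
      εb b * (1 + diam (M.F k)) ≤ t k :=
  exists_eb f (fun b : pG C J₀ => YB ((YS (D.G C)).add (rT (D.G C)) (rT_pos (D.G C))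
      (fun e k => (YS_p_lt (D.G C) e k).le) fun e k => (YS_q_lt (D.G C) e k).le) b.1)
    (fun _ => isCompact_Icc)
    (fun _ => YB_sub _ _) ht

/-- **the local estimate for the last map** -/
theorem midEst5 (Y₅ : S5 Y₄) (hμ : ∀ b, 0 ≤ Y₅.μ b) {μ' : ℝ} (hμ' : ∀ b, Y₅.μ b ≤ μ')
    (hμ'0 : 0 ≤ μ') {t : M.κ → ℝ} (ht : ∀ k, 0 ≤ t k)
    (hεb : ∀ (b : pG C J₀) k, (Y₄.f5.toFun '' M.F k ∩
      YB ((YS (D.G C)).add (rT (D.G C)) (rT_pos (D.G C)) (fun e k => (YS_p_lt (D.G C) e k).le)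
      fun e k => (YS_q_lt (D.G C) e k).le) b.1).Nonempty →
      Y₅.ε b * (1 + diam (M.F k)) ≤ t k) :
    MidEst (D.G C) M univ univ Y₄.f5.toFun Y₅.f.toFun (1 + μ')
      fun k => t k / (1 + diam (M.F k)) :=
  midEst_tlay Y₅.lay (YT_p_ge (D.G C) (pS C J₀)) (YT_q_ge (D.G C) (pS C J₀))
    (YT_YS_p (D.G C) (pS C J₀)) (YT_YS_q (D.G C) (pS C J₀)) hμ hμ' hμ'0 Y₅.lip6 Y₅.ςK ht hεb

/-- **the tube case for the last map** -/
theorem tvTube_g (Y₅ : S5 Y₄) (hμT0 : 0 ≤ μT) (hμT : μT ≤ n / 128) (hμ : ∀ b, 0 ≤ Y₅.μ b)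
    (hμ' : ∀ b, Y₅.μ b ≤ n / 128) {εk : M.κ → ℝ} (hεk : ∀ k, 0 < εk k)
    (hεT : ∀ k e, (edges M).seg e ⊆ M.F k → 8 * X.εe e ≤ εk k)
    (hεb : ∀ (b : pG C J₀) k, (Y₄.f5.toFun '' M.F k ∩
      YB ((YS (D.G C)).add (rT (D.G C)) (rT_pos (D.G C)) (fun e k => (YS_p_lt (D.G C) e k).le)
      fun e k => (YS_q_lt (D.G C) e k).le) b.1).Nonempty →
      Y₅.ε b * (1 + diam (M.F k)) ≤ εk k / 8) :
    ∃ t₀ : M.κ ⊕ M.ι → ℝ, (∀ a, 0 < t₀ a) ∧ ∀ (R : Fac K) (N t : M.κ ⊕ M.ι → ℝ)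
      (Φ : ConHomeo Λ Λ), (∀ a, 0 < t a) → (∀ a, t a ≤ t₀ a) →
      Small3 (D.W C) (Xp C J₀) R Y₅.f.toFun (FQ M) N t → SoftQ D C R Φ →
      TvTube c₀ δ w ρ M h.toFun J₀ εk fun x => Φ.toFun (Y₅.f.toFun x) :=
  tvTube_hook D C X.out.near3 (tvsC_of_tout D C X.out) hμT0 hμT
    (by linarith [D.pos] : (0:ℝ) ≤ n / 128) le_rfl hεk hεT (miss5 Y₄)
    (midEst5 Y₅ hμ hμ' (by linarith [D.pos]) (fun k => by linarith [hεk k]) hεb)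

/-- **the tube case for the auxiliary function** `Φ ∘ h4` -/
theorem tvTube_q (Y₃ : S3 Y₂ Ys sc) (hμT0 : 0 ≤ μT) (hμT : μT ≤ n / 128) {εk : M.κ → ℝ}
    (hεk : ∀ k, 0 < εk k) (hεT : ∀ k e, (edges M).seg e ⊆ M.F k → 8 * X.εe e ≤ εk k) :
    ∃ t₀ : M.κ ⊕ M.ι → ℝ, (∀ a, 0 < t₀ a) ∧ ∀ (R : Fac K) (N t : M.κ ⊕ M.ι → ℝ)
      (Φ : ConHomeo Λ Λ), (∀ a, 0 < t a) → (∀ a, t a ≤ t₀ a) →
      Small3 (D.W C) (Xp C J₀) R Y₃.h4.toFun (FQ M) N t → SoftQ D C R Φ →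
      TvTube c₀ δ w ρ M h.toFun J₀ εk fun x => Φ.toFun (Y₃.h4.toFun x) :=
  tvTube_aux D C X.out.near3 (tvsC_of_tout D C X.out) hμT0 hμT hεk hεT (miss4 Y₃)

end Vale.Agent.P073.H253.Tube
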