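import Vale.Agent.P073.H253.Rep3
import Vale.Agent.P073.H761.C2T
import Vale.Agent.P073.H761.C4W
import Vale.Agent.P073.H761.UncW
import Vale.Agent.P073.H190.ConB2
import Vale.Agent.P073.H83.RPA

/-!
# P073, rank one: the local theorem from the producer `SpecConBeamT` (`p < 3`), resp.
`SpecConBeamTB` (any `p`)
-/

namespace Vale.Agent.P073.H253

open MeasureTheory Set Filter Topology Metric Vale.Agent.P073.LOC Vale.Agent.P073.H235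
open Vale.Agent.P073.St (V Mat)
open Vale.Agent.P073.SQ (ev)
open scoped ContDiff ENNReal

theorem Fr_mono' {a : V} {ν ν' : ℝ} {J : Finset (Fin 3)} (h : ν ≤ ν') (ha : ∀ i ∈ J, 0 ≤ a i) :
    Fr a ν J ⊆ Fr a ν' J := by
  rintro x ⟨i, hi, hx⟩
  have := ha i hi
  refine ⟨i, hi, ?_⟩
  rcases hx with hx | hx
  · left; nlinarith
  · right; nlinarith

theorem BeamT.mono {p C M θ₁ θ₂ ν₁ ν a₁ a a₁' a' τ ε c₁ c₂ : ℝ} {L : V →L[ℝ] V} {Λ : Set V}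
    {f g : V → V} (h : BeamT p C M θ₁ θ₂ ν₁ ν a₁ a τ ε c₁ c₂ L Λ f g) (h1 : a₁' ≤ a₁)
    (h2 : a' ≤ a) (hθ₂ : 0 ≤ θ₂) : BeamT p C M θ₁ θ₂ ν₁ ν a₁' a' τ ε c₁ c₂ L Λ f g := by
  refine ⟨h.diffeo, h.close, h.bulk, ?_, h.pl, ?_, h.line⟩
  · refine le_trans (H582.en_mono (inter_subset_inter_right _ (Fr_mono' h1 fun i hi => ?_)))
      h.frame
    simp only [Finset.mem_insert, Finset.mem_singleton] at hi
    rcases hi with rfl | rfl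
    · simp [bm]
    · simp [bm, hθ₂]
  · refine le_trans (Finset.sum_le_sum fun _ _ => lintegral_mono_set
      (inter_subset_inter_right _ (Fr_mono' h2 fun i hi => ?_))) h.plFrame
    rw [Finset.mem_singleton] at hi
    subst hi
    simp [fl]

/-- rank one, `p < 3` -/
theorem specBeamW_of_conBeamT (h3 : SpecC3) (hA : SpecRPA) {p : ℝ} (hp : 1 ≤ p) (hp3 : p < 3)
    {L : V →L[ℝ] V} (h : SpecConBeamT p L) : SpecBeamW p L := by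
  obtain ⟨D, hD, hcon⟩ := H761.beamT_of_con hp hp3
  obtain ⟨C₀, hC₀, h⟩ := h
  intro ε hε
  obtain ⟨M, hM, h⟩ := h (ε / (2 * D)) (by positivity)
  obtain ⟨K, hK, hrp⟩ := rp_strong h3 hA hp hM
  refine ⟨K * (D * C₀), by positivity, fun ν hν hν4 θ₂ hθ₂ hθ₂4 ν₁ hν₁ hν₁ν => ?_⟩
  obtain ⟨θ₀, hθ₀, h⟩ := h ν hν hν4 θ₂ hθ₂ hθ₂4 ν₁ hν₁ hν₁ν
  refine ⟨θ₀, hθ₀, fun θ₁ hθ₁ hθle => ?_⟩
  obtain ⟨τ, hτ, hτ1, hτ2, hrp⟩ := hrp (D * C₀) θ₁ θ₂ ν₁ ν (D * (ε / (2 * D))) (by positivity)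
    hθ₁ hθ₂ hθ₂4 hν₁ hν₁ν hν4 (by positivity)
  obtain ⟨κ, hκ, h⟩ := h θ₁ hθ₁ hθle τ hτ
  refine ⟨κ, hκ, fun Λ f F hf => ?_⟩
  obtain ⟨c₁, c₂, g, hc₁, hc₂, hg⟩ := hcon C₀ M θ₁ θ₂ ν₁ ν τ (ε / (2 * D)) L Λ f hC₀ hM hθ₁ hθ₂
    hν₁ (by linarith) hν4 hτ1 hτ2 (by positivity) hf.dom hf.cont (h Λ f F hf)
  obtain ⟨g', hg'⟩ := hrp c₁ c₂ L Λ f g hc₁ hc₂ hg
  have e : 2 * (D * (ε / (2 * D))) = ε := by field_simp
  rw [e] at hg'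
  exact ⟨g', hg'⟩

/-- rank one, any `p` -/
theorem specBeamW_of_conBeamTB (h3 : SpecC3) (hA : SpecRPA) {p : ℝ} (hp : 1 ≤ p)
    {L : V →L[ℝ] V} (h : H190.SpecConBeamTB p L) : SpecBeamW p L := by
  obtain ⟨D, hD, hcon⟩ := H190.specC2B hp
  obtain ⟨C₀, hC₀, h⟩ := h
  intro ε hε
  obtain ⟨M, hM, h⟩ := h (ε / (2 * D)) (by positivity)
  obtain ⟨K, hK, hrp⟩ := rp_strong h3 hA hp hM
  refine ⟨K * (D * C₀), by positivity, fun ν hν hν4 θ₂ hθ₂ hθ₂4 ν₁ hν₁ hν₁ν => ?_⟩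
  obtain ⟨θ₀, hθ₀, h⟩ := h ν hν hν4 θ₂ hθ₂ hθ₂4 ν₁ hν₁ hν₁ν
  refine ⟨θ₀, hθ₀, fun θ₁ hθ₁ hθle => ?_⟩
  obtain ⟨τ, hτ, hτ1, hτ2, hrp⟩ := hrp (D * C₀) θ₁ θ₂ ν₁ ν (D * (ε / (2 * D))) (by positivity)
    hθ₁ hθ₂ hθ₂4 hν₁ hν₁ν hν4 (by positivity)
  obtain ⟨κ, hκ, h⟩ := h θ₁ hθ₁ hθle τ hτ
  refine ⟨κ, hκ, fun Λ f F hf => ?_⟩
  obtain ⟨c₁, c₂, g, hc₁, hc₂, hg⟩ := hcon C₀ M θ₁ θ₂ ν₁ ν τ (ε / (2 * D)) L Λ f hC₀ hM hθ₁ hθ₂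
    hν₁ (by linarith) hν4 hτ1 hτ2 (by positivity) hf.dom (h Λ f F hf)
  obtain ⟨g', hg'⟩ := hrp c₁ c₂ L Λ f g hc₁ hc₂
    (hg.mono (by linarith) (by linarith) hθ₂.le)
  have e : 2 * (D * (ε / (2 * D))) = ε := by field_simp
  rw [e] at hg'
  exact ⟨g', hg'⟩

/-- **(RP)**, unconditional -/
theorem specRP : SpecRP := specRP_of H732.specC3 H83.specRPA

/-- rank one, `p < 3`: only the producer is left -/
theorem locThm_of_conBeamT {p : ℝ} (hp : 1 ≤ p) (hp3 : p < 3) {L : V →L[ℝ] V}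
    (h1 : L (ev 1) = 0) (h2 : L (ev 2) = 0) (h : SpecConBeamT p L) : LocThm p L :=
  H761.specUncW p L hp h2 (H761.specC4W p L hp h1 h2
    (specBeamW_of_conBeamT H732.specC3 H83.specRPA hp hp3 h))

/-- rank one, any `p`: only the producer is left -/
theorem locThm_of_conBeamTB {p : ℝ} (hp : 1 ≤ p) {L : V →L[ℝ] V}
    (h1 : L (ev 1) = 0) (h2 : L (ev 2) = 0) (h : H190.SpecConBeamTB p L) : LocThm p L :=
  H761.specUncW p L hp h2 (H761.specC4W p L hp h1 h2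
    (specBeamW_of_conBeamTB H732.specC3 H83.specRPA hp h))

/-- **rank one**: the local theorem -/
theorem locThm_of_beamW {p : ℝ} (hp : 1 ≤ p) {L : V →L[ℝ] V} (h1 : L (ev 1) = 0)
    (h2 : L (ev 2) = 0) (h : SpecBeamW p L) : LocThm p L :=
  H761.specUncW p L hp h2 (H761.specC4W p L hp h1 h2 h)

end Vale.Agent.P073.H253
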