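import Vale.Agent.P073.H253.LineOK
import Vale.Agent.P073.H193.PlaneSum
import Vale.Agent.P073.H716.PostBeam

/-!
# P073, rank one, `2 ≤ p < 3`: `SpecConBeamT` from the core theorem and the producer
-/

namespace Vale.Agent.P073.H253

open Vale.Agent.P073.H73 (K2AS)
open Vale.Agent.P073.H235

theorem specPostBeam {p : ℝ} (hp : 2 ≤ p) : SpecPostBeam p :=
  H716.specPostBeam_of hp H193.specPlaneSum specLineOK

theorem specConBeamT {p : ℝ} (hp : 2 ≤ p) (hK : K2AS p) (h1 : SpecPreBeam p) :
    SpecConBeamT p P1 :=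
  specConBeamT_of hK h1 (specPostBeam hp)

end Vale.Agent.P073.H253
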