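import Vale.Agent.P073.H253.LineF

/-!
# P073, rank one, `[LINE-OK]`: `SpecLineOK`
-/

open Set Metric Topology MeasureTheory Filter
open scoped ENNReal NNReal

namespace Vale.Agent.P073.H253

open Vale.Agent.P073.St (V)
open Vale.Agent.P073.SQ (ev)
open Vale.Agent.P073.AB
open Vale.Agent.P073.H73 (segP onSeg)
open _root_.P073 (ConicalOn ConHomeo)

theorem lpt_add (c₁ c₂ u t : ℝ) : lpt c₁ c₂ u + t • ev 0 = lpt c₁ c₂ (u + t) := by
  funext i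
  fin_cases i <;> simp [lpt, ev]

theorem pt_ledge (v : V) (n : ℕ) (k₁ k₂ k : ℤ) :
    pt v n ![k, k₁, k₂] = lpt (v 1 + k₁ / 2 ^ n) (v 2 + k₂ / 2 ^ n) (v 0 + k * (1 / 2 ^ n)) := by
  funext i
  fin_cases i <;> simp [lpt, pt, div_eq_mul_inv]

theorem gam_ledge (v : V) (n : ℕ) (k₁ k₂ k : ℤ) (t : ℝ) :
    pt v n ![k, k₁, k₂] + t • ((1 / 2 ^ n : ℝ) • ev 0) =
      lpt (v 1 + k₁ / 2 ^ n) (v 2 + k₂ / 2 ^ n) (v 0 + k * (1 / 2 ^ n) + t * (1 / 2 ^ n)) := by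
  rw [smul_smul, pt_ledge, lpt_add]

theorem image_jv (v₀ η : ℝ) (hη : 0 < η) (k : ℤ) :
    (fun t : ℝ => v₀ + k * η + t * η) '' Icc 0 1 = jv v₀ η k := by
  ext u
  constructor
  · rintro ⟨t, ⟨h1, h2⟩, rfl⟩
    constructor
    · show v₀ + k * η ≤ v₀ + k * η + t * η
      have : 0 ≤ t * η := by positivity
      linarith
    · show v₀ + k * η + t * η ≤ v₀ + (k + 1) * η
      nlinarith
  · rintro ⟨h1, h2⟩
    refine ⟨(u - (v₀ + k * η)) / η, ⟨div_nonneg (by linarith) hη.le, ?_⟩, ?_⟩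
    · rw [div_le_one hη]; linarith
    · show v₀ + k * η + (u - (v₀ + k * η)) / η * η = u
      field_simp
      ring

theorem mem_ledge {v : V} {n : ℕ} {k₁ k₂ k : ℤ} {x : V} : x ∈ edge v (ledge n k₁ k₂ k) ↔
    ∃ u ∈ jv (v 0) (1 / 2 ^ n) k, x = lpt (v 1 + k₁ / 2 ^ n) (v 2 + k₂ / 2 ^ n) u := by
  have h1 : x ∈ edge v (ledge n k₁ k₂ k) ↔
      ∃ t ∈ Icc (0:ℝ) 1, pt v n ![k, k₁, k₂] + t • ((1 / 2 ^ n : ℝ) • ev 0) = x := by
    unfold edge
    rw [segment_eq_image']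
    simp only [mem_image, add_sub_cancel_left]
    rfl
  rw [h1, ← image_jv (v 0) (1 / 2 ^ n) (by positivity) k]
  constructor
  · rintro ⟨t, ht, rfl⟩
    exact ⟨_, ⟨t, ht, rfl⟩, gam_ledge v n k₁ k₂ k t⟩
  · rintro ⟨_, ⟨t, ht, rfl⟩, rfl⟩
    exact ⟨t, ht, gam_ledge v n k₁ k₂ k t⟩

theorem deriv_lpt (g : V → V) (c₁ c₂ u : ℝ) :
    deriv (fun s => g (lpt c₁ c₂ s)) u = lineDeriv ℝ g (lpt c₁ c₂ u) (ev 0) := by
  unfold lineDeriv
  have : (fun t : ℝ => g (lpt c₁ c₂ u + t • ev 0)) =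
      fun t => (fun s => g (lpt c₁ c₂ s)) (u + t) := by
    funext t
    rw [lpt_add]
  rw [this, deriv_comp_const_add (fun s => g (lpt c₁ c₂ s)) u 0, add_zero]

theorem eInt_ledge (v : V) (n : ℕ) (k₁ k₂ k : ℤ) (H : V → ℝ≥0∞) :
    eInt v (ledge n k₁ k₂ k) H = ∫⁻ u in jv (v 0) (1 / 2 ^ n) k,
      H (lpt (v 1 + k₁ / 2 ^ n) (v 2 + k₂ / 2 ^ n) u) := by
  set η : ℝ := 1 / 2 ^ n with hη
  have hη0 : 0 < η := by positivity
  have h1 : eInt v (ledge n k₁ k₂ k) H = ENNReal.ofReal η *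
      ∫⁻ t in Icc (0:ℝ) 1, H (pt v n ![k, k₁, k₂] + t • (η • ev 0)) := rfl
  rw [h1, ← image_jv (v 0) η hη0 k]
  have hd : ∀ t ∈ Icc (0:ℝ) 1, HasDerivWithinAt (fun t : ℝ => v 0 + k * η + t * η) η (Icc 0 1) t := by
    intro t _
    have : HasDerivAt (fun t : ℝ => v 0 + k * η + t * η) (1 * η) t :=
      ((hasDerivAt_id t).mul_const η).const_add _
    rw [one_mul] at this
    exact this.hasDerivWithinAt
  have hinj : InjOn (fun t : ℝ => v 0 + k * η + t * η) (Icc 0 1) := by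
    intro s _ t _ hst
    have h2 : s * η = t * η := by
      have : v 0 + k * η + s * η = v 0 + k * η + t * η := hst
      linarith
    exact mul_right_cancel₀ hη0.ne' h2
  rw [lintegral_image_eq_lintegral_abs_deriv_mul measurableSet_Icc hd hinj,
    lintegral_const_mul' _ _ ENNReal.ofReal_ne_top, abs_of_pos hη0]
  congr 1
  refine lintegral_congr fun t => ?_
  rw [gam_ledge]

theorem tv_ledge (g : V → V) (v : V) (n : ℕ) (k₁ k₂ k : ℤ) (A : Finset (Fin 3)) :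
    H239.tv g (segP v (ledge n k₁ k₂ k)) A = ∑ j ∈ A, eVariationOn
      (fun u => g (lpt (v 1 + k₁ / 2 ^ n) (v 2 + k₂ / 2 ^ n) u) j) (jv (v 0) (1 / 2 ^ n) k) := by
  unfold H239.tv
  refine Finset.sum_congr rfl fun j _ => ?_
  set η : ℝ := 1 / 2 ^ n with hη
  have hη0 : 0 < η := by positivity
  have h1 : (fun t => onSeg g (segP v (ledge n k₁ k₂ k)) t j) =
      (fun u => g (lpt (v 1 + k₁ / 2 ^ n) (v 2 + k₂ / 2 ^ n) u) j) ∘
        fun t : ℝ => v 0 + k * η + t * η := by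
    funext t
    show g (pt v n ![k, k₁, k₂] + t • (pt v n ![k, k₁, k₂] + η • ev 0 - pt v n ![k, k₁, k₂])) j = _
    rw [add_sub_cancel_left, gam_ledge]
    rfl
  rw [h1, eVariationOn.comp_eq_of_monotoneOn, image_jv _ _ hη0]
  intro s _ t _ hst
  show v 0 + k * η + s * η ≤ v 0 + k * η + t * η
  gcongr

theorem conical_lpt {Ω Λ : Set V} (g : ConHomeo Ω Λ) {c₁ c₂ a b : ℝ}
    (h : ∀ u ∈ Icc a b, lpt c₁ c₂ u ∈ Ω) : ConicalOn (fun u => g.toFun (lpt c₁ c₂ u)) (Icc a b) := by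
  have e : (fun u => lpt c₁ c₂ u) = fun u => (AffineMap.lineMap (k := ℝ) (lpt c₁ c₂ 0)
      (lpt c₁ c₂ 0 + ev 0)) u := by
    funext u
    rw [AffineMap.lineMap_apply, vsub_eq_sub, vadd_eq_add, add_sub_cancel_left, add_comm, lpt_add,
      zero_add]
  refine ConicalOn.comp (g := g.toFun) (h := fun u => lpt c₁ c₂ u) g.conical ?_ h ?_
  · rw [e]
    exact _root_.P073.conicalOn_of_affine _ (_root_.P073.Convex.conicalSet (convex_Icc _ _))
  · rw [e]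
    exact AffineMap.lineMap_continuous.continuousOn

end Vale.Agent.P073.H253
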