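import Vale.Agent.P073.Net.NH2a
import Mathlib

/-!
# P073, rank one, `[LINE-OK]`: conical curves on an interval
-/

open Set Metric Topology MeasureTheory Filter
open scoped ENNReal NNReal

namespace Vale.Agent.P073.H253

open _root_.P073 (ConicalOn)
open _root_.P073.Net (icc_chain conical_right' conical_left' conical_lipschitz
  conical_affine_off_finite)

section General

variable {F : Type*} [NormedAddCommGroup F] [NormedSpace ℝ F] {q : ℝ → F} {a b : ℝ}

/-- chain principle for conical curves: it suffices to consider affine pieces -/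
theorem conical_chain (hab : a ≤ b) (hq : ConicalOn q (Icc a b)) {P : ℝ → ℝ → Prop}
    (hrefl : P a a)
    (htr : ∀ x y z, a ≤ x → x ≤ y → y ≤ z → z ≤ b → P x y → P y z → P x z)
    (haff : ∀ x y, a ≤ x → x < y → y ≤ b → ∀ (t : ℝ) (w : F),
      (∀ s ∈ Icc x y, q s = q t + (s - t) • w) → P x y) : P a b := by
  refine icc_chain hab hrefl htr ?_ ?_
  · intro x hx hxb
    obtain ⟨r, hr, hrb, w, hw⟩ := conical_right' hq hx hxb
    exact ⟨r, hr, hrb, haff x (x + r) hx.1 (by linarith) hrb x w hw⟩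
  · intro x hx hax
    obtain ⟨r, hr, hra, w, hw⟩ := conical_left' hq hx hax
    exact ⟨r, hr, hra, fun y hy => haff y x (by linarith [hy.1]) hy.2 hx.2 x w
      fun s hs => hw s ⟨by linarith [hs.1, hy.1], hs.2⟩⟩

theorem deriv_affine {x y t : ℝ} {w : F} (h : ∀ s ∈ Icc x y, q s = q t + (s - t) • w) {s : ℝ}
    (hs : s ∈ Ioo x y) : HasDerivAt q w s := by
  have h1 : HasDerivAt (fun s : ℝ => q t + (s - t) • w) ((1:ℝ) • w) s :=
    (((hasDerivAt_id s).sub_const t).smul_const w).const_add (q t)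
  rw [one_smul] at h1
  refine h1.congr_of_eventuallyEq ?_
  filter_upwards [isOpen_Ioo.mem_nhds hs] with s' hs'
  exact h s' (Ioo_subset_Icc_self hs')

variable [CompleteSpace F]

/-- the fundamental theorem -/
theorem conical_ftc (hab : a ≤ b) (hq : ConicalOn q (Icc a b)) :
    IntervalIntegrable (deriv q) volume a b ∧ ∫ t in a..b, deriv q t = q b - q a := by
  refine conical_chain hab hq (P := fun x y =>
    IntervalIntegrable (deriv q) volume x y ∧ ∫ t in x..y, deriv q t = q y - q x) ?_ ?_ ?_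
  · exact ⟨IntervalIntegrable.refl, by simp⟩
  · rintro x y z _ _ _ _ ⟨h1, h2⟩ ⟨h3, h4⟩
    exact ⟨h1.trans h3, by
      rw [← intervalIntegral.integral_add_adjacent_intervals h1 h3, h2, h4]; abel⟩
  · intro x y _ hxy _ t w h
    have h1 : ∀ s ∈ Ioo x y, deriv q s = w := fun s hs => (deriv_affine h hs).deriv
    have h2 : ∀ᵐ s : ℝ, s ∈ uIoc x y → deriv q s = w := by
      have : ∀ᵐ s : ℝ, s ≠ y := by
        rw [ae_iff]; simp
      filter_upwards [this] with s hs hs'
      rw [uIoc_of_le hxy.le] at hs'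
      exact h1 s ⟨hs'.1, lt_of_le_of_ne hs'.2 hs⟩
    constructor
    · exact (intervalIntegrable_const (c := w)).congr_ae
        ((ae_restrict_iff' measurableSet_uIoc).2 (by
          filter_upwards [h2] with s hs hs' using (hs hs').symm))
    · rw [intervalIntegral.integral_congr_ae h2, intervalIntegral.integral_const,
        h y ⟨hxy.le, le_rfl⟩, h x ⟨le_rfl, hxy.le⟩]
      module

omit [CompleteSpace F] in
/-- the derivative at almost all times -/
theorem conical_ae_hasDerivAt (hab : a ≤ b) (hq : ConicalOn q (Icc a b)) :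
    ∀ᵐ t : ℝ, t ∈ Ioo a b → HasDerivAt q (deriv q t) t := by
  have h := conical_affine_off_finite hab hq
  have h1 : ∀ᵐ t : ℝ, t ∉ {t | t ∈ Ioo a b ∧ ¬ ∃ w : F, ∀ᶠ s in 𝓝 t, q s = q t + (s - t) • w} := by
    rw [ae_iff]
    simp only [not_not]
    exact h.measure_zero _
  filter_upwards [h1] with t ht hab'
  simp only [not_and, not_not] at ht
  obtain ⟨w, hw⟩ := ht hab'
  have h2 : HasDerivAt (fun s : ℝ => q t + (s - t) • w) ((1:ℝ) • w) t :=
    (((hasDerivAt_id t).sub_const t).smul_const w).const_add (q t)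
  exact (h2.congr_of_eventuallyEq hw).differentiableAt.hasDerivAt

omit [CompleteSpace F] in
theorem norm_deriv_le {K : ℝ} (hK : 0 ≤ K)
    (h : ∀ x ∈ Icc a b, ∀ y ∈ Icc a b, ‖q x - q y‖ ≤ K * |x - y|) {t : ℝ} (ht : t ∈ Ioo a b) :
    ‖deriv q t‖ ≤ K := by
  refine norm_deriv_le_of_lip' hK ?_
  filter_upwards [Icc_mem_nhds ht.1 ht.2] with s hs
  rw [Real.norm_eq_abs]
  exact h s hs t (Ioo_subset_Icc_self ht)

end General

section Scalar

variable {q : ℝ → ℝ} {a b : ℝ}

theorem eVar_affine {x y t w : ℝ} (hxy : x ≤ y) (h : ∀ s ∈ Icc x y, q s = q t + (s - t) • w) :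
    eVariationOn q (Icc x y) = ENNReal.ofReal ((y - x) * |w|) := by
  apply le_antisymm
  · have h1 : LipschitzOnWith ‖w‖₊ q (Icc x y) := _root_.P073.Net.lipschitz_of_affine h
    have h2 := h1.comp_eVariationOn_le (f := q) (g := id) (s := Icc x y) (fun s hs => hs)
    have h3 : eVariationOn (id : ℝ → ℝ) (Icc x y) ≤ ENNReal.ofReal (y - x) := by
      have := (monotone_id (α := ℝ)).monotoneOn (Icc x y) |>.eVariationOn_eq
        (a := x) (b := y) ⟨le_rfl, hxy⟩ ⟨hxy, le_rfl⟩
      rw [inter_self] at this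
      exact this.le
    calc eVariationOn q (Icc x y) ≤ (‖w‖₊ : ℝ≥0∞) * eVariationOn (id : ℝ → ℝ) (Icc x y) := h2
      _ ≤ (‖w‖₊ : ℝ≥0∞) * ENNReal.ofReal (y - x) := by gcongr
      _ = _ := by
          rw [ENNReal.ofReal_mul (by linarith), mul_comm, ← Real.norm_eq_abs,
            ofReal_norm]
          rfl
  · have h1 : edist (q y) (q x) ≤ eVariationOn q (Icc x y) :=
      eVariationOn.edist_le q ⟨hxy, le_rfl⟩ ⟨le_rfl, hxy⟩
    refine le_trans (le_of_eq ?_) h1
    rw [edist_dist, Real.dist_eq, h y ⟨hxy, le_rfl⟩, h x ⟨le_rfl, hxy⟩]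
    congr 1
    have : q t + (y - t) • w - (q t + (x - t) • w) = (y - x) * w := by
      simp only [smul_eq_mul]; ring
    rw [this, abs_mul, abs_of_nonneg (show 0 ≤ y - x by linarith)]

/-- the variation of a conical function -/
theorem eVar_eq (hab : a ≤ b) (hq : ConicalOn q (Icc a b)) :
    eVariationOn q (Icc a b) = ∫⁻ t in Icc a b, ENNReal.ofReal |deriv q t| := by
  refine conical_chain hab hq (P := fun x y =>
    eVariationOn q (Icc x y) = ∫⁻ t in Icc x y, ENNReal.ofReal |deriv q t|) ?_ ?_ ?_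
  · rw [Icc_self]
    have : eVariationOn q {a} = 0 := eVariationOn.subsingleton _ subsingleton_singleton
    rw [this]
    simp
  · intro x y z _ hxy hyz _ h1 h2
    have e1 := eVariationOn.Icc_add_Icc q hxy hyz (mem_univ y)
    rw [univ_inter, univ_inter, univ_inter] at e1
    rw [← e1, h1, h2]
    have h3 : ∫⁻ t in Icc y z, ENNReal.ofReal |deriv q t| =
        ∫⁻ t in Ioc y z, ENNReal.ofReal |deriv q t| := by
      rw [Measure.restrict_congr_set Ioc_ae_eq_Icc]
    rw [h3, ← lintegral_union measurableSet_Ioc, Icc_union_Ioc_eq_Icc hxy hyz]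
    rw [Set.disjoint_left]
    intro s hs hs'
    exact absurd hs.2 (not_le.2 hs'.1)
  · intro x y _ hxy _ t w h
    rw [eVar_affine hxy.le h, ← restrict_Ioo_eq_restrict_Icc]
    have h4 : ∫⁻ t in Ioo x y, ENNReal.ofReal |deriv q t| =
        ∫⁻ _t in Ioo x y, ENNReal.ofReal |w| := by
      refine setLIntegral_congr_fun measurableSet_Ioo fun s hs => ?_
      show ENNReal.ofReal |deriv q s| = ENNReal.ofReal |w|
      rw [(deriv_affine h hs).deriv]
    rw [h4, setLIntegral_const, Real.volume_Ioo, ENNReal.ofReal_mul (by linarith), mul_comm]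

end Scalar

end Vale.Agent.P073.H253
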