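import Vale.Agent.P073.H228.EdgeP5C
import Vale.Agent.P073.H253.EdT2
import Vale.Agent.P073.H581.EdRow


/-!
# P073, H253, [EDGE-P]: positions of the edges near the boxes of round T

* `own_cell`: an edge in no protected cell is in a cell which is not protected;
* `S1.near_met`, `S1.near_met_PK`: `h1` on an edge which meets a box;
* `met_unique`: an edge meets the box of at most one edge of the complex;
* `not_E_end`: near the ends of the box the zone of the edge is empty;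
* `phi_all`, `phi_none`, `phi_one`: functions for `Tvg`.
-/

open Set Metric Topology Filter
open scoped ENNReal

set_option linter.unusedSectionVars false

namespace Vale.Agent.P073.H253.EdN

open _root_.P073 _root_.P073.Net _root_.P073.PA691 _root_.P073.H236
open _root_.P073.H936 _root_.P073.H936.K3
open _root_.P073.H142
open _root_.P073.H345 (PK tg bt PLev)
open _root_.P073.H880.RP
open _root_.P073.H429
open _root_.P073.H228.EP
open Vale.Agent.P073.St (V)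
open Vale.Agent.P073.H471 Vale.Agent.P073.H267 Vale.Agent.P073.H267.K3
open Vale.Agent.P073.H73 (Mesh)
open Vale.Agent.P073.H193 (Edges edges LAtC)
open Vale.Agent.P073.H304 (Nb)
open Vale.Agent.P073.H926
open Vale.Agent.P073.H238 (oT)
open Vale.Agent.P073.H238.K3
open Vale.Agent.P073.H233 (PSet Xp)

variable {c₀ n δ : ℝ} {j : ℕ} {Ω Λ : Set V} {v w : V} {ρ : V → ℝ} {M : Mesh Ω} {h : ConHomeo Ω Λ}
  {J₀ J : Set (ℕ × (Fin 3 → ℤ))} {P Z : Set M.ι} {K : BoxCx Λ w}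
  {D : KIn3 c₀ n j δ v w ρ M h J₀ J P Z} {C : Cells ρ w K} {C₀ μT : ℝ}

/-- the cell of an edge -/
theorem own_cell {e : (edges M).ε} (hP : ∀ i ∈ P, ¬ (edges M).seg e ⊆ M.Q i) :
    ∃ i, i ∉ P ∧ (edges M).seg e ⊆ M.Q i := by
  obtain ⟨k, hk⟩ := (edges M).own e
  obtain ⟨i, i', -, hki⟩ := M.two k
  have h1 : (edges M).seg e ⊆ M.Q i := fun x hx => (hki (hk hx)).1
  exact ⟨i, fun hi => hP i hi h1, h1⟩

variable (D C) in
/-- the boxes are near the processed tiles -/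
theorem TB_Nb {b : TBx K} (hb : b ∈ pB C J₀) {y : V} (hy : y ∈ (D.G C).TB false b) :
    y ∈ Nb w J₀ c₀ := by
  rcases b with e | k
  · exact (D.supp C).2.1 e (inl_mem_pB.1 hb) (Ze_subset (Geo.TB_subset_Ze e hy))
  · exact (D.supp C).1 k.s (inr_mem_pB.1 hb) (Zs_subset (Geo.TB_subset_Zs k hy))

variable (D C) in
/-- `h` on an edge which meets a box -/
theorem h_met {e : (edges M).ε} (hP : ∀ i ∈ P, ¬ (edges M).seg e ⊆ M.Q i) {b : TBx K}
    (hb : b ∈ pB C J₀) {x₀ : V} (hx₀ : x₀ ∈ (edges M).seg e)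
    (hm : h.toFun x₀ ∈ (D.G C).TB false b) {x : V} (hx : x ∈ (edges M).seg e) :
    ‖h.toFun x - h.toFun x₀‖ ≤ oT (D.G C) b := by
  obtain ⟨i, hi, hs⟩ := own_cell hP
  have h1 := D.osc_T C hb hi (hs hx₀) (hs hx) hm
  have h2 := D.ω3T_oT C b
  have h3 := D.ω3T_pos C b
  rw [norm_sub_rev]
  linarith

/-- **(N1)**: `h1` on an edge which meets a box -/
theorem near_met (X : S1 D C C₀ μT) {e : (edges M).ε}
    (hP : ∀ i ∈ P, ¬ (edges M).seg e ⊆ M.Q i) {b : TBx K}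
    (hb : b ∈ pB C J₀) {x₀ : V} (hx₀ : x₀ ∈ (edges M).seg e)
    (hm : h.toFun x₀ ∈ (D.G C).TB false b) {x : V} (hx : x ∈ (edges M).seg e) :
    ‖X.h1.toFun x - h.toFun x₀‖ ≤ 5 * oT (D.G C) b := by
  obtain ⟨i, hi, hs⟩ := own_cell hP
  have hxΩ := (edges M).seg_sub_Ω e hx
  obtain ⟨q, hq⟩ := K.cover _ (h.mapsTo hxΩ)
  obtain ⟨q₀, hq₀⟩ := K.cover _ (h.mapsTo ((edges M).seg_sub_Ω e hx₀))
  obtain ⟨-, h2⟩ := D.rt_cell C hi ⟨_, ⟨x₀, hs hx₀, rfl⟩, TB_Nb D C hb hm⟩ x₀ (hs hx₀) x (hs hx)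
    q₀ q hq₀ hq
  have h3 := (D.rt_om0 C hm hq₀).2.1
  have h4 := X.out.near3 x hxΩ q hq
  have h5 := D.osc_T C hb hi (hs hx₀) (hs hx) hm
  have h6 := D.ω3T_oT C b
  have h7 := D.ω3T_pos C b
  rw [norm_sub_rev] at h5
  calc ‖X.h1.toFun x - h.toFun x₀‖
      = ‖(X.h1.toFun x - h.toFun x) + (h.toFun x - h.toFun x₀)‖ := by congr 1; abel
    _ ≤ ‖X.h1.toFun x - h.toFun x‖ + ‖h.toFun x - h.toFun x₀‖ := norm_add_le _ _
    _ ≤ 5 * oT (D.G C) b := by linarith

/-- **(N1)**, at a plate -/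
theorem near_met_PK (X : S1 D C C₀ μT) {e : (edges M).ε}
    (hP : ∀ i ∈ P, ¬ (edges M).seg e ⊆ M.Q i) {x₀ : V} (hx₀ : x₀ ∈ (edges M).seg e) {x : V}
    (hx : x ∈ (edges M).seg e) {s : K.S} (hs : s ∈ pS C J₀)
    (hxs : X.h1.toFun x ∈ PK (D.G C) s) :
    ‖h.toFun x₀ - X.h1.toFun x‖ ≤ 6 * (D.G C).oS s := by
  obtain ⟨i, hi, hsi⟩ := own_cell hP
  exact (D.pos_PK C hs hi (X.out.nearC D C i) (hsi hx) hxs (hsi hx₀)).1

variable (D C) in
/-- **(N2)**: at most one edge of the complex is met -/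
theorem met_unique {e : (edges M).ε} (hP : ∀ i ∈ P, ¬ (edges M).seg e ⊆ M.Q i) {e₁ e₂ : K.G}
    (h₁ : (.inl e₁ : TBx K) ∈ pB C J₀) {x₁ x₂ : V} (hx₁ : x₁ ∈ (edges M).seg e)
    (hx₂ : x₂ ∈ (edges M).seg e) (hm₁ : h.toFun x₁ ∈ (D.G C).TB false (.inl e₁))
    (hm₂ : h.toFun x₂ ∈ (D.G C).TB false (.inl e₂)) : e₂ = e₁ := by
  have h1 := h_met D C hP h₁ hx₁ hm₁ hx₂
  have h2 := (D.G C).oG_uT e₁
  have h3 := (D.G C).uT_lam e₁
  have h4 := (D.G C).uT_pos e₁
  have e1 : oT (D.G C) (.inl e₁) = (D.G C).oG e₁ := rfl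
  rw [e1] at h1
  obtain ⟨h5, -⟩ := near_inl (G := D.G C) (y := h.toFun x₂) hm₁ (m := (D.G C).lam e₁ / 2) le_rfl
    fun k => ((abs_sub_le_norm _ _ k).trans h1).trans (by linarith)
  by_contra hne
  exact (disjoint_se (W := D.W C) hne).notMem_of_mem_left
    (Ze_subset (Geo.TB_subset_Ze e₂ hm₂)) (Ze_subset h5)

variable (D C) in
/-- **(N3)**: near the ends of the box the point is off the zone of the edge -/
theorem not_E_end {e' : K.G} {q y : V} {d : ℝ} (hd : |y (K.dir e') - q (K.dir e')| ≤ d)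
    (hda : d ≤ (D.G C).be (K.a e')) (hdb : d ≤ (D.G C).be (K.b e'))
    (hq : q (K.dir e') ∈ Icc ((D.G C).tlo true (.inl e') (K.dir e'))
        ((D.G C).tlo true (.inl e') (K.dir e') + 50 * ω3T δ C (.inl e')) ∨
      q (K.dir e') ∈ Icc ((D.G C).thi true (.inl e') (K.dir e') - 50 * ω3T δ C (.inl e'))
        ((D.G C).thi true (.inl e') (K.dir e'))) : y ∉ (D.B C).E e' := by
  have e1 : (D.G C).tlo true (.inl e') (K.dir e') =
      K.w (K.a e') (K.dir e') + (D.G C).be (K.a e') := by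
    simp only [Geo.tlo, if_true]
  have e2 : (D.G C).thi true (.inl e') (K.dir e') =
      K.w (K.b e') (K.dir e') - (D.G C).be (K.b e') := by
    simp only [Geo.thi, if_true]
  rw [e1, e2] at hq
  intro hy
  have h1 := hy.1
  have h2 := abs_le.1 hd
  have h3 := (D.G C).be_wv (K.a e')
  have h4 := (D.G C).be_wv (K.b e')
  have h5 := D.ω3T_oT C (.inl e')
  have h6 := (D.G C).oG_uT e'
  have h7 := (D.G C).uT_lam e'
  have h8 := (D.G C).lam_a e'
  have h9 := (D.G C).lam_b e'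
  have h10 := (D.G C).uT_pos e'
  have h11 := D.ω3T_pos C (.inl e')
  have e3 : oT (D.G C) (.inl e') = (D.G C).oG e' := rfl
  rw [e3] at h5
  have h12 := (D.G C).be_pos (K.a e')
  have h13 := (D.G C).be_pos (K.b e')
  rcases hq with ⟨h14, h15⟩ | ⟨h14, h15⟩
  · linarith [h1.1]
  · linarith [h1.2]

/-! ### functions for `Tvg` -/

/-- the edge meets the box -/
def Met (D : KIn3 c₀ n j δ v w ρ M h J₀ J P Z) (C : Cells ρ w K) (e : (edges M).ε)
    (b : TBx K) : Prop :=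
  b ∈ pB C J₀ ∧ (h.toFun '' (edges M).seg e ∩ (D.G C).TB false b).Nonempty

/-- **(N4)**, no box is met -/
theorem phi_all {e : (edges M).ε} (H : ∀ b, ¬ Met D C e b) :
    PhiOk D C e Finset.univ (fun _ t => t) where
  ax := fun _ _ b hb hm => absurd ⟨hb, hm⟩ (H b)
  lip := fun _ _ _ _ => le_rfl
  cst := fun _ _ b hb hm => absurd ⟨hb, hm⟩ (H b)

/-- **(N4)**, no function -/
theorem phi_none (e : (edges M).ε) : PhiOk D C e ∅ (fun _ _ => 0) where
  ax := fun _ hl => absurd hl (Finset.notMem_empty _)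
  lip := fun _ hl => absurd hl (Finset.notMem_empty _)
  cst := fun _ hl => absurd hl (Finset.notMem_empty _)

/-- the ends of the box of the edge -/
def EndS (D : KIn3 c₀ n j δ v w ρ M h J₀ J P Z) (C : Cells ρ w K) (e' : K.G) : Set ℝ :=
  Icc ((D.G C).tlo true (.inl e') (K.dir e'))
      ((D.G C).tlo true (.inl e') (K.dir e') + 50 * ω3T δ C (.inl e')) ∪
    Icc ((D.G C).thi true (.inl e') (K.dir e') - 50 * ω3T δ C (.inl e'))
      ((D.G C).thi true (.inl e') (K.dir e'))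

/-- **(N4)**, one edge is met -/
theorem phi_one {e : (edges M).ε} {e' : K.G} (H : ∀ b, Met D C e b → b = .inl e') :
    ∃ φ : ℝ → ℝ, PhiOk D C e {K.dir e'} (fun _ => φ) ∧
      ∀ t, t ∉ EndS D C e' → ∀ᶠ t' in 𝓝 t, φ t' - φ t = t' - t := by
  obtain ⟨φ, h1, h2, h3⟩ := exists_phi (S := EndS D C e') (isClosed_Icc.union isClosed_Icc)
  have hω := D.ω3T_pos C (.inl e')
  refine ⟨φ, ⟨fun l hl b hb hm => ?_, fun _ _ => h1, fun l hl b hb hm => ?_⟩, h3⟩
  · rw [H b ⟨hb, hm⟩, Finset.mem_singleton.1 hl]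
    rfl
  · obtain rfl := H b ⟨hb, hm⟩
    refine ⟨fun s hs => h2 _ _ subset_union_left s hs, fun s hs => ?_⟩
    have h4 := h2 _ _ (subset_union_right (s := Icc ((D.G C).tlo true (.inl e') (K.dir e'))
      ((D.G C).tlo true (.inl e') (K.dir e') + 50 * ω3T δ C (.inl e'))))
    have h5 := h4 s hs
    have h6 := h4 ((D.G C).thi true (.inl e') (K.dir e')) ⟨by linarith, le_rfl⟩
    exact h5.trans h6.symm

end Vale.Agent.P073.H253.EdN
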