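import Vale.Agent.P073.H253.EdN

/-!
# P073, H253, [EDGE-P]: positions of the edges near the boxes of round T, part 2

* `met_cases`: no box is met; or a box at a hanging vertex; or one edge of the complex only;
* `near_inl_met`, `near_inr_met`, `near_PK_met`: the points of the edge near the box;
* `zone_inr`, `zone_inl`: the zones at the points `h1 x`.
-/

open Set Metric Topology Filter
open scoped ENNReal

set_option linter.unusedSectionVars false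

namespace Vale.Agent.P073.H253.EdN

open _root_.P073 _root_.P073.Net _root_.P073.PA691 _root_.P073.H236
open _root_.P073.H936 _root_.P073.H936.K3
open _root_.P073.H142
open _root_.P073.H345 (PK tg bt PLev)
open _root_.P073.H880.RP
open _root_.P073.H429
open _root_.P073.H228.EP
open Vale.Agent.P073.St (V)
open Vale.Agent.P073.H471 Vale.Agent.P073.H267 Vale.Agent.P073.H267.K3
open Vale.Agent.P073.H73 (Mesh)
open Vale.Agent.P073.H193 (Edges edges LAtC)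
open Vale.Agent.P073.H304 (Nb)
open Vale.Agent.P073.H926
open Vale.Agent.P073.H238 (oT)
open Vale.Agent.P073.H238.K3
open Vale.Agent.P073.H233 (PSet Xp)

variable {c₀ n δ : ℝ} {j : ℕ} {Ω Λ : Set V} {v w : V} {ρ : V → ℝ} {M : Mesh Ω} {h : ConHomeo Ω Λ}
  {J₀ J : Set (ℕ × (Fin 3 → ℤ))} {P Z : Set M.ι} {K : BoxCx Λ w}
  {D : KIn3 c₀ n j δ v w ρ M h J₀ J P Z} {C : Cells ρ w K} {C₀ μT : ℝ}

/-- **(N1)**, a box around an edge of the complex -/
theorem near_inl_met (X : S1 D C C₀ μT) {e : (edges M).ε}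
    (hP : ∀ i ∈ P, ¬ (edges M).seg e ⊆ M.Q i) {e' : K.G} (hm : Met D C e (.inl e')) {x : V}
    (hx : x ∈ (edges M).seg e) :
    ∃ z ∈ (D.G C).TB false (.inl e'), ∀ k, |X.h1.toFun x k - z k| ≤ (D.G C).lam e' / 2 := by
  obtain ⟨hb, _, ⟨x₀, hx₀, rfl⟩, hz⟩ := hm
  refine ⟨_, hz, fun k => ?_⟩
  have h1 := near_met X hP hb hx₀ hz hx
  have h2 := (D.G C).oG_uT e'
  have h3 := (D.G C).uT_lam e'
  have h4 := (D.G C).uT_pos e'
  have e1 : oT (D.G C) (.inl e') = (D.G C).oG e' := rfl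
  rw [e1] at h1
  exact ((abs_sub_le_norm _ _ k).trans h1).trans (by linarith)

/-- **(N1)**, a box at a hanging vertex -/
theorem near_inr_met (X : S1 D C C₀ μT) {e : (edges M).ε}
    (hP : ∀ i ∈ P, ¬ (edges M).seg e ⊆ M.Q i) {k' : Hang K} (hm : Met D C e (.inr k')) {x : V}
    (hx : x ∈ (edges M).seg e) :
    ∃ z ∈ (D.G C).TB false (.inr k'), ∀ k, |X.h1.toFun x k - z k| ≤ (D.G C).be k'.i := by
  obtain ⟨hb, _, ⟨x₀, hx₀, rfl⟩, hz⟩ := hm
  refine ⟨_, hz, fun k => ?_⟩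
  have h1 := near_met X hP hb hx₀ hz hx
  have h2 := (D.G C).oW_be k'.i
  have h4 := (D.G C).be_pos k'.i
  have e1 : oT (D.G C) (.inr k') = (D.G C).oW k'.i := rfl
  rw [e1] at h1
  exact ((abs_sub_le_norm _ _ k).trans h1).trans (by linarith)

/-- **(N1)**, at a plate -/
theorem near_PK_met (X : S1 D C C₀ μT) {e : (edges M).ε}
    (hP : ∀ i ∈ P, ¬ (edges M).seg e ⊆ M.Q i) {b : TBx K} (hm : Met D C e b) {x : V}
    (hx : x ∈ (edges M).seg e) {s : K.S} (hs : s ∈ pS C J₀)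
    (hxs : X.h1.toFun x ∈ PK (D.G C) s) :
    ∃ z ∈ (D.G C).TB false b, ‖z - X.h1.toFun x‖ ≤ 6 * (D.G C).oS s := by
  obtain ⟨-, _, ⟨x₀, hx₀, rfl⟩, hz⟩ := hm
  exact ⟨_, hz, near_met_PK X hP hx₀ hx hs hxs⟩

/-- **the three cases for the edge** -/
theorem met_cases (D : KIn3 c₀ n j δ v w ρ M h J₀ J P Z) (C : Cells ρ w K) {e : (edges M).ε}
    (hP : ∀ i ∈ P, ¬ (edges M).seg e ⊆ M.Q i) :
    (∀ b, ¬ Met D C e b) ∨ (∃ k : Hang K, Met D C e (.inr k)) ∨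
      ∃ e' : K.G, Met D C e (.inl e') ∧ ∀ b, Met D C e b → b = .inl e' := by
  by_cases h1 : ∃ b, Met D C e b
  · by_cases h2 : ∃ k : Hang K, Met D C e (.inr k)
    · exact Or.inr (Or.inl h2)
    · push Not at h2
      right; right
      obtain ⟨b, hb⟩ := h1
      rcases b with e' | k
      · refine ⟨e', hb, fun b hb' => ?_⟩
        rcases b with e'' | k
        · obtain ⟨b1, _, ⟨x₁, hx₁, rfl⟩, hz₁⟩ := hb
          obtain ⟨-, _, ⟨x₂, hx₂, rfl⟩, hz₂⟩ := hb'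
          rw [met_unique D C hP b1 hx₁ hx₂ hz₁ hz₂]
        · exact absurd hb' (h2 k)
      · exact absurd hb (h2 k)
  · push Not at h1
    exact Or.inl h1

/-- the vertex of a processed hanging box is processed -/
theorem inr_mem_pW {k : Hang K} (hk : (.inr k : TBx K) ∈ pB C J₀) : k.i ∈ pW C J₀ := by
  obtain ⟨q, hq, hqs⟩ := exists_of_pS (inr_mem_pB.1 hk)
  refine ⟨q, hq, ?_⟩
  rcases hqs with h1 | h1
  · have h2 := (TM.sq_subset K k.s).1 (Geo.hang_mem k)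
    rwa [← h1] at h2
  · have h2 := (TM.sq_subset K k.s).2 (Geo.hang_mem k)
    rwa [← h1] at h2

/-- **the zones at `h1 x`**, a box at a hanging vertex: dead -/
theorem zone_inr (X : S1 D C C₀ μT) {e : (edges M).ε}
    (hP : ∀ i ∈ P, ¬ (edges M).seg e ⊆ M.Q i) {k : Hang K} (hm : Met D C e (.inr k)) {x : V}
    (hx : x ∈ (edges M).seg e) :
    (∃ i ∈ (Xp C J₀).w, X.h1.toFun x ∈ interior (Zv (D.W C) i)) ∧
      ∀ e', X.h1.toFun x ∉ (D.B C).E e' := by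
  obtain ⟨z, hz, h1⟩ := near_inr_met X hP hm hx
  obtain ⟨h2, h3⟩ := near_inr (G := D.G C) (y := X.h1.toFun x) hz le_rfl h1
  exact ⟨⟨k.i, inr_mem_pW hm.1, h2⟩, h3⟩

/-- **the zones at `h1 x`**, the box of an edge: dead, or in the zone of the edge -/
theorem zone_inl (X : S1 D C C₀ μT) {e : (edges M).ε}
    (hP : ∀ i ∈ P, ¬ (edges M).seg e ⊆ M.Q i) {e' : K.G} (hm : Met D C e (.inl e')) {x : V}
    (hx : x ∈ (edges M).seg e) :
    ((∃ i ∈ (Xp C J₀).w, X.h1.toFun x ∈ interior (Zv (D.W C) i)) ∧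
      ∀ e'', X.h1.toFun x ∉ (D.B C).E e'') ∨
    (e' ∈ (Xp C J₀).e ∧ X.h1.toFun x ∈ (D.B C).E e' ∧
      (X.h1.toFun x ∈ interior ((D.B C).E e') ∨
        ∃ i ∈ (Xp C J₀).w, X.h1.toFun x ∈ interior (Zv (D.W C) i)) ∧
      ∀ k, k ≠ K.dir e' →
        |X.h1.toFun x k - K.w (K.a e') k| ≤ 3 / 2 * (D.G C).lam e') := by
  obtain ⟨z, hz, h1⟩ := near_inl_met X hP hm hx
  have he : e' ∈ pG C J₀ := inl_mem_pB.1 hm.1
  have ha : K.a e' ∈ (Xp C J₀).w := pW_of_pG he (Or.inl rfl)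
  have hb : K.b e' ∈ (Xp C J₀).w := pW_of_pG he (Or.inr rfl)
  obtain ⟨k1, k2, k3, k4⟩ := near_inl (G := D.G C) (y := X.h1.toFun x) hz le_rfl h1
  rcases tube_E (D.G C) k1 k2 k3 k4 with ⟨h7, h8⟩ | ⟨h7, h8⟩
  · left
    refine ⟨?_, h8⟩
    rcases h7 with h7 | h7
    · exact ⟨_, ha, h7⟩
    · exact ⟨_, hb, h7⟩
  · right
    refine ⟨he, h7, ?_, k2⟩
    rcases h8 with h8 | h8 | h8
    · exact Or.inl h8
    · exact Or.inr ⟨_, ha, h8⟩
    · exact Or.inr ⟨_, hb, h8⟩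

end Vale.Agent.P073.H253.EdN
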