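import Vale.Agent.P073.H253.EdN
import Vale.Agent.P073.H228.EdgeP5F
import Vale.Agent.P073.H581.EdRow2

/-!
# P073, H253, [EDGE-P]: the family of functions of an edge

* `exists_fam`: axes and one function for `Tvg`, which sees everything off the ends of the boxes;
* `edgeFam_of`: `EdgeFam` from the local theorem of H228.
-/

open Set Metric Topology Filter
open scoped ENNReal

set_option linter.unusedSectionVars false

namespace Vale.Agent.P073.H253.EdN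

open _root_.P073 _root_.P073.Net _root_.P073.PA691 _root_.P073.H236
open _root_.P073.H936 _root_.P073.H936.K3
open _root_.P073.H142
open _root_.P073.H345 (PK tg bt PLev)
open _root_.P073.H880.RP
open _root_.P073.H429
open _root_.P073.H228.EP
open Vale.Agent.P073.St (V)
open Vale.Agent.P073.H471 Vale.Agent.P073.H267 Vale.Agent.P073.H267.K3
open Vale.Agent.P073.H73 (Mesh)
open Vale.Agent.P073.H193 (Edges edges LAtC)
open Vale.Agent.P073.H304 (Nb)
open Vale.Agent.P073.H926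
open Vale.Agent.P073.H238 (oT)
open Vale.Agent.P073.H238.K3
open Vale.Agent.P073.H233 (PSet Xp)
open Vale.Agent.P073.Top880 (CtlS)

variable {c₀ n δ : ℝ} {j : ℕ} {Ω Λ : Set V} {v w : V} {ρ : V → ℝ} {M : Mesh Ω} {h : ConHomeo Ω Λ}
  {J₀ J : Set (ℕ × (Fin 3 → ℤ))} {P Z : Set M.ι} {K : BoxCx Λ w}
  {D : KIn3 c₀ n j δ v w ρ M h J₀ J P Z} {C : Cells ρ w K} {C₀ μT : ℝ}

variable (D C) in
/-- the boxes which an edge meets are finite in number -/
theorem finite_met (e : (edges M).ε) : {b : TBx K | Met D C e b}.Finite :=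
  (_root_.P073.Croft.finite_inter_image h (Geo.lf_TB (D.G C)) ((edges M).isCompact_seg e)
    ((edges M).seg_sub_Ω e)).subset fun _ hb => hb.2

/-- **axes and a function for `Tvg`**: `hφ` and `hI` of `EIn.ctl_at` -/
theorem exists_fam (D : KIn3 c₀ n j δ v w ρ M h J₀ J P Z) (C : Cells ρ w K)
    (e : (edges M).ε) : ∃ (I : Finset (Fin 3)) (φ : ℝ → ℝ), PhiOk D C e I (fun _ => φ) ∧
      (∀ u, (∀ b ∈ pB C J₀, (h.toFun '' (edges M).seg e ∩ (D.G C).TB false b).Nonempty →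
        u ∉ Icc ((D.G C).tlo true b b.ax) ((D.G C).tlo true b b.ax + 50 * ω3T δ C b) ∧
        u ∉ Icc ((D.G C).thi true b b.ax - 50 * ω3T δ C b) ((D.G C).thi true b b.ax)) →
        ∀ᶠ u' in 𝓝 u, φ u' - φ u = u' - u) ∧
      ∀ l, (∀ b ∈ pB C J₀, (h.toFun '' (edges M).seg e ∩ (D.G C).TB false b).Nonempty →
        b.ax = l) → l ∈ I := by
  classical
  set S : Set ℝ := ⋃ b ∈ {b : TBx K | Met D C e b},
    (Icc ((D.G C).tlo true b b.ax) ((D.G C).tlo true b b.ax + 50 * ω3T δ C b) ∪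
      Icc ((D.G C).thi true b b.ax - 50 * ω3T δ C b) ((D.G C).thi true b b.ax)) with hS
  have hcl : IsClosed S :=
    (finite_met D C e).isClosed_biUnion fun b _ => isClosed_Icc.union isClosed_Icc
  obtain ⟨φ, h1, h2, h3⟩ := exists_phi hcl
  have hsub : ∀ b, Met D C e b →
      (Icc ((D.G C).tlo true b b.ax) ((D.G C).tlo true b b.ax + 50 * ω3T δ C b) ∪
        Icc ((D.G C).thi true b b.ax - 50 * ω3T δ C b) ((D.G C).thi true b b.ax)) ⊆ S :=
    fun b hb => subset_biUnion_of_mem (u := fun b : TBx K =>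
      (Icc ((D.G C).tlo true b b.ax) ((D.G C).tlo true b b.ax + 50 * ω3T δ C b) ∪
        Icc ((D.G C).thi true b b.ax - 50 * ω3T δ C b) ((D.G C).thi true b b.ax))) hb
  refine ⟨Finset.univ.filter fun l => ∀ b ∈ pB C J₀,
      (h.toFun '' (edges M).seg e ∩ (D.G C).TB false b).Nonempty → b.ax = l, φ,
    ⟨fun l hl b hb hm => (Finset.mem_filter.1 hl).2 b hb hm, fun _ _ => h1,
      fun l hl b hb hm => ?_⟩, fun u hu => h3 u fun huS => ?_,
    fun l hl => Finset.mem_filter.2 ⟨Finset.mem_univ _, hl⟩⟩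
  · have hω := D.ω3T_pos C b
    refine ⟨fun s hs => h2 _ _ (subset_union_left.trans (hsub b ⟨hb, hm⟩)) s hs,
      fun s hs => ?_⟩
    have h4 := h2 ((D.G C).thi true b b.ax - 50 * ω3T δ C b) ((D.G C).thi true b b.ax)
      (subset_union_right.trans (hsub b ⟨hb, hm⟩))
    exact (h4 s hs).trans (h4 ((D.G C).thi true b b.ax) ⟨by linarith, le_rfl⟩).symm
  · rw [hS] at huS
    obtain ⟨b, hb, hub⟩ := mem_iUnion₂.1 huS
    obtain ⟨h5, h6⟩ := hu b hb.1 hb.2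
    rcases hub with h7 | h7
    · exact h5 h7
    · exact h6 h7

variable {X : S1 D C C₀ μT} {Y₂ : S2 X} {Ys : Set M.κ} {sc : Sharp}

/-- **`EdgeFam` from the local theorem** -/
theorem edgeFam_of (Y₃ : S3 Y₂ Ys sc) {e : (edges M).ε} {f5 : ConHomeo Ω Λ} {f : V → V}
    {γ : ℝ → ℝ} {cT : ℝ} {Xw : K.S → Bool → Set (ℝ × ℝ)} {dκ dD ηD dσ : K.S → ℝ}
    {Sv : K.G → Set ℝ} {Lc m : ℝ} {q₁ : K.S → ℝ} {e₁ sk εT : ℝ}
    (H : EIn D C e X.h1 Y₂.h2 Y₃.h3 Y₃.h4 f5 f Y₂.L Y₃.c Y₃.c0 Y₃.c1 Y₃.F Y₃.T3 Y₃.T2 Y₃.κ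
      γ cT (fun _ s => Y₂.muP s.1) Xw dκ dD ηD dσ Sv Lc m q₁ e₁ sk εT)
    (hκ : ∀ s : (D.dat C).S₀, 8 * sk * q₁ s.1 ≤ 4096 * Y₂.muP s.1 / (D.B C).τ s.1)
    {A A' cc i' ee w₁ : ℝ} (hA : 8 * sk * Lc = A) (hA' : 8 * sk * m = A') (hc : 8 * sk = cc)
    (hi : 0 ≤ i') (hw₁ : 0 ≤ w₁)
    (hee : w₁ + 8 * (sk * e₁ + εT) * ‖(edges M).b e - (edges M).a e‖ = ee) :
    EdgeFam X (CtlS Y₃ e γ A A' i' ee) cc w₁ f e := by
  intro G hG
  obtain ⟨I, φ, h1, h2, h3⟩ := exists_fam D C e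
  refine ⟨I, fun _ => φ, h1, fun t ht => ?_⟩
  have h4 := H.ctl_at h2 h3 hκ hi hw₁ ht (hG t ht)
  rw [hA, hA', hc, hee] at h4
  exact h4

end Vale.Agent.P073.H253.EdN
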