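import Vale.Agent.P073.H142.FaceT

/-!
# P073, H253, `K3C`: the layer of the tubes, estimates which see only the thin bands

* `TLay.estS`: in the open full zone of the last staircase the coordinate of the edge is controlled
  by the sum of the clamps of the bands (not by the whole coordinate) and by `ς` times `h6`.
* `TLay.estS0`: the value is in a gap between the bands: only `ς` times `h6`.
* `TLay.ends`: at the ends of the window the image is in the zone of a vertex.
* `TLay.latCS`: `LAtC` for the last map, where the estimate is needed only inside the window.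
-/

open Set Metric Topology Filter MeasureTheory
open scoped ENNReal

namespace P073.H142

open P073 P073.Net P073.PA691 P073.H236 P073.H429 P073.H880 P073.H936 P073.H936.K3
open Vale.Agent.P073.St (V)
open Vale.Agent.P073.H73 (Mesh)
open Vale.Agent.P073.H471 Vale.Agent.P073.H267
open Vale.Agent.P073.H233 (PSet LAt)

variable {Ω Λ : Set V} {v : V} {K : BoxCx Λ v} {S : Rad K} {W : Wid K S} {B : Boxes W}
  {M : Mesh Ω} {γ : Type} {φ : γ → K.G} {Pb : γ → Set V} {F : HFam 3 γ Λ} {D : Set V}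
  {ι : γ → Type} [∀ b, Fintype (ι b)] {l h : ∀ b, ι b → ℝ} {ς : γ → ℝ}
  {f5 h6 : ConHomeo Ω Λ} {Sm : ConHomeo Λ Λ}

namespace TLay

variable (H : TLay B φ Pb F D l h ς f5 h6 Sm)

include H

/-- **the local estimate of the coordinate of the edge, in the open full zone**: only the clamps of
the bands count -/
theorem estS {b : γ} {A : Set V} (hA : A ⊆ Ω) (hD : Disjoint A D) {x : V} (hx : x ∈ A)
    (hj : f5.toFun x (F.X b).j ∈ Ioo (F.X b).al (F.X b).be)
    (hlat : ∀ i, i ≠ (F.X b).j → f5.toFun x i ∈ Ioo ((F.X b).lo i) ((F.X b).hi i))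
    {c₀ c₂ c : V → ℝ} {sl : ℝ}
    (hsl : slG (F.X b).al (F.X b).be (l b) (h b) (ς b) ≤ sl)
    (h1 : ∀ᶠ x' in 𝓝[A] x, ∑ i, |clam (l b i) (h b i) (f5.toFun x' (F.X b).j) -
      clam (l b i) (h b i) (f5.toFun x (F.X b).j)| ≤ c₀ x')
    (h3 : ∀ᶠ x' in 𝓝[A] x, |h6.toFun x' (F.X b).j - h6.toFun x (F.X b).j| ≤ c₂ x')
    (hc : ∀ᶠ x' in 𝓝[A] x, sl * c₀ x' + ς b * c₂ x' ≤ c x') :
    ∀ᶠ x' in 𝓝[A] x, |Sm.toFun (h6.toFun x') (F.X b).j - Sm.toFun (h6.toFun x) (F.X b).j| ≤
      c x' := by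
  have hcf : ContinuousWithinAt f5.toFun A x := (f5.cont.mono hA) x hx
  have hFx : (F.X b).Full (f5.toFun x) :=
    ⟨⟨hj.1.le, hj.2.le⟩, fun i hi => ⟨(hlat i hi).1.le, (hlat i hi).2.le⟩⟩
  have hse : f5.toFun x ∈ W.se (φ b) := H.Ese b hFx.mem
  have hFx' : ∀ᶠ x' in 𝓝[A] x, (F.X b).Full (f5.toFun x') := by
    have e1 : Tendsto (fun x' => f5.toFun x' (F.X b).j) (𝓝[A] x)
        (𝓝 (f5.toFun x (F.X b).j)) := ((continuous_apply (F.X b).j).tendsto _).comp hcf
    have e2 : ∀ᶠ x' in 𝓝[A] x, ∀ i, i ≠ (F.X b).j →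
        (F.X b).lo i ≤ f5.toFun x' i ∧ f5.toFun x' i ≤ (F.X b).hi i := by
      rw [eventually_all]
      intro i
      by_cases hi : i = (F.X b).j
      · exact Eventually.of_forall fun x' h => absurd hi h
      · have e3 : Tendsto (fun x' => f5.toFun x' i) (𝓝[A] x) (𝓝 (f5.toFun x i)) :=
          ((continuous_apply i).tendsto _).comp hcf
        filter_upwards [e3.eventually (Ioo_mem_nhds (hlat i hi).1 (hlat i hi).2)] with x' h4 _
        exact ⟨h4.1.le, h4.2.le⟩
    filter_upwards [e1.eventually (Ioo_mem_nhds hj.1 hj.2), e2] with x' h4 h5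
    exact ⟨⟨h4.1.le, h4.2.le⟩, h5⟩
  have hBS := H.bs b
  have hk := H.k b
  have hς0 := H.ς0 b
  have hς1 := H.ς1 b
  have hsl1 : 1 ≤ slG (F.X b).al (F.X b).be (l b) (h b) (ς b) := hBS.one_le_slG hς1
  filter_upwards [H.dich hA hD hx hse, h1, h3, hc, hFx', self_mem_nhdsWithin]
    with x' h4 h5 h7 hcc hF' hx'
  have h13 : ς b * |h6.toFun x' (F.X b).j - h6.toFun x (F.X b).j| ≤ ς b * c₂ x' :=
    mul_le_mul_of_nonneg_left h7 hς0.le
  obtain ⟨h8, h9⟩ := h4
  rcases h9 with ⟨ha, hb, hc'⟩ | ⟨ha, hb⟩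
  · have h10 := abs_isH_sub_le H.isH hBS hς0 hς1 hk
      (H.PF b _ ((H.mem b x' (hA hx')).2 hb)) (H.PF b _ ((H.mem b x (hA hx)).2 ha))
    have h14 : slG (F.X b).al (F.X b).be (l b) (h b) (ς b) *
        ∑ i, |clam (l b i) (h b i) (h6.toFun x' (F.X b).j) -
          clam (l b i) (h b i) (h6.toFun x (F.X b).j)| ≤ sl * c₀ x' :=
      mul_le_mul hsl (hc'.trans h5) (Finset.sum_nonneg fun _ _ => abs_nonneg _) (by linarith)
    linarith
  · have h10 := abs_isH_sub_le H.isH hBS hς0 hς1 hk (y := h6.toFun x') (y' := h6.toFun x)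
      (by rw [hb]; exact hF') (by rw [ha]; exact hFx)
    have h14 : slG (F.X b).al (F.X b).be (l b) (h b) (ς b) *
        ∑ i, |clam (l b i) (h b i) (h6.toFun x' (F.X b).j) -
          clam (l b i) (h b i) (h6.toFun x (F.X b).j)| ≤ sl * c₀ x' := by
      refine mul_le_mul hsl ?_ (Finset.sum_nonneg fun _ _ => abs_nonneg _) (by linarith)
      rw [ha, hb]
      exact h5
    linarith

omit H in
/-- the clamps are locally constant in the gaps between the bands -/
theorem sum_clam_gap {b : γ} (hlh : ∀ i, l b i ≤ h b i) {A : Set V} {g : V → V} {j : Fin 3}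
    {x : V} (hg : ContinuousWithinAt g A x) (hgap : ∀ i, g x j < l b i ∨ h b i < g x j) :
    ∀ᶠ x' in 𝓝[A] x, ∑ i, |clam (l b i) (h b i) (g x' j) - clam (l b i) (h b i) (g x j)| = 0 := by
  have e1 : Tendsto (fun x' => g x' j) (𝓝[A] x) (𝓝 (g x j)) :=
    ((continuous_apply j).tendsto _).comp hg
  have e2 : ∀ᶠ x' in 𝓝[A] x, ∀ i, clam (l b i) (h b i) (g x' j) = clam (l b i) (h b i) (g x j) := by
    rw [eventually_all]
    intro i
    rcases hgap i with h1 | h1
    · filter_upwards [e1.eventually (gt_mem_nhds h1)] with x' h2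
      rw [clam_of_le h2.le, clam_of_le h1.le]
    · filter_upwards [e1.eventually (lt_mem_nhds h1)] with x' h2
      rw [clam_of_ge (hlh i) h2.le, clam_of_ge (hlh i) h1.le]
  filter_upwards [e2] with x' h2
  refine Finset.sum_eq_zero fun i _ => ?_
  rw [h2 i, sub_self, abs_zero]

/-- **the value is in a gap between the bands**: only `ς` times the variation of `h6` -/
theorem estS0 {b : γ} {A : Set V} (hA : A ⊆ Ω) (hD : Disjoint A D) {x : V} (hx : x ∈ A)
    (hj : f5.toFun x (F.X b).j ∈ Ioo (F.X b).al (F.X b).be)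
    (hlat : ∀ i, i ≠ (F.X b).j → f5.toFun x i ∈ Ioo ((F.X b).lo i) ((F.X b).hi i))
    (hlh : ∀ i, l b i ≤ h b i)
    (hgap : ∀ i, f5.toFun x (F.X b).j < l b i ∨ h b i < f5.toFun x (F.X b).j)
    {c₂ c : V → ℝ}
    (h3 : ∀ᶠ x' in 𝓝[A] x, |h6.toFun x' (F.X b).j - h6.toFun x (F.X b).j| ≤ c₂ x')
    (hc : ∀ᶠ x' in 𝓝[A] x, ς b * c₂ x' ≤ c x') :
    ∀ᶠ x' in 𝓝[A] x, |Sm.toFun (h6.toFun x') (F.X b).j - Sm.toFun (h6.toFun x) (F.X b).j| ≤
      c x' := by
  refine H.estS hA hD hx hj hlat (c₀ := fun _ => 0) le_rfl ?_ h3 ?_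
  · filter_upwards [sum_clam_gap hlh ((f5.cont.mono hA) x hx) hgap] with x' h4
    exact h4.le
  · filter_upwards [hc] with x' h4
    rw [mul_zero, zero_add]
    exact h4

/-- inside the window of a box or at its ends -/
theorem ends {b : γ} (hal : (F.X b).al < K.w (K.a (φ b)) (K.dir (φ b)) + W.wv (K.a (φ b)))
    (hbe : K.w (K.b (φ b)) (K.dir (φ b)) - W.wv (K.b (φ b)) < (F.X b).be) {x : V} (hx : x ∈ Ω)
    (hK : f5.toFun x ∈ (F.X b).K) :
    f5.toFun x (F.X b).j ∈ Ioo (F.X b).al (F.X b).be ∨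
      Sm.toFun (h6.toFun x) ∈ interior (Zv W (K.a (φ b))) ∨
      Sm.toFun (h6.toFun x) ∈ interior (Zv W (K.b (φ b))) := by
  have hK1 := hK.1
  by_cases hj : f5.toFun x (F.X b).j ∈ Ioo (F.X b).al (F.X b).be
  · exact Or.inl hj
  right
  have hout : (F.X b).be ≤ f5.toFun x (F.X b).j ∨ f5.toFun x (F.X b).j ≤ (F.X b).al := by
    by_contra hcon
    push Not at hcon
    exact hj ⟨hcon.2, hcon.1⟩
  -- interior points of the support have a value inside the window
  have hint : f5.toFun x ∉ interior (F.X b).K := by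
    intro hi
    obtain ⟨δ, hδ, hb⟩ := Metric.mem_nhds_iff.1 (mem_interior_iff_mem_nhds.1 hi)
    have key : ∀ σ : ℝ, |σ| < δ → (F.X b).al ≤ f5.toFun x (F.X b).j + σ ∧
        f5.toFun x (F.X b).j + σ ≤ (F.X b).be := by
      intro σ hσ
      have h3 : Function.update (f5.toFun x) (F.X b).j (f5.toFun x (F.X b).j + σ) ∈
          (F.X b).K := by
        refine hb ?_
        rw [mem_ball, dist_eq_norm]
        refine lt_of_le_of_lt ((pi_norm_le_iff_of_nonneg (abs_nonneg σ)).2 fun k => ?_) hσ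
        rw [Pi.sub_apply, Real.norm_eq_abs]
        by_cases hk : k = (F.X b).j
        · rw [hk, Function.update_self, add_sub_cancel_left]
        · rw [Function.update_of_ne hk, sub_self, abs_zero]
          exact abs_nonneg _
      have h4 := h3.1
      rwa [Function.update_self] at h4
    have h5 := key (δ / 2) (by rw [abs_of_pos (by linarith)]; linarith)
    have h6 := key (-(δ / 2)) (by rw [abs_neg, abs_of_pos (by linarith)]; linarith)
    rcases hout with h7 | h7 <;> linarith [h5.2, h6.1]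
  have he : h6.toFun x = f5.toFun x := H.off x hx fun b' hb' => by
    by_cases hbb : b' = b
    · subst hbb
      exact hint (interior_mono (H.PK b') hb')
    · exact H.not_K hbb (H.Ese b hK) (H.PK b' (interior_subset hb'))
  have hyK := H.isH.mem hK
  have hval : Sm.toFun (h6.toFun x) (F.X b).j = f5.toFun x (F.X b).j := by
    have hk : (F.X b).k (f5.toFun x (F.X b).j) = f5.toFun x (F.X b).j :=
      (F.X b).l1.out (t := f5.toFun x (F.X b).j) hout.symm
    rw [he, H.isH.on b _ hK, HX.H_toFun, vc_same]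
    exact cl_fix ((F.X b).vd.m0 _) hk
  have hyK' : Sm.toFun (h6.toFun x) ∈ (F.X b).K := by rw [he]; exact hyK
  obtain ⟨⟨h1, h2⟩, -⟩ := H.KE b hyK'
  have h3 := H.KT b _ hyK'
  have hjd := H.j b
  have hT := B.T_pos (φ b)
  have hTa := B.T_le_a (φ b)
  have hTb := B.T_le_b (φ b)
  have hwa := W.wv_pos (K.a (φ b))
  have hwb := W.wv_pos (K.b (φ b))
  rw [hjd] at hval hout hK1
  rcases hout with h7 | h7
  · right
    rw [Zv, interior_closedBall _ hwb.ne', mem_ball, dist_pi_lt_iff hwb]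
    intro k
    rw [Real.dist_eq, abs_lt]
    by_cases hk : k = K.dir (φ b)
    · subst hk
      constructor <;> linarith
    · have h4 := abs_lt.1 (h3 k hk)
      rw [← wab K (φ b) hk]
      constructor <;> linarith
  · left
    rw [Zv, interior_closedBall _ hwa.ne', mem_ball, dist_pi_lt_iff hwa]
    intro k
    rw [Real.dist_eq, abs_lt]
    by_cases hk : k = K.dir (φ b)
    · subst hk
      constructor <;> linarith
    · have h4 := abs_lt.1 (h3 k hk)
      constructor <;> linarith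

open Vale.Agent.P073.H193 (LAtC) in
/-- **`LAtC` for the final map**, the estimate is needed only inside the window -/
theorem latCS {X : PSet K} {A : Set V} (hA : A ⊆ Ω) {x : V} (hx : x ∈ A)
    (hal : ∀ b, (F.X b).al < K.w (K.a (φ b)) (K.dir (φ b)) + W.wv (K.a (φ b)))
    (hbe : ∀ b, K.w (K.b (φ b)) (K.dir (φ b)) - W.wv (K.b (φ b)) < (F.X b).be)
    {c : V → ℝ} (h1 : (∀ b, f5.toFun x ∉ (F.X b).K) → LAtC B X c A f5.toFun x)
    (h2 : ∀ b, f5.toFun x ∈ (F.X b).K → φ b ∈ X.e ∧ K.a (φ b) ∈ X.w ∧ K.b (φ b) ∈ X.w ∧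
      (f5.toFun x (F.X b).j ∈ Ioo (F.X b).al (F.X b).be →
      ∀ᶠ x' in 𝓝[A] x, |Sm.toFun (h6.toFun x') (F.X b).j - Sm.toFun (h6.toFun x) (F.X b).j| ≤
        c x')) : LAtC B X c A (fun y => Sm.toFun (h6.toFun y)) x := by
  by_cases hK : ∃ b, f5.toFun x ∈ (F.X b).K
  · obtain ⟨b, hb⟩ := hK
    obtain ⟨h3, h4, h5, h6'⟩ := h2 b hb
    rcases H.ends (hal b) (hbe b) (hA hx) hb with h7 | h7 | h7
    · refine H.latC hA hx h1 fun b' hb' => ?_
      have hbb : b' = b := by
        by_contra hne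
        exact H.not_K hne (H.Ese b hb) hb'
      subst hbb
      exact ⟨h3, h4, h5, h6' h7⟩
    · exact Or.inr (Or.inr (Or.inr ⟨_, h4, h7⟩))
    · exact Or.inr (Or.inr (Or.inr ⟨_, h5, h7⟩))
  · push Not at hK
    exact H.latC hA hx h1 fun b hb => absurd hb (hK b)

end TLay

end P073.H142
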