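import Mathlib

/-!
# P073: uniform convexity in dimension one

A function whose energy is at most the energy of a unit speed motion, and whose mean is that of the
unit speed motion, is close to it in `L^p`, `2 ≤ p`.
-/

namespace Vale.Agent.P073.H253

open MeasureTheory Set
open scoped ENNReal

/-! ## Pointwise inequalities -/

theorem add_rpow_le {p a b : ℝ} (hp : 1 ≤ p) (ha : 0 ≤ a) (hb : 0 ≤ b) :
    a ^ p + b ^ p ≤ (a + b) ^ p := by
  lift a to NNReal using ha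
  lift b to NNReal using hb
  exact_mod_cast NNReal.add_rpow_le_rpow_add a b hp

theorem mean_rpow {q a b : ℝ} (hq : 1 ≤ q) (ha : 0 ≤ a) (hb : 0 ≤ b) :
    ((a + b) / 2) ^ q ≤ (a ^ q + b ^ q) / 2 := by
  have h := (convexOn_rpow hq).2 (mem_Ici.2 ha) (mem_Ici.2 hb) (by norm_num : (0 : ℝ) ≤ 1 / 2)
    (by norm_num : (0 : ℝ) ≤ 1 / 2) (by norm_num)
  simp only [smul_eq_mul] at h
  calc ((a + b) / 2) ^ q = (1 / 2 * a + 1 / 2 * b) ^ q := by ring_nf
    _ ≤ 1 / 2 * a ^ q + 1 / 2 * b ^ q := h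
    _ = (a ^ q + b ^ q) / 2 := by ring

theorem abs_rpow (p u : ℝ) : |u| ^ p = (u ^ 2) ^ (p / 2) := by
  rw [← sq_abs, ← Real.rpow_natCast, ← Real.rpow_mul (abs_nonneg _)]
  congr 1
  push_cast
  ring

theorem clarkson {p a b : ℝ} (hp : 2 ≤ p) :
    |(a + b) / 2| ^ p + |(a - b) / 2| ^ p ≤ (|a| ^ p + |b| ^ p) / 2 := by
  rw [abs_rpow p, abs_rpow p, abs_rpow p, abs_rpow p]
  have hq : 1 ≤ p / 2 := by linarith
  calc (((a + b) / 2) ^ 2) ^ (p / 2) + (((a - b) / 2) ^ 2) ^ (p / 2)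
      ≤ (((a + b) / 2) ^ 2 + ((a - b) / 2) ^ 2) ^ (p / 2) :=
        add_rpow_le hq (sq_nonneg _) (sq_nonneg _)
    _ = ((a ^ 2 + b ^ 2) / 2) ^ (p / 2) := by congr 1; ring
    _ ≤ _ := mean_rpow hq (sq_nonneg _) (sq_nonneg _)

theorem tangent {p x : ℝ} (hp : 1 ≤ p) : 1 + p * (x - 1) ≤ |x| ^ p := by
  rcases le_or_gt 0 x with hx | hx
  · have := one_add_mul_self_le_rpow_one_add (s := x - 1) (by linarith) hp
    rw [abs_of_nonneg hx]
    calc 1 + p * (x - 1) ≤ (1 + (x - 1)) ^ p := this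
      _ = x ^ p := by ring_nf
  · have h : 0 ≤ |x| ^ p := Real.rpow_nonneg (abs_nonneg _) _
    nlinarith

/-- **(L0)** uniform convexity at the point `1` -/
theorem unif_pt {p x : ℝ} (hp : 2 ≤ p) :
    |x - 1| ^ p ≤ 2 ^ (p - 1) * (|x| ^ p - 1 - p * (x - 1)) := by
  have h1 := clarkson (a := x) (b := 1) hp
  have h2 := tangent (p := p) (x := (x + 1) / 2) (by linarith)
  have h3 : |(x - 1) / 2| ^ p = 2 ^ (-p) * |x - 1| ^ p := by
    rw [abs_div, abs_two, Real.div_rpow (abs_nonneg _) (by norm_num), Real.rpow_neg (by norm_num)]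
    field_simp
  rw [h3, abs_one, Real.one_rpow] at h1
  have h4 : (2 : ℝ) ^ (p - 1) * (2 * 2 ^ (-p)) = 1 := by
    rw [Real.rpow_sub (by norm_num), Real.rpow_neg (by norm_num), Real.rpow_one]
    have : (2 : ℝ) ^ p ≠ 0 := (Real.rpow_pos_of_pos (by norm_num) _).ne'
    field_simp
  have h5 : 2 * 2 ^ (-p) * |x - 1| ^ p ≤ |x| ^ p - 1 - p * (x - 1) := by
    have : p * ((x + 1) / 2 - 1) * 2 = p * (x - 1) := by ring
    linarith
  calc |x - 1| ^ p = 2 ^ (p - 1) * (2 * 2 ^ (-p)) * |x - 1| ^ p := by rw [h4, one_mul]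
    _ = 2 ^ (p - 1) * (2 * 2 ^ (-p) * |x - 1| ^ p) := by ring
    _ ≤ _ := by gcongr

/-! ## Integrated form -/

variable {α : Type*} [MeasurableSpace α] {μ : Measure α} [IsFiniteMeasure μ]

theorem integrable_of_abs_rpow {p : ℝ} (hp : 1 ≤ p) {x : α → ℝ} (hx : AEStronglyMeasurable x μ)
    (h : Integrable (fun t => |x t| ^ p) μ) : Integrable x μ := by
  refine ((integrable_const (1 : ℝ)).add h).mono' hx (Filter.Eventually.of_forall fun t => ?_)
  simp only [Pi.add_apply, Real.norm_eq_abs]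
  rcases le_or_gt |x t| 1 with h1 | h1
  · have : 0 ≤ |x t| ^ p := Real.rpow_nonneg (abs_nonneg _) _
    linarith
  · have : |x t| ^ (1 : ℝ) ≤ |x t| ^ p := Real.rpow_le_rpow_of_exponent_le h1.le hp
    rw [Real.rpow_one] at this
    linarith

/-- **(L1)** -/
theorem unif {p s : ℝ} (hp : 2 ≤ p) (hs : 0 ≤ s) {x y ρ : α → ℝ} (hx : AEStronglyMeasurable x μ)
    (hy : AEStronglyMeasurable y μ) (hρ : Integrable (fun t => ρ t ^ p) μ)
    (hy0 : ∀ᵐ t ∂μ, 0 ≤ y t) (h : ∀ᵐ t ∂μ, |x t| + y t ≤ ρ t)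
    (h1 : ∫ t, ρ t ^ p ∂μ ≤ (1 + s) * μ.real univ) (h2 : (1 - s) * μ.real univ ≤ ∫ t, x t ∂μ) :
    Integrable (fun t => |x t - 1| ^ p) μ ∧ Integrable (fun t => y t ^ p) μ ∧
      ∫ t, |x t - 1| ^ p ∂μ + ∫ t, y t ^ p ∂μ ≤ 2 ^ p * (1 + p) * s * μ.real univ := by
  set m := μ.real univ with hm
  have hm0 : 0 ≤ m := measureReal_nonneg
  have hp0 : 0 ≤ p := by linarith
  have hp1 : 1 ≤ p := by linarith
  have hxp : Integrable (fun t => |x t| ^ p) μ := by
    refine hρ.mono' ((hx.norm.aemeasurable.pow_const p).aestronglyMeasurable) ?_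
    filter_upwards [hy0, h] with t h0 ht
    rw [Real.norm_eq_abs, abs_of_nonneg (Real.rpow_nonneg (abs_nonneg _) _)]
    exact Real.rpow_le_rpow (abs_nonneg _) (by linarith) hp0
  have hyp : Integrable (fun t => y t ^ p) μ := by
    refine hρ.mono' ((hy.aemeasurable.pow_const p).aestronglyMeasurable) ?_
    filter_upwards [hy0, h] with t h0 ht
    rw [Real.norm_eq_abs, abs_of_nonneg (Real.rpow_nonneg h0 _)]
    exact Real.rpow_le_rpow h0 (by linarith [abs_nonneg (x t)]) hp0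
  have hxi : Integrable x μ := integrable_of_abs_rpow hp1 hx hxp
  have hxi1 : Integrable (fun t => x t - 1) μ := hxi.sub (integrable_const 1)
  have hxp1 : Integrable (fun t => |x t| ^ p - 1) μ := hxp.sub (integrable_const 1)
  have hq : Integrable (fun t => |x t| ^ p - 1 - p * (x t - 1)) μ := hxp1.sub (hxi1.const_mul p)
  have h0 : ∫ t, (x t - 1) ∂μ = (∫ t, x t ∂μ) - m := by
    rw [integral_sub hxi (integrable_const 1)]
    simp [hm]
  have hqe : ∫ t, (|x t| ^ p - 1 - p * (x t - 1)) ∂μ =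
      (∫ t, |x t| ^ p ∂μ) - m - p * ((∫ t, x t ∂μ) - m) := by
    rw [integral_sub hxp1 (hxi1.const_mul p),
      integral_sub hxp (integrable_const 1), integral_const_mul, h0]
    simp [hm]
  have hs1 : Integrable (fun t => |x t - 1| ^ p) μ := by
    refine (hq.const_mul (2 ^ (p - 1))).mono'
      (((hx.sub aestronglyMeasurable_const).norm.aemeasurable.pow_const p).aestronglyMeasurable)
      (Filter.Eventually.of_forall fun t => ?_)
    rw [Real.norm_eq_abs, abs_of_nonneg (Real.rpow_nonneg (abs_nonneg _) _)]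
    exact unif_pt hp
  refine ⟨hs1, hyp, ?_⟩
  have hA : ∫ t, |x t| ^ p ∂μ + ∫ t, y t ^ p ∂μ ≤ ∫ t, ρ t ^ p ∂μ := by
    rw [← integral_add hxp hyp]
    refine integral_mono_ae (hxp.add hyp) hρ ?_
    filter_upwards [hy0, h] with t h0 ht
    exact (add_rpow_le hp1 (abs_nonneg _) h0).trans
      (Real.rpow_le_rpow (by positivity) ht hp0)
  have hB : m + p * ((∫ t, x t ∂μ) - m) ≤ ∫ t, |x t| ^ p ∂μ := by
    have h3 : ∫ t, (1 + p * (x t - 1)) ∂μ ≤ ∫ t, |x t| ^ p ∂μ :=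
      integral_mono ((integrable_const 1).add (hxi1.const_mul p)) hxp fun t => tangent hp1
    rw [integral_add (integrable_const 1) (hxi1.const_mul p), integral_const_mul, h0] at h3
    simpa [hm] using h3
  have hC : ∫ t, |x t - 1| ^ p ∂μ ≤
      2 ^ (p - 1) * ((∫ t, |x t| ^ p ∂μ) - m - p * ((∫ t, x t ∂μ) - m)) := by
    rw [← hqe, ← integral_const_mul]
    exact integral_mono hs1 (hq.const_mul _) fun t => unif_pt hp
  have hy1 : 0 ≤ ∫ t, y t ^ p ∂μ := integral_nonneg_of_ae (by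
    filter_upwards [hy0] with t h0 using Real.rpow_nonneg h0 _)
  have h2p : (1 : ℝ) ≤ 2 ^ (p - 1) := Real.one_le_rpow (by norm_num) (by linarith)
  have h2e : (2 : ℝ) ^ p = 2 * 2 ^ (p - 1) := by
    rw [Real.rpow_sub (by norm_num), Real.rpow_one]
    ring
  have hsm : 0 ≤ s * m := by positivity
  have h5 : -(p * ((∫ t, x t ∂μ) - m)) ≤ p * (s * m) := by nlinarith
  have h6 : (∫ t, |x t| ^ p ∂μ) - m - p * ((∫ t, x t ∂μ) - m) ≤ (1 + p) * (s * m) := by
    nlinarith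
  have h7 : ∫ t, y t ^ p ∂μ ≤ (1 + p) * (s * m) := by nlinarith
  have h8 : 2 ^ (p - 1) * ((∫ t, |x t| ^ p ∂μ) - m - p * ((∫ t, x t ∂μ) - m)) ≤
      2 ^ (p - 1) * ((1 + p) * (s * m)) := by gcongr
  have h9 : (1 + p) * (s * m) ≤ 2 ^ (p - 1) * ((1 + p) * (s * m)) :=
    le_mul_of_one_le_left (by positivity) h2p
  calc ∫ t, |x t - 1| ^ p ∂μ + ∫ t, y t ^ p ∂μ
      ≤ 2 ^ (p - 1) * ((1 + p) * (s * m)) + 2 ^ (p - 1) * ((1 + p) * (s * m)) := by linarith
    _ = 2 ^ p * (1 + p) * s * m := by rw [h2e]; ring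

theorem norm_sub_single_le (k : Fin 3) (v : Fin 3 → ℝ) {p : ℝ} (hp : 1 ≤ p) :
    ‖v - Pi.single k 1‖ ^ p ≤ |v k - 1| ^ p + (∑ i ∈ Finset.univ.erase k, |v i|) ^ p := by
  have hy : 0 ≤ ∑ i ∈ Finset.univ.erase k, |v i| := Finset.sum_nonneg fun _ _ => abs_nonneg _
  have h : ‖v - Pi.single k 1‖ ≤ max |v k - 1| (∑ i ∈ Finset.univ.erase k, |v i|) := by
    refine (pi_norm_le_iff_of_nonneg (le_max_of_le_left (abs_nonneg _))).2 fun i => ?_
    rcases eq_or_ne i k with rfl | hi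
    · simp
    · refine le_max_of_le_right ?_
      simp only [Pi.sub_apply, Pi.single_eq_of_ne hi, sub_zero, Real.norm_eq_abs]
      exact Finset.single_le_sum (f := fun i => |v i|) (fun _ _ => abs_nonneg _)
        (Finset.mem_erase.2 ⟨hi, Finset.mem_univ _⟩)
  have hp0 : 0 ≤ p := by linarith
  refine (Real.rpow_le_rpow (norm_nonneg _) h hp0).trans ?_
  rcases le_total |v k - 1| (∑ i ∈ Finset.univ.erase k, |v i|) with h1 | h1
  · rw [max_eq_right h1]
    have := Real.rpow_nonneg (abs_nonneg (v k - 1)) p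
    linarith
  · rw [max_eq_left h1]
    have := Real.rpow_nonneg hy p
    linarith

/-- **(L1)**, vector form -/
theorem unif_vec {p s : ℝ} (hp : 2 ≤ p) (hs : 0 ≤ s) (k : Fin 3) {G : α → Fin 3 → ℝ} {ρ : α → ℝ}
    (hG : AEStronglyMeasurable G μ) (hρ : Integrable (fun t => ρ t ^ p) μ)
    (h : ∀ᵐ t ∂μ, ∑ i, |G t i| ≤ ρ t) (h1 : ∫ t, ρ t ^ p ∂μ ≤ (1 + s) * μ.real univ)
    (h2 : (1 - s) * μ.real univ ≤ ∫ t, G t k ∂μ) :
    ∫⁻ t, ENNReal.ofReal (‖G t - Pi.single k 1‖ ^ p) ∂μ ≤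
      ENNReal.ofReal (2 ^ p * (1 + p) * s * μ.real univ) := by
  have hp1 : 1 ≤ p := by linarith
  have hGi : ∀ i, AEStronglyMeasurable (fun t => G t i) μ := fun i =>
    ((continuous_apply i).comp_aestronglyMeasurable hG)
  have hy : AEStronglyMeasurable (fun t => ∑ i ∈ Finset.univ.erase k, |G t i|) μ :=
    Finset.aestronglyMeasurable_fun_sum _ fun i _ => (hGi i).norm
  obtain ⟨i1, i2, h3⟩ := unif hp hs (hGi k) hy hρ
    (Filter.Eventually.of_forall fun t => Finset.sum_nonneg fun _ _ => abs_nonneg _)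
    (by
      filter_upwards [h] with t ht
      rwa [← Finset.add_sum_erase _ _ (Finset.mem_univ k)] at ht) h1 h2
  have i3 : Integrable
      (fun t => |G t k - 1| ^ p + (∑ i ∈ Finset.univ.erase k, |G t i|) ^ p) μ := i1.add i2
  calc ∫⁻ t, ENNReal.ofReal (‖G t - Pi.single k 1‖ ^ p) ∂μ
      ≤ ∫⁻ t, ENNReal.ofReal (|G t k - 1| ^ p + (∑ i ∈ Finset.univ.erase k, |G t i|) ^ p) ∂μ :=
        lintegral_mono fun t => ENNReal.ofReal_le_ofReal (norm_sub_single_le k _ hp1)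
    _ = ENNReal.ofReal (∫ t, (|G t k - 1| ^ p + (∑ i ∈ Finset.univ.erase k, |G t i|) ^ p) ∂μ) := by
        rw [ofReal_integral_eq_lintegral_ofReal i3]
        exact Filter.Eventually.of_forall fun t => add_nonneg (Real.rpow_nonneg (abs_nonneg _) _)
          (Real.rpow_nonneg (Finset.sum_nonneg fun _ _ => abs_nonneg _) _)
    _ ≤ _ := by
        rw [integral_add i1 i2]
        exact ENNReal.ofReal_le_ofReal h3

/-! ## Mesh form -/

/-- perturbation of a power, with a free parameter -/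
theorem add_rpow_le_conv {p l u v : ℝ} (hp : 1 ≤ p) (hl : 0 < l) (hl1 : l < 1) (hu : 0 ≤ u)
    (hv : 0 ≤ v) : (u + v) ^ p ≤ (1 - l) ^ (1 - p) * u ^ p + l ^ (1 - p) * v ^ p := by
  have h1l : 0 < 1 - l := by linarith
  have h := (convexOn_rpow hp).2 (mem_Ici.2 (div_nonneg hu h1l.le)) (mem_Ici.2 (div_nonneg hv hl.le))
    h1l.le hl.le (by ring)
  simp only [smul_eq_mul] at h
  rw [mul_div_cancel₀ _ h1l.ne', mul_div_cancel₀ _ hl.ne', Real.div_rpow hu h1l.le,
    Real.div_rpow hv hl.le] at h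
  refine h.trans (le_of_eq ?_)
  rw [Real.rpow_sub h1l, Real.rpow_sub hl, Real.rpow_one, Real.rpow_one]
  ring

/-- Jensen on a set -/
theorem jensen_set {p : ℝ} (hp : 1 ≤ p) {A : Set α} {φ : α → ℝ} (hφ : ∀ t, 0 ≤ φ t)
    (hi : Integrable φ μ) (hip : Integrable (fun t => φ t ^ p) μ) :
    μ.real A * ((μ.real A)⁻¹ * ∫ t in A, φ t ∂μ) ^ p ≤ ∫ t in A, φ t ^ p ∂μ := by
  rcases eq_or_ne (μ A) 0 with h0 | h0
  · rw [measureReal_def, h0]
    simp only [ENNReal.toReal_zero, zero_mul]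
    exact integral_nonneg fun t => Real.rpow_nonneg (hφ t) _
  have hA : 0 < μ.real A := ENNReal.toReal_pos h0 (measure_ne_top _ _)
  have h := (convexOn_rpow hp).map_set_average_le
    (Real.continuous_rpow_const (by linarith : 0 ≤ p)).continuousOn isClosed_Ici h0
    (measure_ne_top _ _) (Filter.Eventually.of_forall fun t => mem_Ici.2 (hφ t)) hi.integrableOn
    hip.integrableOn
  rw [setAverage_eq, setAverage_eq, smul_eq_mul, smul_eq_mul] at h
  calc μ.real A * ((μ.real A)⁻¹ * ∫ t in A, φ t ∂μ) ^ p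
      ≤ μ.real A * ((μ.real A)⁻¹ * ∫ t in A, φ t ^ p ∂μ) := by gcongr
    _ = _ := by rw [mul_inv_cancel_left₀ hA.ne']

/-- the step function with values `c j` on `A j` -/
noncomputable def step {ι : Type*} (K : Finset ι) (A : ι → Set α) (c : ι → ℝ) (t : α) : ℝ :=
  ∑ j ∈ K, (A j).indicator (fun _ => c j) t

theorem step_of_mem {ι : Type*} {K : Finset ι} {A : ι → Set α} {c : ι → ℝ}
    (hd : (K : Set ι).PairwiseDisjoint A) {j : ι} (hj : j ∈ K) {t : α} (ht : t ∈ A j) :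
    step K A c t = c j := by
  rw [step, Finset.sum_eq_single_of_mem j hj]
  · exact indicator_of_mem ht _
  · intro i hi hij
    exact indicator_of_notMem (fun h => disjoint_left.1 (hd hi hj hij) h ht) _

theorem step_rpow {ι : Type*} {K : Finset ι} {A : ι → Set α} {c : ι → ℝ} {p : ℝ} (hp : 0 < p)
    (hd : (K : Set ι).PairwiseDisjoint A) (t : α) :
    step K A c t ^ p = step K A (fun j => c j ^ p) t := by
  by_cases h : ∃ j ∈ K, t ∈ A j
  · obtain ⟨j, hj, ht⟩ := h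
    rw [step_of_mem hd hj ht, step_of_mem hd hj ht]
  · push_neg at h
    have h0 : ∀ c : ι → ℝ, step K A c t = 0 := fun c => Finset.sum_eq_zero fun j hj =>
      indicator_of_notMem (h j hj) _
    rw [h0, h0, Real.zero_rpow hp.ne']

theorem integrable_step {ι : Type*} {K : Finset ι} {A : ι → Set α} {c : ι → ℝ}
    (hA : ∀ j ∈ K, MeasurableSet (A j)) : Integrable (step K A c) μ :=
  integrable_finset_sum _ fun j hj => (integrable_const (c j)).indicator (hA j hj)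

theorem integral_step {ι : Type*} {K : Finset ι} {A : ι → Set α} {c : ι → ℝ}
    (hA : ∀ j ∈ K, MeasurableSet (A j)) :
    ∫ t, step K A c t ∂μ = ∑ j ∈ K, μ.real (A j) * c j := by
  unfold step
  rw [integral_finset_sum _ fun j hj => (integrable_const (c j)).indicator (hA j hj)]
  exact Finset.sum_congr rfl fun j hj => by
    rw [integral_indicator_const _ (hA j hj), smul_eq_mul]

/-- energy of a step function whose values are almost averages -/
theorem sum_good {ι : Type*} {p l η : ℝ} (hp : 1 ≤ p) (hl : 0 < l) (hl1 : l < 1) (hη : 0 ≤ η)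
    {J : Finset ι} {A : ι → Set α} {c : ι → ℝ} {φ : α → ℝ} (hφ : ∀ t, 0 ≤ φ t)
    (hi : Integrable φ μ) (hip : Integrable (fun t => φ t ^ p) μ)
    (hA : ∀ j ∈ J, MeasurableSet (A j)) (hd : (J : Set ι).PairwiseDisjoint A)
    (hc0 : ∀ j ∈ J, 0 ≤ c j)
    (hc : ∀ j ∈ J, μ.real (A j) * c j ≤ (1 + η) * ∫ t in A j, φ t ∂μ + η * μ.real (A j)) :
    ∑ j ∈ J, μ.real (A j) * c j ^ p ≤
      (1 - l) ^ (1 - p) * (1 + η) ^ p * ∫ t, φ t ^ p ∂μ + l ^ (1 - p) * η ^ p * μ.real univ := by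
  have h1l : 0 < 1 - l := by linarith
  have hk : ∀ j ∈ J, μ.real (A j) * c j ^ p ≤
      (1 - l) ^ (1 - p) * (1 + η) ^ p * ∫ t in A j, φ t ^ p ∂μ +
        l ^ (1 - p) * η ^ p * μ.real (A j) := by
    intro j hj
    have hI : 0 ≤ ∫ t in A j, φ t ^ p ∂μ := integral_nonneg fun t => Real.rpow_nonneg (hφ t) _
    rcases eq_or_ne (μ.real (A j)) 0 with h0 | h0
    · rw [h0]
      simp only [zero_mul, mul_zero, add_zero]
      positivity
    have hA0 : 0 < μ.real (A j) := lt_of_le_of_ne measureReal_nonneg (Ne.symm h0)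
    have hI1 : 0 ≤ ∫ t in A j, φ t ∂μ := integral_nonneg fun t => hφ t
    have h1 : c j ≤ (1 + η) * ((μ.real (A j))⁻¹ * ∫ t in A j, φ t ∂μ) + η := by
      have := hc j hj
      rw [← sub_nonneg] at this ⊢
      have e : (1 + η) * ((μ.real (A j))⁻¹ * ∫ t in A j, φ t ∂μ) + η - c j =
          (μ.real (A j))⁻¹ *
            ((1 + η) * ∫ t in A j, φ t ∂μ + η * μ.real (A j) - μ.real (A j) * c j) := by
        field_simp
      rw [e]
      positivity
    have h2 : c j ^ p ≤ (1 - l) ^ (1 - p) * ((1 + η) * ((μ.real (A j))⁻¹ * ∫ t in A j, φ t ∂μ)) ^ p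
        + l ^ (1 - p) * η ^ p :=
      (Real.rpow_le_rpow (hc0 j hj) h1 (by linarith)).trans
        (add_rpow_le_conv hp hl hl1 (by positivity) hη)
    rw [Real.mul_rpow (by positivity) (by positivity)] at h2
    calc μ.real (A j) * c j ^ p ≤ μ.real (A j) * ((1 - l) ^ (1 - p) *
          ((1 + η) ^ p * ((μ.real (A j))⁻¹ * ∫ t in A j, φ t ∂μ) ^ p) + l ^ (1 - p) * η ^ p) := by
          gcongr
      _ = (1 - l) ^ (1 - p) * (1 + η) ^ p *
          (μ.real (A j) * ((μ.real (A j))⁻¹ * ∫ t in A j, φ t ∂μ) ^ p) +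
            l ^ (1 - p) * η ^ p * μ.real (A j) := by ring
      _ ≤ _ := by
          gcongr
          exact jensen_set hp hφ hi hip
  refine (Finset.sum_le_sum hk).trans ?_
  rw [Finset.sum_add_distrib, ← Finset.mul_sum, ← Finset.mul_sum]
  have h3 : ∑ j ∈ J, ∫ t in A j, φ t ^ p ∂μ ≤ ∫ t, φ t ^ p ∂μ := by
    rw [← integral_biUnion_finset J hA hd fun j _ => hip.integrableOn]
    exact setIntegral_le_integral hip (Filter.Eventually.of_forall fun t =>
      Real.rpow_nonneg (hφ t) _)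
  have h4 : ∑ j ∈ J, μ.real (A j) ≤ μ.real univ := by
    rw [← measureReal_biUnion_finset hd hA]
    exact measureReal_mono (subset_univ _)
  gcongr

/-- choice of the parameters -/
theorem exists_param {p m s : ℝ} (hp : 1 ≤ p) (hm : 0 < m) (hs : 0 < s) :
    ∃ l : ℝ, 0 < l ∧ l < 1 ∧ ∃ η₀ > 0, ∀ η, 0 ≤ η → η ≤ η₀ →
      (1 - l) ^ (1 - p) * (1 + η) ^ p * ((1 - l) ^ (1 - p) * m + l ^ (1 - p) * η) +
        l ^ (1 - p) * η ^ p * m + η ≤ (1 + s) * m := by
  have hp0 : 0 < p := by linarith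
  have h1 : ∃ l : ℝ, 0 < l ∧ l < 1 ∧ (1 - l) ^ (1 - p) * (1 - l) ^ (1 - p) < 1 + s := by
    have hc : ContinuousAt (fun l : ℝ => (1 - l) ^ (1 - p) * (1 - l) ^ (1 - p)) 0 := by
      have : ContinuousAt (fun l : ℝ => (1 - l) ^ (1 - p)) 0 :=
        (continuousAt_const.sub continuousAt_id).rpow_const (Or.inl (by simp))
      exact this.mul this
    have h2 : ∀ᶠ l in nhds (0 : ℝ), (1 - l) ^ (1 - p) * (1 - l) ^ (1 - p) < 1 + s := by
      refine hc.eventually_lt continuousAt_const ?_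
      simp [hs]
    obtain ⟨δ, hδ, h⟩ := Metric.eventually_nhds_iff.1 h2
    refine ⟨min (δ / 2) (1 / 2), by positivity, (min_le_right _ _).trans_lt (by norm_num), h ?_⟩
    rw [Real.dist_eq, sub_zero, abs_of_pos (by positivity)]
    exact (min_le_left _ _).trans_lt (by linarith)
  obtain ⟨l, hl, hl1, h⟩ := h1
  refine ⟨l, hl, hl1, ?_⟩
  have hc : ContinuousAt (fun η : ℝ => (1 - l) ^ (1 - p) * (1 + η) ^ p *
      ((1 - l) ^ (1 - p) * m + l ^ (1 - p) * η) + l ^ (1 - p) * η ^ p * m + η) 0 := by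
    have h3 : ContinuousAt (fun η : ℝ => (1 + η) ^ p) 0 :=
      (continuousAt_const.add continuousAt_id).rpow_const (Or.inr hp0.le)
    have h4 : ContinuousAt (fun η : ℝ => η ^ p) 0 := continuousAt_id.rpow_const (Or.inr hp0.le)
    exact (((continuousAt_const.mul h3).mul (continuousAt_const.add
      (continuousAt_const.mul continuousAt_id))).add ((continuousAt_const.mul h4).mul
        continuousAt_const)).add continuousAt_id
  have h5 : ∀ᶠ η in nhds (0 : ℝ), (1 - l) ^ (1 - p) * (1 + η) ^ p *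
      ((1 - l) ^ (1 - p) * m + l ^ (1 - p) * η) + l ^ (1 - p) * η ^ p * m + η < (1 + s) * m := by
    refine hc.eventually_lt continuousAt_const ?_
    simp only [add_zero, Real.one_rpow, mul_one, mul_zero, Real.zero_rpow hp0.ne', zero_mul]
    rw [← mul_assoc]
    gcongr
  obtain ⟨δ, hδ, h6⟩ := Metric.eventually_nhds_iff.1 h5
  refine ⟨δ / 2, by positivity, fun η h0 hη => (h6 ?_).le⟩
  rw [Real.dist_eq, sub_zero, abs_of_nonneg h0]
  linarith

theorem sum_abs_le (k : Fin 3) (v : Fin 3 → ℝ) :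
    ∑ i, |v i| ≤ 1 + ∑ i, |v i - (Pi.single k 1 : Fin 3 → ℝ) i| := by
  have h : ∑ i, |(Pi.single k 1 : Fin 3 → ℝ) i| = 1 := by
    rw [Finset.sum_eq_single_of_mem k (Finset.mem_univ k)]
    · simp
    · intro i _ hi
      simp [hi]
  calc ∑ i, |v i| ≤ ∑ i, (|v i - (Pi.single k 1 : Fin 3 → ℝ) i| +
        |(Pi.single k 1 : Fin 3 → ℝ) i|) := Finset.sum_le_sum fun i _ => by
        calc |v i| = |(v i - (Pi.single k 1 : Fin 3 → ℝ) i) + (Pi.single k 1 : Fin 3 → ℝ) i| := by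
              ring_nf
          _ ≤ _ := abs_add_le _ _
    _ = _ := by rw [Finset.sum_add_distrib, h, add_comm]

/-- **(L2)** the mesh form.  `A j`, `j ∈ J`: good edges, with the sharp bound; `j ∈ B`: bad edges, of
small total energy. -/
theorem line_mesh (α : Type*) [MeasurableSpace α] {p m ε : ℝ} (hp : 2 ≤ p) (hm : 0 < m)
    (hε : 0 < ε) : ∃ η > 0, ∀ (μ : Measure α) [IsFiniteMeasure μ], μ.real univ = m →
    ∀ {ι : Type*} [DecidableEq ι] (J B : Finset ι) (A : ι → Set α) (c : ι → ℝ)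
      (F G : α → Fin 3 → ℝ) (k : Fin 3),
    AEStronglyMeasurable F μ → AEStronglyMeasurable G μ → (∀ j ∈ J ∪ B, MeasurableSet (A j)) →
    ((J ∪ B : Finset ι) : Set ι).PairwiseDisjoint A → Disjoint J B → (∀ j ∈ J ∪ B, 0 ≤ c j) →
    (∀ᵐ t ∂μ, ∃ j ∈ J ∪ B, t ∈ A j) →
    ∫⁻ t, ENNReal.ofReal ((∑ i, |F t i - (Pi.single k 1 : Fin 3 → ℝ) i|) ^ p) ∂μ ≤
      ENNReal.ofReal η →
    (∀ j ∈ J, μ.real (A j) * c j ≤ (1 + η) * ∫ t in A j, ∑ i, |F t i| ∂μ + η * μ.real (A j)) →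
    ∑ j ∈ B, μ.real (A j) * c j ^ p ≤ η →
    (∀ j ∈ J ∪ B, ∀ᵐ t ∂μ, t ∈ A j → ∑ i, |G t i| ≤ c j) →
    m - η ≤ ∫ t, G t k ∂μ →
    ∫⁻ t, ENNReal.ofReal (‖G t - Pi.single k 1‖ ^ p) ∂μ ≤ ENNReal.ofReal ε := by
  have hp1 : 1 ≤ p := by linarith
  have hp0 : 0 < p := by linarith
  set s : ℝ := ε / (2 ^ p * (1 + p) * m) with hs
  have hs0 : 0 < s := by positivity
  obtain ⟨l, hl, hl1, η₀, hη₀, hpar⟩ := exists_param hp1 hm hs0
  refine ⟨min η₀ (s * m), by positivity, ?_⟩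
  set η := min η₀ (s * m) with hη
  have hη0 : 0 < η := by positivity
  intro μ _ hμ ι _ J B A c F G k hF hG hA hd hJB hc0 hcov hFk hgood hbad hGc hnet
  set φ : α → ℝ := fun t => ∑ i, |F t i| with hφ
  set ψ : α → ℝ := fun t => ∑ i, |F t i - (Pi.single k 1 : Fin 3 → ℝ) i| with hψ
  have hφ0 : ∀ t, 0 ≤ φ t := fun t => Finset.sum_nonneg fun _ _ => abs_nonneg _
  have hψ0 : ∀ t, 0 ≤ ψ t := fun t => Finset.sum_nonneg fun _ _ => abs_nonneg _
  have hFi : ∀ i, AEStronglyMeasurable (fun t => F t i) μ := fun i =>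
    (continuous_apply i).comp_aestronglyMeasurable hF
  have hφm : AEStronglyMeasurable φ μ := Finset.aestronglyMeasurable_fun_sum _ fun i _ => (hFi i).norm
  have hψm : AEStronglyMeasurable ψ μ := Finset.aestronglyMeasurable_fun_sum _ fun i _ =>
    ((hFi i).sub aestronglyMeasurable_const).norm
  have hψp : Integrable (fun t => ψ t ^ p) μ := by
    refine ⟨(hψm.aemeasurable.pow_const p).aestronglyMeasurable, ?_⟩
    rw [hasFiniteIntegral_iff_ofReal (Filter.Eventually.of_forall fun t =>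
      Real.rpow_nonneg (hψ0 t) _)]
    exact hFk.trans_lt ENNReal.ofReal_lt_top
  have hψi : ∫ t, ψ t ^ p ∂μ ≤ η := by
    rw [integral_eq_lintegral_of_nonneg_ae (Filter.Eventually.of_forall fun t =>
      Real.rpow_nonneg (hψ0 t) _) hψp.aestronglyMeasurable]
    exact ENNReal.toReal_le_of_le_ofReal hη0.le hFk
  have hb : ∀ t, φ t ^ p ≤ (1 - l) ^ (1 - p) * 1 + l ^ (1 - p) * ψ t ^ p := by
    intro t
    have h := add_rpow_le_conv hp1 hl hl1 zero_le_one (hψ0 t)
    rw [Real.one_rpow] at h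
    exact (Real.rpow_le_rpow (hφ0 t) (sum_abs_le k (F t)) hp0.le).trans h
  have hφp : Integrable (fun t => φ t ^ p) μ := by
    refine ((integrable_const ((1 - l) ^ (1 - p) * 1)).add
      (hψp.const_mul (l ^ (1 - p)))).mono' (hφm.aemeasurable.pow_const p).aestronglyMeasurable
      (Filter.Eventually.of_forall fun t => ?_)
    rw [Real.norm_eq_abs, abs_of_nonneg (Real.rpow_nonneg (hφ0 t) _)]
    exact hb t
  have hφi : ∫ t, φ t ^ p ∂μ ≤ (1 - l) ^ (1 - p) * m + l ^ (1 - p) * η := by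
    calc ∫ t, φ t ^ p ∂μ ≤ ∫ t, ((1 - l) ^ (1 - p) * 1 + l ^ (1 - p) * ψ t ^ p) ∂μ :=
          integral_mono hφp ((integrable_const ((1 - l) ^ (1 - p) * 1)).add
            (hψp.const_mul (l ^ (1 - p)))) hb
      _ = (1 - l) ^ (1 - p) * m + l ^ (1 - p) * ∫ t, ψ t ^ p ∂μ := by
          have e1 : ∫ t, l ^ (1 - p) * ψ t ^ p ∂μ = l ^ (1 - p) * ∫ t, ψ t ^ p ∂μ :=
            integral_const_mul _ _
          rw [integral_add (integrable_const _) (hψp.const_mul _), e1, integral_const, hμ,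
            smul_eq_mul]
          ring
      _ ≤ _ := by gcongr
  have hφ1 : Integrable φ μ := by
    refine integrable_of_abs_rpow hp1 hφm ?_
    simpa only [abs_of_nonneg (hφ0 _)] using hφp
  -- the step function
  have hJs : ∀ j ∈ J, j ∈ J ∪ B := fun j hj => Finset.mem_union_left _ hj
  have hBs : ∀ j ∈ B, j ∈ J ∪ B := fun j hj => Finset.mem_union_right _ hj
  have hG1 := sum_good (μ := μ) hp1 hl hl1 hη0.le hφ0 hφ1 hφp (fun j hj => hA j (hJs j hj))
    (hd.subset (by intro j hj; exact_mod_cast hJs j (by exact_mod_cast hj)))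
    (fun j hj => hc0 j (hJs j hj)) hgood
  have h1l : 0 < 1 - l := by linarith
  have hint : ∫ t, step (J ∪ B) A c t ^ p ∂μ ≤ (1 + s) * μ.real univ := by
    rw [show (fun t => step (J ∪ B) A c t ^ p) = step (J ∪ B) A (fun j => c j ^ p) from
      funext fun t => step_rpow hp0 hd t, integral_step hA, Finset.sum_union hJB, hμ]
    rw [hμ] at hG1
    refine le_trans ?_ (hpar η hη0.le (min_le_left _ _))
    calc _ ≤ ((1 - l) ^ (1 - p) * (1 + η) ^ p * ∫ t, φ t ^ p ∂μ + l ^ (1 - p) * η ^ p * m) + η :=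
          add_le_add hG1 hbad
      _ ≤ _ := by gcongr
  have hρi : Integrable (fun t => step (J ∪ B) A c t ^ p) μ := by
    rw [show (fun t => step (J ∪ B) A c t ^ p) = step (J ∪ B) A (fun j => c j ^ p) from
      funext fun t => step_rpow hp0 hd t]
    exact integrable_step hA
  have hle : ∀ᵐ t ∂μ, ∑ i, |G t i| ≤ step (J ∪ B) A c t := by
    have h7 : ∀ᵐ t ∂μ, ∀ j ∈ J ∪ B, t ∈ A j → ∑ i, |G t i| ≤ c j := by
      rw [Filter.eventually_all_finset]
      exact hGc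
    filter_upwards [hcov, h7] with t ht ht7
    obtain ⟨j, hj, htj⟩ := ht
    rw [step_of_mem hd hj htj]
    exact ht7 j hj htj
  have hnet' : (1 - s) * μ.real univ ≤ ∫ t, G t k ∂μ := by
    rw [hμ]
    have : η ≤ s * m := min_le_right _ _
    nlinarith
  refine (unif_vec hp hs0.le k hG hρi hle hint hnet').trans (ENNReal.ofReal_le_ofReal ?_)
  rw [hμ, hs]
  have : 2 ^ p * (1 + p) * m ≠ 0 := by positivity
  field_simp
  exact le_rfl

end Vale.Agent.P073.H253
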