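import Mathlib

/-!
# P073, rank one, `[LINE-OK]`: few edges of the line are mapped into the zone near the grid
-/

open Set

namespace Vale.Agent.P073.H253

/-- length of the part of the zone to the left of `s` -/
noncomputable def zr (d s : ℝ) : ℝ := d * ⌊s⌋ + min (Int.fract s) d

theorem zr_mono {d : ℝ} (hd : 0 ≤ d) {s t : ℝ} (h : s ≤ t) : zr d s ≤ zr d t := by
  unfold zr
  rcases (Int.floor_mono h).eq_or_lt with h1 | h1
  · have h2 : Int.fract s ≤ Int.fract t := by
      unfold Int.fract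
      rw [h1]; linarith
    rw [h1]
    have := min_le_min_right d h2
    linarith
  · have h2 : (⌊s⌋ : ℝ) + 1 ≤ ⌊t⌋ := by exact_mod_cast h1
    have h3 : min (Int.fract s) d ≤ d := min_le_right _ _
    have h4 : 0 ≤ min (Int.fract t) d := le_min (Int.fract_nonneg _) hd
    nlinarith

theorem zr_sub_le {d : ℝ} (hd1 : d ≤ 1) {s t : ℝ} (h : s ≤ t) :
    zr d t - zr d s ≤ t - s := by
  have es : s = ⌊s⌋ + Int.fract s := (Int.floor_add_fract s).symm
  have et : t = ⌊t⌋ + Int.fract t := (Int.floor_add_fract t).symm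
  have f1 := Int.fract_lt_one s
  have f2 := Int.fract_nonneg s
  have f3 := Int.fract_nonneg t
  unfold zr
  rcases (Int.floor_mono h).eq_or_lt with h1 | h1
  · have h2 : Int.fract s ≤ Int.fract t := by
      unfold Int.fract
      rw [h1]; linarith
    rw [h1]
    have e : t - s = Int.fract t - Int.fract s := by
      unfold Int.fract; rw [h1]; ring
    rw [e]
    rcases le_total (Int.fract s) d with h3 | h3 <;> rcases le_total (Int.fract t) d with h4 | h4 <;>
      simp only [min_eq_left, min_eq_right, h3, h4] <;> linarith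
  · have h2 : (⌊s⌋ : ℝ) + 1 ≤ ⌊t⌋ := by exact_mod_cast h1
    have h3 : min (Int.fract t) d ≤ Int.fract t := min_le_left _ _
    have h4 : Int.fract s - min (Int.fract s) d ≤ 1 - d := by
      rcases le_total (Int.fract s) d with h5 | h5
      · rw [min_eq_left h5]; linarith
      · rw [min_eq_right h5]; linarith
    have h5 : (1 - d) * 1 ≤ (1 - d) * ((⌊t⌋ : ℝ) - ⌊s⌋) := by
      apply mul_le_mul_of_nonneg_left <;> linarith
    linarith

theorem zr_le {d : ℝ} (hd : 0 ≤ d) (hd1 : d ≤ 1) (s t : ℝ) :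
    zr d t - zr d s ≤ d * (t - s) + d := by
  have es : s = ⌊s⌋ + Int.fract s := (Int.floor_add_fract s).symm
  have et : t = ⌊t⌋ + Int.fract t := (Int.floor_add_fract t).symm
  have f1 := Int.fract_lt_one s
  have f2 := Int.fract_nonneg s
  have f3 := Int.fract_nonneg t
  have h1 : d * s ≤ zr d s := by
    unfold zr
    have h2 : d * Int.fract s ≤ min (Int.fract s) d := by
      refine le_min ?_ ?_
      · nlinarith
      · nlinarith
    have : d * s = d * ⌊s⌋ + d * Int.fract s := by
      conv_lhs => rw [es]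
      ring
    linarith
  have h2 : zr d t ≤ d * t + d := by
    unfold zr
    have h3 : min (Int.fract t) d ≤ d := min_le_right _ _
    have h4 : d * (⌊t⌋ : ℝ) ≤ d * t := mul_le_mul_of_nonneg_left (Int.floor_le t) hd
    linarith
  linarith

theorem zr_zone {d : ℝ} (hd : 0 ≤ d) (hd1 : d < 1) {m : ℤ} {s : ℝ} (h : s ∈ Icc (m : ℝ) (m + d)) :
    zr d s = d * m + (s - m) := by
  have h1 : ⌊s⌋ = m := Int.floor_eq_iff.2 ⟨h.1, by linarith [h.2]⟩
  unfold zr Int.fract
  rw [h1, min_eq_left (by linarith [h.2])]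

/-- **[ZONE]** -/
theorem zone_count {w c η : ℝ} (hw : 0 < w) (hc : 0 < c) (hc4 : c < 1 / 4) {α β : ℤ}
    (hαβ : α ≤ β) (y x : ℤ → ℝ) (Z : Finset ℤ) (hZ : Z ⊆ Finset.Ico α β) (hη : 0 ≤ η)
    (hy : ∀ k ∈ Finset.Ico α β, |y (k + 1) - y k - η| ≤ x k)
    (hz : ∀ k ∈ Z, ∃ m : ℤ, |y k - m * w| ≤ 2 * c * w ∧ |y (k + 1) - m * w| ≤ 2 * c * w) :
    Z.card * η ≤ 4 * c * ((β - α) * η + ∑ k ∈ Finset.Ico α β, x k) + 4 * c * w +
      ∑ k ∈ Finset.Ico α β, x k := by
  classical
  set d : ℝ := 4 * c with hd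
  have hd0 : 0 ≤ d := by positivity
  have hd1 : d < 1 := by linarith
  set r : ℝ → ℝ := fun t => w * zr d (t / w + 2 * c) with hr
  have r1 : ∀ s t, s ≤ t → r s ≤ r t := fun s t h => by
    simp only [hr]
    refine mul_le_mul_of_nonneg_left (zr_mono hd0 ?_) hw.le
    have : s / w ≤ t / w := by gcongr
    linarith
  have r2 : ∀ s t, s ≤ t → r t - r s ≤ t - s := fun s t h => by
    simp only [hr]
    have h1 : s / w + 2 * c ≤ t / w + 2 * c := by gcongr
    have h2 := zr_sub_le hd1.le h1
    have h3 : w * (t / w + 2 * c - (s / w + 2 * c)) = t - s := by field_simp; ring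
    rw [← h3, ← mul_sub]
    exact mul_le_mul_of_nonneg_left h2 hw.le
  have r3 : ∀ s t, r t - r s ≤ d * (t - s) + d * w := fun s t => by
    simp only [hr]
    have h2 := zr_le hd0 hd1.le (s / w + 2 * c) (t / w + 2 * c)
    have h3 : w * (d * (t / w + 2 * c - (s / w + 2 * c)) + d) = d * (t - s) + d * w := by
      field_simp; ring
    rw [← h3, ← mul_sub]
    exact mul_le_mul_of_nonneg_left h2 hw.le
  have r4 : ∀ (m : ℤ) (s : ℝ), |s - m * w| ≤ 2 * c * w → r s = w * (d * m) + (s - m * w)
      + 2 * c * w := by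
    intro m s h
    rw [abs_le] at h
    have h1 : s / w + 2 * c ∈ Icc (m : ℝ) (m + d) := by
      constructor
      · have : (m : ℝ) - 2 * c ≤ s / w := by rw [le_div_iff₀ hw]; nlinarith [h.1]
        linarith
      · have : s / w ≤ (m : ℝ) + 2 * c := by rw [div_le_iff₀ hw]; nlinarith [h.2]
        rw [hd]; linarith
    simp only [hr]
    rw [zr_zone hd0 hd1 h1]
    field_simp
    ring
  -- telescoping
  have tel : ∀ (f : ℤ → ℝ) (n : ℕ), ∑ k ∈ Finset.Ico α (α + n), (f (k + 1) - f k) =
      f (α + n) - f α := by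
    intro f n
    induction n with
    | zero => simp
    | succ n ih =>
      have e1 : Finset.Ico α (α + ((n + 1 : ℕ) : ℤ)) = insert (α + (n:ℤ)) (Finset.Ico α (α + n)) := by
        ext k
        simp only [Finset.mem_Ico, Finset.mem_insert]
        push_cast
        omega
      rw [e1, Finset.sum_insert (by simp), ih]
      push_cast
      rw [← add_assoc]
      ring
  have htel : ∀ f : ℤ → ℝ, ∑ k ∈ Finset.Ico α β, (f (k + 1) - f k) = f β - f α := by
    intro f
    have e : β = α + ((β - α).toNat : ℤ) := by omega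
    rw [e]
    exact tel f _
  -- the increments
  have hx0 : ∀ k ∈ Finset.Ico α β, 0 ≤ x k := fun k hk => (abs_nonneg _).trans (hy k hk)
  have i1 : ∀ k ∈ Finset.Ico α β, (if k ∈ Z then η else 0) - x k ≤ r (y (k + 1)) - r (y k) := by
    intro k hk
    have h1 := hy k hk
    rw [abs_le] at h1
    split_ifs with hkZ
    · obtain ⟨m, h2, h3⟩ := hz k hkZ
      rw [r4 m _ h2, r4 m _ h3]
      linarith [h1.1]
    · rcases le_total (y k) (y (k + 1)) with h2 | h2
      · have := r1 _ _ h2
        linarith [hx0 k hk]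
      · have := r2 _ _ h2
        linarith [h1.1]
  have i2 := Finset.sum_le_sum i1
  rw [htel (fun k => r (y k)), Finset.sum_sub_distrib] at i2
  have i3 : ∑ k ∈ Finset.Ico α β, (if k ∈ Z then η else 0) = Z.card * η := by
    rw [Finset.sum_ite_mem, Finset.inter_eq_right.2 hZ, Finset.sum_const, nsmul_eq_mul]
  rw [i3] at i2
  have i4 : y β - y α ≤ (β - α) * η + ∑ k ∈ Finset.Ico α β, x k := by
    have h1 : ∑ k ∈ Finset.Ico α β, (y (k + 1) - y k) ≤ ∑ k ∈ Finset.Ico α β, (η + x k) :=
      Finset.sum_le_sum fun k hk => by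
        have := (abs_le.1 (hy k hk)).2
        linarith
    rw [htel y, Finset.sum_add_distrib, Finset.sum_const, Int.card_Ico, nsmul_eq_mul] at h1
    have e : (((β - α).toNat : ℕ) : ℝ) = β - α := by
      have : (((β - α).toNat : ℤ) : ℝ) = ((β - α : ℤ) : ℝ) := by
        rw [Int.toNat_of_nonneg (by omega)]
      push_cast at this
      exact_mod_cast this
    rw [e] at h1
    exact h1
  have i5 := r3 (y α) (y β)
  have i6 : d * (y β - y α) ≤ d * ((β - α) * η + ∑ k ∈ Finset.Ico α β, x k) :=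
    mul_le_mul_of_nonneg_left i4 hd0
  linarith

end Vale.Agent.P073.H253
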