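import Vale.Agent.P073.H253.Con1
import Vale.Agent.P073.H253.Zone
import Vale.Agent.P073.H253.PreBeam
import Vale.Agent.P073.H253.Line

/-!
# P073, rank one, `[LINE-OK]`: real form of the data, first consequences
-/

open Set Metric Topology MeasureTheory Filter
open scoped ENNReal NNReal

namespace Vale.Agent.P073.H253

open Vale.Agent.P073.St (V)
open _root_.P073 (ConicalOn)

/-- the interval `k` -/
def jv (v₀ η : ℝ) (k : ℤ) : Set ℝ := Icc (v₀ + k * η) (v₀ + (k + 1) * η)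

/-- real form of `LineData` -/
structure L1 (p C D c ε v₀ η w : ℝ) (α β : ℤ) (G : Finset ℤ) (y : ℝ → ℝ) (χ : ℝ → V)
    (l x : ℤ → ℝ) : Prop where
  η0 : 0 < η
  w0 : 0 < w
  lt : α < β
  unit : (β - α) * η ≤ 1
  fine : η ≤ ε
  mtε : w ≤ ε
  Gsub : G ⊆ Finset.Ico α β
  cy : ConicalOn y (Icc (v₀ + α * η) (v₀ + β * η))
  cχ : ConicalOn χ (Icc (v₀ + α * η) (v₀ + β * η))
  x0 : ∀ k, 0 ≤ x k
  l0 : ∀ k, 0 ≤ l k
  near : ∀ k ∈ Finset.Ico α β,
    ∫⁻ u in jv v₀ η k, ENNReal.ofReal |deriv y u - 1| ≤ ENNReal.ofReal (x k)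
  close : ∑ k ∈ Finset.Ico α β, η ^ (1 - p) * x k ^ p ≤ ε
  osc : ∀ k ∈ Finset.Ico α β, ∀ s ∈ jv v₀ η k, ∀ t ∈ jv v₀ η k, |y s - y t| ≤ c * w
  app : ∀ u ∈ Icc (v₀ + α * η) (v₀ + β * η), |χ u 0 - y u| ≤ D * w
  tv : ∀ k ∈ G, (∃ z : ℤ, ∀ u ∈ jv v₀ η k, (z + c) * w ≤ y u ∧ y u ≤ (z + 1 - c) * w) →
    ∑ j, eVariationOn (fun u => χ u j) (jv v₀ η k) ≤
      ENNReal.ofReal (1 + c) * eVariationOn y (jv v₀ η k) + ENNReal.ofReal (ε * η)
  elip : ∀ k ∈ Finset.Ico α β, ∀ s ∈ jv v₀ η k, ∀ t ∈ jv v₀ η k,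
    ‖χ s - χ t‖ ≤ D * ((l k + ε * η) / η) * |s - t|
  bad : ∑ k ∈ Finset.Ico α β \ G, η ^ (1 - p) * l k ^ p ≤ ε
  good : ∀ k ∈ G, l k ≤ C * (η + x k)

/-- one edge -/
theorem edge_inc {y : ℝ → ℝ} {a b X : ℝ} (hab : a ≤ b) (hy : ConicalOn y (Icc a b)) (hX : 0 ≤ X)
    (h : ∫⁻ u in Icc a b, ENNReal.ofReal |deriv y u - 1| ≤ ENNReal.ofReal X) :
    |y b - y a - (b - a)| ≤ X ∧ eVariationOn y (Icc a b) ≠ ⊤ ∧
      |(eVariationOn y (Icc a b)).toReal - (b - a)| ≤ X := by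
  obtain ⟨h1, h2⟩ := conical_ftc hab hy
  have i1 : IntegrableOn (deriv y) (Icc a b) := by
    rw [integrableOn_Icc_iff_integrableOn_Ioc]
    exact (intervalIntegrable_iff_integrableOn_Ioc_of_le hab).1 h1
  have i2 : IntegrableOn (fun _ : ℝ => (1:ℝ)) (Icc a b) := by simp
  have e2 : ∫ _u in Icc a b, (1:ℝ) = b - a := by
    simp [hab]
  have i3 : IntegrableOn (fun u => deriv y u - 1) (Icc a b) := i1.sub i2
  have h3 : ∫ u in Icc a b, |deriv y u - 1| ≤ X := by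
    have e : ∫ u in Icc a b, |deriv y u - 1| =
        (∫⁻ u in Icc a b, ENNReal.ofReal |deriv y u - 1|).toReal :=
      integral_eq_lintegral_of_nonneg_ae (Eventually.of_forall fun _ => abs_nonneg _)
        i3.abs.aestronglyMeasurable
    rw [e]
    exact ENNReal.toReal_le_of_le_ofReal hX h
  have h4 : y b - y a = ∫ u in Icc a b, deriv y u := by
    rw [← h2, intervalIntegral.integral_of_le hab, integral_Icc_eq_integral_Ioc]
  refine ⟨?_, ?_, ?_⟩
  · rw [h4, ← e2, ← integral_sub i1 i2]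
    refine (abs_integral_le_integral_abs).trans h3
  · rw [eVar_eq hab hy]
    have := i1.abs.hasFiniteIntegral
    rw [hasFiniteIntegral_iff_ofReal (Eventually.of_forall fun _ => abs_nonneg _)] at this
    exact this.ne
  · have e : (eVariationOn y (Icc a b)).toReal = ∫ u in Icc a b, |deriv y u| := by
      rw [eVar_eq hab hy]
      exact (integral_eq_lintegral_of_nonneg_ae (Eventually.of_forall fun _ => abs_nonneg _)
        i1.abs.aestronglyMeasurable).symm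
    have i1' : IntegrableOn (fun u => |deriv y u|) (Icc a b) := i1.abs
    rw [e, ← e2, ← integral_sub i1' i2]
    refine (abs_integral_le_integral_abs).trans (le_trans ?_ h3)
    refine integral_mono (i1'.sub i2).abs i3.abs fun u => ?_
    have h5 := abs_abs_sub_abs_le_abs_sub (deriv y u) 1
    rwa [abs_one] at h5

namespace L1

variable {p C D c ε v₀ η w : ℝ} {α β : ℤ} {G : Finset ℤ} {y : ℝ → ℝ} {χ : ℝ → V} {l x : ℤ → ℝ}

theorem le' (L : L1 p C D c ε v₀ η w α β G y χ l x) (k : ℤ) : v₀ + k * η ≤ v₀ + (k + 1) * η := by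
  have := L.η0
  nlinarith

theorem sub (L : L1 p C D c ε v₀ η w α β G y χ l x) {k : ℤ} (hk : k ∈ Finset.Ico α β) :
    jv v₀ η k ⊆ Icc (v₀ + α * η) (v₀ + β * η) := by
  rw [Finset.mem_Ico] at hk
  have h1 : (α : ℝ) ≤ k := by exact_mod_cast hk.1
  have h2 : (k : ℝ) + 1 ≤ β := by exact_mod_cast hk.2
  have := L.η0
  rintro u ⟨h3, h4⟩
  constructor <;> nlinarith

theorem cyk (L : L1 p C D c ε v₀ η w α β G y χ l x) {k : ℤ} (hk : k ∈ Finset.Ico α β) :
    ConicalOn y (jv v₀ η k) :=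
  L.cy.mono (_root_.P073.Convex.conicalSet (convex_Icc _ _)) (L.sub hk)

theorem cχk (L : L1 p C D c ε v₀ η w α β G y χ l x) {k : ℤ} (hk : k ∈ Finset.Ico α β) :
    ConicalOn χ (jv v₀ η k) :=
  L.cχ.mono (_root_.P073.Convex.conicalSet (convex_Icc _ _)) (L.sub hk)

theorem inc (L : L1 p C D c ε v₀ η w α β G y χ l x) {k : ℤ} (hk : k ∈ Finset.Ico α β) :
    |y (v₀ + (k + 1) * η) - y (v₀ + k * η) - η| ≤ x k ∧ eVariationOn y (jv v₀ η k) ≠ ⊤ ∧
      |(eVariationOn y (jv v₀ η k)).toReal - η| ≤ x k := by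
  have h := edge_inc (L.le' k) (L.cyk hk) (L.x0 k) (L.near k hk)
  have e : v₀ + (k + 1) * η - (v₀ + k * η) = η := by ring
  rw [e] at h
  exact h

theorem sumx (L : L1 p C D c ε v₀ η w α β G y χ l x) (hp : 1 ≤ p) {s : ℝ} (hs : 0 < s) :
    ∑ k ∈ Finset.Ico α β, x k ≤ s + s ^ (1 - p) * ε := by
  have h1 : ∀ t : ℝ, 0 ≤ t → t ≤ s + s ^ (1 - p) * t ^ p := by
    intro t ht
    rcases le_or_gt t s with h | h
    · have : 0 ≤ s ^ (1 - p) * t ^ p := by positivity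
      linarith
    · have ht0 : 0 < t := by linarith
      have h2 : t ^ (1 - p) ≤ s ^ (1 - p) :=
        Real.rpow_le_rpow_of_nonpos hs h.le (by linarith)
      have h3 : t ^ (1 - p) * t ^ p = t := by
        rw [← Real.rpow_add ht0, sub_add_cancel, Real.rpow_one]
      have h4 : t ^ (1 - p) * t ^ p ≤ s ^ (1 - p) * t ^ p := by gcongr
      linarith
  have hη := L.η0
  have h2 : ∀ k ∈ Finset.Ico α β, x k ≤ s * η + s ^ (1 - p) * (η ^ (1 - p) * x k ^ p) := by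
    intro k _
    have h3 := h1 (x k / η) (div_nonneg (L.x0 k) hη.le)
    have h4 := mul_le_mul_of_nonneg_right h3 hη.le
    rw [div_mul_cancel₀ _ hη.ne', Real.div_rpow (L.x0 k) hη.le] at h4
    refine h4.trans (le_of_eq ?_)
    rw [Real.rpow_sub hη 1 p, Real.rpow_one]
    ring
  refine (Finset.sum_le_sum h2).trans ?_
  have e : (((β - α).toNat : ℕ) : ℝ) = β - α := by
    have h5 := L.lt
    have : (((β - α).toNat : ℤ) : ℝ) = ((β - α : ℤ) : ℝ) := by
      rw [Int.toNat_of_nonneg (by omega)]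
    push_cast at this
    exact_mod_cast this
  have e1 : ∑ k ∈ Finset.Ico α β, (s * η + s ^ (1 - p) * (η ^ (1 - p) * x k ^ p)) =
      (β - α) * (s * η) + s ^ (1 - p) * ∑ k ∈ Finset.Ico α β, η ^ (1 - p) * x k ^ p := by
    rw [Finset.sum_add_distrib, Finset.sum_const, Int.card_Ico, nsmul_eq_mul, e, Finset.mul_sum]
  rw [e1]
  have h5 : (β - α : ℝ) * (s * η) ≤ s := by
    have := L.unit
    nlinarith
  have h6 : s ^ (1 - p) * ∑ k ∈ Finset.Ico α β, η ^ (1 - p) * x k ^ p ≤ s ^ (1 - p) * ε := by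
    have := L.close
    gcongr
  linarith

open Classical in
/-- the good edges in the zone near the walls -/
noncomputable def zone (c v₀ η w : ℝ) (G : Finset ℤ) (y : ℝ → ℝ) : Finset ℤ :=
  G.filter fun k => ¬ ∃ z : ℤ, ∀ u ∈ jv v₀ η k, (z + c) * w ≤ y u ∧ y u ≤ (z + 1 - c) * w

theorem mem_zone {k : ℤ} : k ∈ zone c v₀ η w G y ↔ k ∈ G ∧
    ¬ ∃ z : ℤ, ∀ u ∈ jv v₀ η k, (z + c) * w ≤ y u ∧ y u ≤ (z + 1 - c) * w := by
  classical
  unfold zone
  exact Finset.mem_filter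

theorem zone_le (L : L1 p C D c ε v₀ η w α β G y χ l x) (hc : 0 < c) (hc4 : c < 1 / 4) :
    (zone c v₀ η w G y).card * η ≤ 4 * c * (1 + ∑ k ∈ Finset.Ico α β, x k) + 4 * c * w +
      ∑ k ∈ Finset.Ico α β, x k := by
  have hw := L.w0
  have hη := L.η0
  have h := zone_count hw hc hc4 L.lt.le (fun k => y (v₀ + k * η)) x (zone c v₀ η w G y)
    (fun k hk => L.Gsub (mem_zone.1 hk).1) hη.le (fun k hk => by
      push_cast
      exact (L.inc hk).1) (fun k hk => by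
      have hkG := (mem_zone.1 hk).1
      have hkz := (mem_zone.1 hk).2
      have hkI := L.Gsub hkG
      have m1 : v₀ + k * η ∈ jv v₀ η k := ⟨le_rfl, L.le' k⟩
      have m2 : v₀ + (k + 1) * η ∈ jv v₀ η k := ⟨L.le' k, le_rfl⟩
      push Not at hkz
      set z : ℤ := ⌊y (v₀ + k * η) / w⌋ with hz
      have z1 : (z : ℝ) * w ≤ y (v₀ + k * η) := by
        have := Int.floor_le (y (v₀ + k * η) / w)
        rwa [le_div_iff₀ hw] at this
      have z2 : y (v₀ + k * η) ≤ (z + 1) * w := by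
        have := (Int.lt_floor_add_one (y (v₀ + k * η) / w)).le
        rwa [div_le_iff₀ hw] at this
      obtain ⟨u, hu, hu'⟩ := hkz z
      have o1 := abs_le.1 (L.osc k hkI _ m1 u hu)
      have o2 := abs_le.1 (L.osc k hkI _ m2 u hu)
      have o3 := abs_le.1 (L.osc k hkI _ m2 _ m1)
      have hcw : 0 ≤ c * w := by positivity
      push_cast
      by_cases hcase : (z + c) * w ≤ y u
      · have h3 := hu' hcase
        refine ⟨z + 1, ?_, ?_⟩ <;> rw [abs_le] <;> push_cast <;> constructor <;> nlinarith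
      · push Not at hcase
        refine ⟨z, ?_, ?_⟩ <;> rw [abs_le] <;> constructor <;> nlinarith)
  have h2 : 4 * c * ((β - α) * η + ∑ k ∈ Finset.Ico α β, x k) ≤
      4 * c * (1 + ∑ k ∈ Finset.Ico α β, x k) := by
    have := L.unit
    gcongr
  linarith

end L1

end Vale.Agent.P073.H253
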