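import Vale.Agent.P073.H253.LineA

/-!
# P073, rank one, `[LINE-OK]`: the density of the reparametrisation
-/

open Set Metric Topology MeasureTheory Filter
open scoped ENNReal NNReal

namespace Vale.Agent.P073.H253

/-- the open interval `k` -/
def jo (v₀ η : ℝ) (k : ℤ) : Set ℝ := Ioo (v₀ + k * η) (v₀ + (k + 1) * η)

theorem jo_disj {v₀ η : ℝ} (hη : 0 < η) {k k' : ℤ} (h : k ≠ k') {u : ℝ} (hu : u ∈ jo v₀ η k) :
    u ∉ jo v₀ η k' := by
  intro hu'
  obtain ⟨h1, h2⟩ := hu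
  obtain ⟨h3, h4⟩ := hu'
  rcases lt_or_gt_of_ne h with h5 | h5
  · have h6 : (k : ℝ) + 1 ≤ k' := by exact_mod_cast h5
    nlinarith
  · have h6 : (k' : ℝ) + 1 ≤ k := by exact_mod_cast h5
    nlinarith

/-- the average -/
noncomputable def av (S : ℝ → ℝ) (v₀ η : ℝ) (k : ℤ) : ℝ := (∫ t in jo v₀ η k, S t) / η

/-- the density -/
noncomputable def dens (μ v₀ η : ℝ) (J : Finset ℤ) (S : ℝ → ℝ) (u : ℝ) : ℝ :=
  1 + ∑ k ∈ J, (jo v₀ η k).indicator (fun u => (S u + μ) / (av S v₀ η k + μ) - 1) u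

section

variable {μ v₀ η M₀ : ℝ} {J : Finset ℤ} {S : ℝ → ℝ}

theorem dens_of_mem (hη : 0 < η) {k : ℤ} (hk : k ∈ J) {u : ℝ} (hu : u ∈ jo v₀ η k) :
    dens μ v₀ η J S u = (S u + μ) / (av S v₀ η k + μ) := by
  unfold dens
  rw [Finset.sum_eq_single_of_mem k hk, indicator_of_mem hu]
  · ring
  · intro k' _ hk'
    exact indicator_of_notMem (jo_disj hη (Ne.symm hk') hu) _

theorem dens_off {u : ℝ} (hu : ∀ k ∈ J, u ∉ jo v₀ η k) : dens μ v₀ η J S u = 1 := by
  unfold dens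
  rw [Finset.sum_eq_zero fun k hk => indicator_of_notMem (hu k hk) _, add_zero]

theorem measurableSet_jo (k : ℤ) : MeasurableSet (jo v₀ η k) := measurableSet_Ioo

theorem measurable_dens (hS : Measurable S) : Measurable (dens μ v₀ η J S) := by
  unfold dens
  refine measurable_const.add (Finset.measurable_sum _ fun k _ => ?_)
  exact Measurable.indicator (((hS.add_const μ).div_const _).sub_const 1) (measurableSet_jo k)

theorem volume_jo (k : ℤ) : volume (jo v₀ η k) = ENNReal.ofReal η := by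
  unfold jo
  rw [Real.volume_Ioo]
  congr 1; ring

theorem volume_real_jo (hη : 0 < η) (k : ℤ) : volume.real (jo v₀ η k) = η := by
  rw [measureReal_def, volume_jo, ENNReal.toReal_ofReal hη.le]

/-- the hypotheses on `S` -/
structure SOk (M₀ v₀ η : ℝ) (J : Finset ℤ) (S : ℝ → ℝ) : Prop where
  meas : Measurable S
  nonneg : ∀ u, 0 ≤ S u
  le : ∀ k ∈ J, ∀ u ∈ jo v₀ η k, S u ≤ M₀

theorem SOk.int (H : SOk M₀ v₀ η J S) {k : ℤ} (hk : k ∈ J) : IntegrableOn S (jo v₀ η k) := by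
  refine Measure.integrableOn_of_bounded (M := M₀) ?_ H.meas.aestronglyMeasurable ?_
  · rw [volume_jo]; exact ENNReal.ofReal_ne_top
  · rw [ae_restrict_iff' (measurableSet_jo k)]
    refine Eventually.of_forall fun u hu => ?_
    rw [Real.norm_of_nonneg (H.nonneg u)]
    exact H.le k hk u hu

theorem SOk.av0 (H : SOk M₀ v₀ η J S) (hη : 0 < η) (k : ℤ) : 0 ≤ av S v₀ η k :=
  div_nonneg (integral_nonneg H.nonneg) hη.le

theorem SOk.av1 (H : SOk M₀ v₀ η J S) (hη : 0 < η) {k : ℤ} (hk : k ∈ J) : av S v₀ η k ≤ M₀ := by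
  unfold av
  rw [div_le_iff₀ hη]
  have h1 : ∫ t in jo v₀ η k, S t ≤ ∫ _t in jo v₀ η k, M₀ := by
    refine setIntegral_mono_on (H.int hk) ?_ (measurableSet_jo k) (H.le k hk)
    exact integrableOn_const (by rw [volume_jo]; exact ENNReal.ofReal_ne_top)
  rw [setIntegral_const, volume_real_jo hη, smul_eq_mul] at h1
  linarith

theorem SOk.M0 (H : SOk M₀ v₀ η J S) (hη : 0 < η) {k : ℤ} (hk : k ∈ J) : 0 ≤ M₀ :=
  (H.av0 hη k).trans (H.av1 hη hk)

theorem SOk.bounds (H : SOk M₀ v₀ η J S) (hη : 0 < η) (hμ : 0 < μ) (hM : 0 ≤ M₀) (u : ℝ) :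
    1 / ((M₀ + μ) / μ) ≤ dens μ v₀ η J S u ∧ dens μ v₀ η J S u ≤ (M₀ + μ) / μ := by
  by_cases h : ∃ k ∈ J, u ∈ jo v₀ η k
  · obtain ⟨k, hk, hu⟩ := h
    rw [dens_of_mem hη hk hu, one_div_div]
    have h1 := H.av0 hη k
    have h2 := H.av1 hη hk
    have h3 := H.nonneg u
    have h4 := H.le k hk u hu
    constructor
    · apply div_le_div₀ <;> linarith
    · apply div_le_div₀ <;> linarith
  · push Not at h
    rw [dens_off h, one_div_div]
    constructor
    · rw [div_le_one (by linarith)]; linarith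
    · rw [one_le_div hμ]; linarith

theorem SOk.intr (H : SOk M₀ v₀ η J S) {k : ℤ} (hk : k ∈ J) :
    IntegrableOn (fun t => (S t + μ) / (av S v₀ η k + μ)) (jo v₀ η k) :=
  ((H.int hk).add (integrableOn_const (by rw [volume_jo]; exact ENNReal.ofReal_ne_top))).div_const _

theorem SOk.mean (H : SOk M₀ v₀ η J S) (hη : 0 < η) (hμ : 0 < μ) {k : ℤ} (hk : k ∈ J) :
    ∫ t in jo v₀ η k, (S t + μ) / (av S v₀ η k + μ) = η := by
  have h1 := H.av0 hη k
  have h2 : ∫ t in jo v₀ η k, S t = av S v₀ η k * η := by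
    unfold av
    field_simp
  have hc : IntegrableOn (fun _ : ℝ => μ) (jo v₀ η k) :=
    integrableOn_const (by rw [volume_jo]; exact ENNReal.ofReal_ne_top)
  rw [integral_div, integral_add (H.int hk) hc, h2, setIntegral_const, volume_real_jo hη,
    smul_eq_mul]
  have : av S v₀ η k + μ ≠ 0 := by linarith
  field_simp

theorem SOk.mean_dens (H : SOk M₀ v₀ η J S) (hη : 0 < η) (hμ : 0 < μ) {k : ℤ} (hk : k ∈ J) :
    ∫ t in jo v₀ η k, dens μ v₀ η J S t = η := by
  refine Eq.trans ?_ (H.mean hη hμ hk)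
  exact setIntegral_congr_fun (measurableSet_jo k) fun u hu => dens_of_mem hη hk hu

/-- one term of the primitive -/
theorem SOk.term (H : SOk M₀ v₀ η J S) (hη : 0 < η) (hμ : 0 < μ) {k : ℤ} (hk : k ∈ J) {a u : ℝ}
    (hau : a ≤ u) (ha : a ≤ v₀ + k * η) :
    (u ∉ jo v₀ η k → ∫ t in a..u, (jo v₀ η k).indicator
      (fun u => (S u + μ) / (av S v₀ η k + μ) - 1) t = 0) ∧
    |∫ t in a..u, (jo v₀ η k).indicator
      (fun u => (S u + μ) / (av S v₀ η k + μ) - 1) t| ≤ 2 * η := by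
  have h1 := H.av0 hη k
  have hfin : volume (jo v₀ η k) ≠ ⊤ := by rw [volume_jo]; exact ENNReal.ofReal_ne_top
  have hc : IntegrableOn (fun _ : ℝ => (1:ℝ)) (jo v₀ η k) := integrableOn_const hfin
  have hi := H.intr (μ := μ) hk
  have e1 : ∫ t in jo v₀ η k, (1:ℝ) = η := by
    rw [setIntegral_const, volume_real_jo hη, smul_eq_mul, mul_one]
  have e2 : ∫ t in jo v₀ η k, ((S t + μ) / (av S v₀ η k + μ) - 1) = 0 := by
    rw [integral_sub hi hc, H.mean hη hμ hk, e1, sub_self]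
  have e3 : ∫ t in jo v₀ η k, ((S t + μ) / (av S v₀ η k + μ) + 1) = 2 * η := by
    rw [integral_add hi hc, H.mean hη hμ hk, e1]; ring
  rw [intervalIntegral.integral_of_le hau, setIntegral_indicator (measurableSet_jo k)]
  constructor
  · intro hu
    rcases le_or_gt u (v₀ + k * η) with h2 | h2
    · have : Ioc a u ∩ jo v₀ η k = ∅ := by
        ext t
        simp only [mem_inter_iff, mem_Ioc, jo, mem_Ioo, mem_empty_iff_false, iff_false]
        rintro ⟨⟨-, h3⟩, h4, -⟩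
        linarith
      rw [this]; simp
    · have h3 : v₀ + (k + 1) * η ≤ u := by
        by_contra hcon
        push Not at hcon
        exact hu ⟨h2, hcon⟩
      have : Ioc a u ∩ jo v₀ η k = jo v₀ η k := by
        refine inter_eq_right.2 ?_
        rintro t ⟨h4, h5⟩
        exact ⟨by linarith, by linarith⟩
      rw [this, e2]
  · refine (abs_integral_le_integral_abs).trans ?_
    rw [← e3]
    refine (setIntegral_mono_set (s := Ioc a u ∩ jo v₀ η k) (t := jo v₀ η k)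
      (hi.sub hc).abs (Eventually.of_forall fun _ => abs_nonneg _)
      (Eventually.of_forall fun t ht => ht.2)).trans ?_
    refine integral_mono (hi.sub hc).abs (hi.add hc) fun t => ?_
    have h5 : 0 ≤ (S t + μ) / (av S v₀ η k + μ) :=
      div_nonneg (by linarith [H.nonneg t]) (by linarith)
    show |(S t + μ) / (av S v₀ η k + μ) - 1| ≤ (S t + μ) / (av S v₀ η k + μ) + 1
    rw [abs_le]
    constructor <;> linarith

theorem SOk.intind' (H : SOk M₀ v₀ η J S) (k : ℤ) (hk : k ∈ J) :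
    Integrable ((jo v₀ η k).indicator (fun u => (S u + μ) / (av S v₀ η k + μ) - 1)) := by
  have hfin : volume (jo v₀ η k) ≠ ⊤ := by rw [volume_jo]; exact ENNReal.ofReal_ne_top
  have hi : IntegrableOn (fun u => (S u + μ) / (av S v₀ η k + μ) - 1) (jo v₀ η k) :=
    (H.intr hk).sub (integrableOn_const hfin)
  exact (integrable_indicator_iff (measurableSet_jo k)).2 hi

theorem SOk.intind (H : SOk M₀ v₀ η J S) (k : ℤ) (hk : k ∈ J) (a u : ℝ) :
    IntervalIntegrable ((jo v₀ η k).indicator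
      (fun u => (S u + μ) / (av S v₀ η k + μ) - 1)) volume a u :=
  (H.intind' k hk).intervalIntegrable

theorem SOk.prim_eq (H : SOk M₀ v₀ η J S) (a u : ℝ) :
    ∫ t in a..u, (dens μ v₀ η J S t - 1) = ∑ k ∈ J, ∫ t in a..u, (jo v₀ η k).indicator
      (fun u => (S u + μ) / (av S v₀ η k + μ) - 1) t := by
  have e : (fun t => dens μ v₀ η J S t - 1) = fun t => ∑ k ∈ J, (jo v₀ η k).indicator
      (fun u => (S u + μ) / (av S v₀ η k + μ) - 1) t := by
    funext t
    unfold dens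
    ring
  rw [e]
  exact intervalIntegral.integral_finsetSum fun k hk => H.intind k hk a u

theorem SOk.prim_le (H : SOk M₀ v₀ η J S) (hη : 0 < η) (hμ : 0 < μ) {a u : ℝ}
    (hau : a ≤ u) (ha : ∀ k ∈ J, a ≤ v₀ + k * η) :
    |∫ t in a..u, (dens μ v₀ η J S t - 1)| ≤ 2 * η := by
  rw [H.prim_eq]
  by_cases h : ∃ k ∈ J, u ∈ jo v₀ η k
  · obtain ⟨k, hk, hu⟩ := h
    rw [Finset.sum_eq_single_of_mem k hk]
    · exact (H.term hη hμ hk hau (ha k hk)).2
    · intro k' hk' hne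
      exact (H.term hη hμ hk' hau (ha k' hk')).1 (jo_disj hη (Ne.symm hne) hu)
  · push Not at h
    rw [Finset.sum_eq_zero fun k hk => (H.term hη hμ hk hau (ha k hk)).1 (h k hk), abs_zero]
    linarith

theorem SOk.prim_zero (H : SOk M₀ v₀ η J S) (hη : 0 < η) (hμ : 0 < μ) {a b : ℝ}
    (hab : a ≤ b) (ha : ∀ k ∈ J, a ≤ v₀ + k * η) (hb : ∀ k ∈ J, v₀ + (k + 1) * η ≤ b) :
    ∫ t in a..b, (dens μ v₀ η J S t - 1) = 0 := by
  rw [H.prim_eq]
  refine Finset.sum_eq_zero fun k hk => (H.term hη hμ hk hab (ha k hk)).1 fun hu => ?_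
  have := hb k hk
  linarith [hu.2]

theorem SOk.ii (H : SOk M₀ v₀ η J S) (a b : ℝ) :
    IntervalIntegrable (dens μ v₀ η J S) volume a b := by
  unfold dens
  exact intervalIntegrable_const.add
    (integrable_finset_sum J fun k hk => H.intind' k hk).intervalIntegrable

theorem SOk.total (H : SOk M₀ v₀ η J S) (hη : 0 < η) (hμ : 0 < μ) {a b : ℝ}
    (hab : a ≤ b) (ha : ∀ k ∈ J, a ≤ v₀ + k * η) (hb : ∀ k ∈ J, v₀ + (k + 1) * η ≤ b) :
    ∫ t in a..b, dens μ v₀ η J S t = b - a := by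
  have h := H.prim_zero hη hμ hab ha hb
  rw [intervalIntegral.integral_sub (H.ii a b) intervalIntegrable_const,
    intervalIntegral.integral_const] at h
  simp only [smul_eq_mul, mul_one] at h
  linarith

end

end Vale.Agent.P073.H253
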