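import Vale.Agent.P073.H253.LineB

/-!
# P073, rank one, `[LINE-OK]`: the estimates for the uniform convexity lemma
-/

open Set Metric Topology MeasureTheory Filter
open scoped ENNReal NNReal

namespace Vale.Agent.P073.H253

open Vale.Agent.P073.St (V)
open Vale.Agent.P073.SQ (ev)
open _root_.P073 (ConicalOn)

/-- the speed in the norm of `ℓ¹` -/
noncomputable def spd (χ : ℝ → V) (u : ℝ) : ℝ := ∑ i, |deriv χ u i|

theorem measurable_spd (χ : ℝ → V) : Measurable (spd χ) := by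
  unfold spd
  refine Finset.measurable_sum _ fun i _ => ?_
  exact ((measurable_pi_apply i).comp (measurable_deriv χ)).norm

theorem spd_nonneg (χ : ℝ → V) (u : ℝ) : 0 ≤ spd χ u := Finset.sum_nonneg fun _ _ => abs_nonneg _

theorem spd_le (χ : ℝ → V) (u : ℝ) : spd χ u ≤ 3 * ‖deriv χ u‖ := by
  unfold spd
  calc ∑ i, |deriv χ u i| ≤ ∑ _i : Fin 3, ‖deriv χ u‖ :=
        Finset.sum_le_sum fun i _ => norm_le_pi_norm (deriv χ u) i
    _ = 3 * ‖deriv χ u‖ := by simp

theorem pos_union {v₀ η : ℝ} (hη : 0 < η) {α β : ℤ} {a b : ℝ} (ha : v₀ + α * η ≤ a)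
    (hb : b ≤ v₀ + β * η) (hαβ : α < β) : Icc a b ⊆ ⋃ k : {k // k ∈ Finset.Ico α β}, jv v₀ η k := by
  intro u hu
  set k : ℤ := ⌊(u - v₀) / η⌋ with hk
  have h1 : (k : ℝ) * η ≤ u - v₀ := by
    have := Int.floor_le ((u - v₀) / η)
    rwa [le_div_iff₀ hη] at this
  have h2 : u - v₀ < (k + 1) * η := by
    have := Int.lt_floor_add_one ((u - v₀) / η)
    rwa [div_lt_iff₀ hη] at this
  have h3 : α ≤ k := by
    rw [hk]
    refine Int.le_floor.2 ?_
    rw [le_div_iff₀ hη]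
    linarith [hu.1]
  rcases lt_or_ge k β with h4 | h4
  · exact mem_iUnion.2 ⟨⟨k, Finset.mem_Ico.2 ⟨h3, h4⟩⟩, by
      constructor
      · show v₀ + (k : ℝ) * η ≤ u
        linarith
      · show u ≤ v₀ + ((k : ℝ) + 1) * η
        linarith⟩
  · have h5 : (β : ℝ) ≤ k := by exact_mod_cast h4
    have h6 : u = v₀ + β * η := by
      have : (β : ℝ) * η ≤ k * η := by gcongr
      apply le_antisymm
      · linarith [hu.2]
      · linarith
    refine mem_iUnion.2 ⟨⟨β - 1, Finset.mem_Ico.2 ⟨by omega, by omega⟩⟩, ?_⟩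
    rw [h6]
    constructor
    · show v₀ + ((β - 1 : ℤ) : ℝ) * η ≤ v₀ + β * η
      push_cast
      nlinarith
    · show v₀ + β * η ≤ v₀ + (((β - 1 : ℤ) : ℝ) + 1) * η
      push_cast
      nlinarith

namespace L1

variable {p C D c ε v₀ η w : ℝ} {α β : ℤ} {G : Finset ℤ} {y : ℝ → ℝ} {χ : ℝ → V} {l x : ℤ → ℝ}

/-- net displacement -/
theorem net (L : L1 p C D c ε v₀ η w α β G y χ l x) {a b : ℝ} (hab : a ≤ b)
    (ha : v₀ + α * η ≤ a) (hb : b ≤ v₀ + β * η) :
    (b - a) - (∑ k ∈ Finset.Ico α β, x k) - 2 * (D * w) ≤ χ b 0 - χ a 0 := by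
  have hsub : Icc a b ⊆ Icc (v₀ + α * η) (v₀ + β * η) := Icc_subset_Icc ha hb
  have hcy : ConicalOn y (Icc a b) :=
    L.cy.mono (_root_.P073.Convex.conicalSet (convex_Icc _ _)) hsub
  have hx0 : 0 ≤ ∑ k ∈ Finset.Ico α β, x k := Finset.sum_nonneg fun k _ => L.x0 k
  have h1 : ∫⁻ u in Icc a b, ENNReal.ofReal |deriv y u - 1| ≤
      ENNReal.ofReal (∑ k ∈ Finset.Ico α β, x k) := by
    calc ∫⁻ u in Icc a b, ENNReal.ofReal |deriv y u - 1|
        ≤ ∫⁻ u in ⋃ k : {k // k ∈ Finset.Ico α β}, jv v₀ η k, ENNReal.ofReal |deriv y u - 1| :=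
          lintegral_mono_set (pos_union L.η0 ha hb L.lt)
      _ ≤ ∑' k : {k // k ∈ Finset.Ico α β}, ∫⁻ u in jv v₀ η k, ENNReal.ofReal |deriv y u - 1| :=
          lintegral_iUnion_le _ _
      _ ≤ ∑' k : {k // k ∈ Finset.Ico α β}, ENNReal.ofReal (x k) :=
          ENNReal.tsum_le_tsum fun k => L.near k k.2
      _ = ENNReal.ofReal (∑ k ∈ Finset.Ico α β, x k) := by
          rw [tsum_fintype, ENNReal.ofReal_sum_of_nonneg fun k _ => L.x0 k,
            Finset.sum_coe_sort (Finset.Ico α β) fun k => ENNReal.ofReal (x k)]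
  have h2 := (abs_le.1 (edge_inc hab hcy hx0 h1).1).1
  have h3 := abs_le.1 (L.app b (hsub ⟨hab, le_rfl⟩))
  have h4 := abs_le.1 (L.app a (hsub ⟨le_rfl, hab⟩))
  linarith [h3.1, h4.2]

theorem spd_le' (L : L1 p C D c ε v₀ η w α β G y χ l x) (hD : 0 ≤ D) (hε : 0 ≤ ε) {k : ℤ}
    (hk : k ∈ Finset.Ico α β) {u : ℝ} (hu : u ∈ jo v₀ η k) :
    spd χ u ≤ 3 * (D * ((l k + ε * η) / η)) := by
  refine (spd_le χ u).trans ?_
  have hη := L.η0
  have hl := L.l0 k
  have := norm_deriv_le (q := χ) (K := D * ((l k + ε * η) / η)) (by positivity) (L.elip k hk) hu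
  linarith

/-- the average speed on the sharp edges -/
theorem av_le (L : L1 p C D c ε v₀ η w α β G y χ l x) (hε : 0 ≤ ε) (hc : 0 ≤ c) {k : ℤ}
    (hk : k ∈ G) (hz : k ∉ zone c v₀ η w G y) :
    av (spd χ) v₀ η k ≤ (1 + c) * ((eVariationOn y (jv v₀ η k)).toReal / η) + ε := by
  have hη := L.η0
  have hkI := L.Gsub hk
  have h1 : ∃ z : ℤ, ∀ u ∈ jv v₀ η k, (z + c) * w ≤ y u ∧ y u ≤ (z + 1 - c) * w := by
    by_contra hcon
    exact hz (mem_zone.2 ⟨hk, hcon⟩)
  have h2 := L.tv k hk h1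
  obtain ⟨-, hfin, -⟩ := L.inc hkI
  have hle := L.le' k
  have hcχ := L.cχk hkI
  -- the components
  have hcj : ∀ j : Fin 3, ConicalOn (fun u => χ u j) (jv v₀ η k) := by
    intro j
    have h3 : ConicalOn (fun z : V => (LinearMap.proj j : V →ₗ[ℝ] ℝ).toAffineMap z) univ :=
      _root_.P073.conicalOn_of_affine _ (_root_.P073.IsOpen.conicalSet isOpen_univ)
    exact h3.comp hcχ (mapsTo_univ _ _) (by
      obtain ⟨K, hK⟩ := _root_.P073.Net.conical_lipschitz hle hcχ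
      exact hK.continuousOn)
  have hae : ∀ᵐ t : ℝ, t ∈ jo v₀ η k → ∀ j : Fin 3, deriv (fun u => χ u j) t = deriv χ t j := by
    filter_upwards [conical_ae_hasDerivAt hle hcχ] with t ht htk j
    exact (hasDerivAt_pi.1 (ht htk) j).deriv
  have h4 : ∑ j, eVariationOn (fun u => χ u j) (jv v₀ η k) =
      ∫⁻ t in jo v₀ η k, ENNReal.ofReal (spd χ t) := by
    have h5 : ∀ j : Fin 3, eVariationOn (fun u => χ u j) (jv v₀ η k) =
        ∫⁻ t in jo v₀ η k, ENNReal.ofReal |deriv χ t j| := by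
      intro j
      unfold jv at hcj ⊢
      rw [eVar_eq hle (hcj j), ← restrict_Ioo_eq_restrict_Icc]
      refine lintegral_congr_ae ?_
      refine (ae_restrict_iff' measurableSet_Ioo).2 ?_
      filter_upwards [hae] with t ht htk
      rw [ht htk j]
    simp only [h5]
    rw [← lintegral_finsetSum]
    · refine lintegral_congr fun t => ?_
      unfold spd
      rw [ENNReal.ofReal_sum_of_nonneg fun j _ => abs_nonneg _]
    · intro j _
      exact ENNReal.measurable_ofReal.comp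
        (((measurable_pi_apply j).comp (measurable_deriv χ)).norm)
  have h5 : ∫ t in jo v₀ η k, spd χ t =
      (∫⁻ t in jo v₀ η k, ENNReal.ofReal (spd χ t)).toReal :=
    integral_eq_lintegral_of_nonneg_ae (Eventually.of_forall (spd_nonneg χ))
      (measurable_spd χ).aestronglyMeasurable
  have h6 : ∫ t in jo v₀ η k, spd χ t ≤ (1 + c) * (eVariationOn y (jv v₀ η k)).toReal + ε * η := by
    rw [h5, ← h4]
    have hne : ENNReal.ofReal (1 + c) * eVariationOn y (jv v₀ η k) + ENNReal.ofReal (ε * η) ≠ ⊤ :=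
      ENNReal.add_ne_top.2 ⟨ENNReal.mul_ne_top ENNReal.ofReal_ne_top hfin, ENNReal.ofReal_ne_top⟩
    refine (ENNReal.toReal_mono hne h2).trans (le_of_eq ?_)
    rw [ENNReal.toReal_add (ENNReal.mul_ne_top ENNReal.ofReal_ne_top hfin) ENNReal.ofReal_ne_top,
      ENNReal.toReal_mul, ENNReal.toReal_ofReal (by linarith),
      ENNReal.toReal_ofReal (by positivity)]
  unfold av
  rw [div_le_iff₀ hη]
  refine h6.trans (le_of_eq ?_)
  field_simp

end L1

end Vale.Agent.P073.H253
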