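import Vale.Agent.P073.H253.LineC

/-!
# P073, rank one, `[LINE-OK]`: the energy of the bad edges
-/

open Set Metric Topology MeasureTheory Filter
open scoped ENNReal NNReal

namespace Vale.Agent.P073.H253

open Vale.Agent.P073.St (V)
open Vale.Agent.P073.SQ (ev)
open _root_.P073 (ConicalOn)

theorem add_rpow_le_two {p a b : ℝ} (hp : 0 ≤ p) (ha : 0 ≤ a) (hb : 0 ≤ b) :
    (a + b) ^ p ≤ 2 ^ p * (a ^ p + b ^ p) := by
  have h1 : a + b ≤ 2 * max a b := by
    have := le_max_left a b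
    have := le_max_right a b
    linarith
  calc (a + b) ^ p ≤ (2 * max a b) ^ p := Real.rpow_le_rpow (by positivity) h1 hp
    _ = 2 ^ p * (max a b) ^ p := Real.mul_rpow (by norm_num) (le_max_of_le_left ha)
    _ ≤ 2 ^ p * (a ^ p + b ^ p) := by
        gcongr
        rcases le_total a b with h | h
        · rw [max_eq_right h]
          have := Real.rpow_nonneg ha p
          linarith
        · rw [max_eq_left h]
          have := Real.rpow_nonneg hb p
          linarith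

namespace L1

variable {p C D c ε v₀ η w : ℝ} {α β : ℤ} {G : Finset ℤ} {y : ℝ → ℝ} {χ : ℝ → V} {l x : ℤ → ℝ}

theorem card_big (L : L1 p C D c ε v₀ η w α β G y χ l x) {T : Finset ℤ}
    (hT : T ⊆ Finset.Ico α β) (hx : ∀ k ∈ T, η ≤ x k) :
    T.card * η ≤ ∑ k ∈ Finset.Ico α β, x k := by
  calc (T.card : ℝ) * η = ∑ _k ∈ T, η := by rw [Finset.sum_const, nsmul_eq_mul]
    _ ≤ ∑ k ∈ T, x k := Finset.sum_le_sum hx
    _ ≤ _ := Finset.sum_le_sum_of_subset_of_nonneg hT fun k _ _ => L.x0 k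

theorem bad_energy (L : L1 p C D c ε v₀ η w α β G y χ l x) (hp : 1 ≤ p) (hC : 0 < C)
    (hc : 0 < c) (hc4 : c < 1 / 4) {B E : Finset ℤ} (hB : B ⊆ Finset.Ico α β)
    (hE : E.card ≤ 2) (hBG : ∀ k ∈ B, k ∈ G → k ∈ zone c v₀ η w G y ∨ η < x k ∨ k ∈ E) :
    ∑ k ∈ B, η ^ (1 - p) * l k ^ p ≤ ε + (2 * C) ^ p *
      (4 * c * (1 + ∑ k ∈ Finset.Ico α β, x k) + 4 * c * w +
        2 * (∑ k ∈ Finset.Ico α β, x k) + 2 * η + ε) := by
  classical
  have hη := L.η0
  have hp0 : 0 ≤ p := by linarith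
  have hnn : ∀ k, 0 ≤ η ^ (1 - p) * l k ^ p := fun k => by
    have := L.l0 k
    positivity
  have e0 : B = (B \ G) ∪ (B ∩ G) := (Finset.sdiff_union_inter B G).symm
  have hdisj : Disjoint (B \ G) (B ∩ G) := Finset.disjoint_sdiff_inter B G
  rw [e0, Finset.sum_union hdisj]
  have h1 : ∑ k ∈ B \ G, η ^ (1 - p) * l k ^ p ≤ ε :=
    (Finset.sum_le_sum_of_subset_of_nonneg (Finset.sdiff_subset_sdiff hB le_rfl)
      fun k _ _ => hnn k).trans L.bad
  have h2 : ∀ k ∈ B ∩ G, η ^ (1 - p) * l k ^ p ≤ (2 * C) ^ p * (η + η ^ (1 - p) * x k ^ p) := by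
    intro k hk
    have hkG := (Finset.mem_inter.1 hk).2
    have h3 := L.good k hkG
    have hx := L.x0 k
    have hl := L.l0 k
    have h4 : l k ^ p ≤ (C * (η + x k)) ^ p := Real.rpow_le_rpow hl h3 hp0
    rw [Real.mul_rpow hC.le (by positivity)] at h4
    have h5 := add_rpow_le_two hp0 hη.le hx
    have h6 : η ^ (1 - p) * η ^ p = η := by
      rw [← Real.rpow_add hη, sub_add_cancel, Real.rpow_one]
    calc η ^ (1 - p) * l k ^ p ≤ η ^ (1 - p) * (C ^ p * (2 ^ p * (η ^ p + x k ^ p))) := by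
          gcongr
          exact h4.trans (by gcongr)
      _ = (2 * C) ^ p * (η ^ (1 - p) * η ^ p + η ^ (1 - p) * x k ^ p) := by
          rw [Real.mul_rpow (by norm_num) hC.le]; ring
      _ = _ := by rw [h6]
  have h3 : ∑ k ∈ B ∩ G, (η + η ^ (1 - p) * x k ^ p) ≤
      4 * c * (1 + ∑ k ∈ Finset.Ico α β, x k) + 4 * c * w +
        2 * (∑ k ∈ Finset.Ico α β, x k) + 2 * η + ε := by
    rw [Finset.sum_add_distrib, Finset.sum_const, nsmul_eq_mul]
    have h4 : ∑ k ∈ B ∩ G, η ^ (1 - p) * x k ^ p ≤ ε :=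
      (Finset.sum_le_sum_of_subset_of_nonneg (Finset.inter_subset_left.trans hB) fun k _ _ => by
        have := L.x0 k
        positivity).trans L.close
    set T : Finset ℤ := (Finset.Ico α β).filter fun k => η < x k with hT
    have h5 : B ∩ G ⊆ zone c v₀ η w G y ∪ T ∪ E := by
      intro k hk
      obtain ⟨hkB, hkG⟩ := Finset.mem_inter.1 hk
      simp only [Finset.mem_union]
      rcases hBG k hkB hkG with h | h | h
      · exact Or.inl (Or.inl h)
      · exact Or.inl (Or.inr (Finset.mem_filter.2 ⟨hB hkB, h⟩))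
      · exact Or.inr h
    have h6 : ((B ∩ G).card : ℝ) ≤ (zone c v₀ η w G y).card + T.card + 2 := by
      have h7 := Finset.card_le_card h5
      have h8 := Finset.card_union_le (zone c v₀ η w G y ∪ T) E
      have h9 := Finset.card_union_le (zone c v₀ η w G y) T
      have : (B ∩ G).card ≤ (zone c v₀ η w G y).card + T.card + 2 := by omega
      exact_mod_cast this
    have h7 : ((B ∩ G).card : ℝ) * η ≤
        (zone c v₀ η w G y).card * η + T.card * η + 2 * η := by nlinarith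
    have h8 := L.zone_le hc hc4
    have h9 := L.card_big (T := T) (Finset.filter_subset _ _)
      fun k hk => (Finset.mem_filter.1 hk).2.le
    linarith
  have h4 : ∑ k ∈ B ∩ G, η ^ (1 - p) * l k ^ p ≤ (2 * C) ^ p *
      ∑ k ∈ B ∩ G, (η + η ^ (1 - p) * x k ^ p) := by
    rw [Finset.mul_sum]
    exact Finset.sum_le_sum h2
  have h5 : (2 * C) ^ p * ∑ k ∈ B ∩ G, (η + η ^ (1 - p) * x k ^ p) ≤ (2 * C) ^ p *
      (4 * c * (1 + ∑ k ∈ Finset.Ico α β, x k) + 4 * c * w +
        2 * (∑ k ∈ Finset.Ico α β, x k) + 2 * η + ε) := by gcongr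
  linarith

theorem bad_speed (L : L1 p C D c ε v₀ η w α β G y χ l x) (hp : 1 ≤ p) (hD : 0 < D)
    (hε : 0 ≤ ε) (hε1 : ε ≤ 1) {B : Finset ℤ} (hB : B ⊆ Finset.Ico α β) :
    ∑ k ∈ B, (2 * η) * (3 * (D * ((l k + ε * η) / η))) ^ p ≤
      2 * (6 * D) ^ p * (∑ k ∈ B, η ^ (1 - p) * l k ^ p + ε) := by
  have hη := L.η0
  have hp0 : 0 ≤ p := by linarith
  have h1 : ∀ k ∈ B, (2 * η) * (3 * (D * ((l k + ε * η) / η))) ^ p ≤
      2 * (6 * D) ^ p * (η ^ (1 - p) * l k ^ p + η * ε) := by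
    intro k _
    have hl := L.l0 k
    have e1 : 3 * (D * ((l k + ε * η) / η)) = (3 * D) * (l k / η + ε) := by
      field_simp
    have hεp : ε ^ p ≤ ε := by
      rcases hε.eq_or_lt with h | h
      · rw [← h, Real.zero_rpow (by linarith)]
      · calc ε ^ p ≤ ε ^ (1 : ℝ) := Real.rpow_le_rpow_of_exponent_ge h hε1 hp
          _ = ε := Real.rpow_one ε
    have h2 := add_rpow_le_two hp0 (div_nonneg hl hη.le) hε
    have e2 : η * (l k / η) ^ p = η ^ (1 - p) * l k ^ p := by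
      rw [Real.div_rpow hl hη.le, Real.rpow_sub hη 1 p, Real.rpow_one]
      ring
    rw [e1, Real.mul_rpow (by positivity) (by positivity)]
    have e3 : (6 * D) ^ p = (3 * D) ^ p * 2 ^ p := by
      rw [← Real.mul_rpow (by positivity) (by norm_num)]
      congr 1; ring
    rw [e3, ← e2]
    calc 2 * η * ((3 * D) ^ p * (l k / η + ε) ^ p)
        ≤ 2 * η * ((3 * D) ^ p * (2 ^ p * ((l k / η) ^ p + ε ^ p))) := by gcongr
      _ = 2 * ((3 * D) ^ p * 2 ^ p) * (η * (l k / η) ^ p + η * ε ^ p) := by ring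
      _ ≤ _ := by gcongr
  refine (Finset.sum_le_sum h1).trans ?_
  rw [← Finset.mul_sum, Finset.sum_add_distrib]
  have h2 : ∑ _k ∈ B, η * ε ≤ ε := by
    rw [Finset.sum_const, nsmul_eq_mul]
    have h3 : (B.card : ℝ) * η ≤ 1 := by
      have h4 := Finset.card_le_card hB
      rw [Int.card_Ico] at h4
      have h5 : (B.card : ℝ) ≤ β - α := by
        have h6 := L.lt
        have : (B.card : ℤ) ≤ β - α := by omega
        exact_mod_cast this
      have := L.unit
      nlinarith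
    nlinarith
  gcongr

end L1

end Vale.Agent.P073.H253
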