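import Vale.Agent.P073.H253.LineD

/-!
# P073, rank one, `[LINE-OK]`: the real form
-/

open Set Metric Topology MeasureTheory Filter
open scoped ENNReal NNReal

namespace Vale.Agent.P073.H253

open Vale.Agent.P073.St (V)
open Vale.Agent.P073.SQ (ev)
open _root_.P073 (ConicalOn)

/-- the conclusion of `line_mesh` -/
def LM (p ε₁ η₁ : ℝ) : Prop :=
  ∀ (μ : Measure ℝ) [IsFiniteMeasure μ], μ.real univ = 1 →
    ∀ (J B : Finset ℤ) (A : ℤ → Set ℝ) (c : ℤ → ℝ) (F G : ℝ → Fin 3 → ℝ),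
    Measurable F → Measurable G → (∀ j ∈ J ∪ B, MeasurableSet (A j)) →
    ((J ∪ B : Finset ℤ) : Set ℤ).PairwiseDisjoint A → Disjoint J B → (∀ j ∈ J ∪ B, 0 ≤ c j) →
    (∀ᵐ t ∂μ, ∃ j ∈ J ∪ B, t ∈ A j) →
    ∫⁻ t, ENNReal.ofReal ((∑ i, |F t i - (Pi.single 0 1 : Fin 3 → ℝ) i|) ^ p) ∂μ ≤
      ENNReal.ofReal η₁ →
    (∀ j ∈ J, μ.real (A j) * c j ≤
      (1 + η₁) * ∫ t in A j, ∑ i, |F t i| ∂μ + η₁ * μ.real (A j)) →
    ∑ j ∈ B, μ.real (A j) * c j ^ p ≤ η₁ →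
    (∀ j ∈ J ∪ B, ∀ᵐ t ∂μ, t ∈ A j → ∑ i, |G t i| ≤ c j) →
    1 - η₁ ≤ ∫ t, G t 0 ∂μ →
    ∫⁻ t, ENNReal.ofReal (‖G t - Pi.single 0 1‖ ^ p) ∂μ ≤ ENNReal.ofReal ε₁

theorem exists_LM {p ε₁ : ℝ} (hp : 2 ≤ p) (hε : 0 < ε₁) : ∃ η₁ > 0, LM p ε₁ η₁ := by
  obtain ⟨η₁, hη₁, H⟩ := line_mesh ℝ hp one_pos hε
  refine ⟨η₁, hη₁, fun μ _ h1 J B A c F G hF hG hA hd hJB hc hcov h2 h3 h4 h5 h6 => ?_⟩
  exact H μ h1 J B A c F G 0 hF.aestronglyMeasurable hG.aestronglyMeasurable hA hd hJB hc hcov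
    h2 h3 h4 h5 h6

/-- the measure `ρ du / m` on `[a, b]` -/
noncomputable def wm (ρ : ℝ → ℝ) (a b : ℝ) : Measure ℝ :=
  ENNReal.ofReal (1 / (b - a)) •
    (volume.restrict (Icc a b)).withDensity fun u => ENNReal.ofReal (ρ u)

section

variable {ρ : ℝ → ℝ} {a b : ℝ}

theorem lintegral_wm (hρ : Measurable ρ) {f : ℝ → ℝ≥0∞} (hf : Measurable f) :
    ∫⁻ t, f t ∂(wm ρ a b) =
      ENNReal.ofReal (1 / (b - a)) * ∫⁻ t in Icc a b, ENNReal.ofReal (ρ t) * f t := by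
  unfold wm
  rw [lintegral_smul_measure, smul_eq_mul,
    lintegral_withDensity_eq_lintegral_mul _ hρ.ennreal_ofReal hf]
  rfl

theorem wm_apply {s : Set ℝ} (hs : MeasurableSet s) :
    wm ρ a b s = ENNReal.ofReal (1 / (b - a)) *
      ∫⁻ t in s, ENNReal.ofReal (ρ t) ∂(volume.restrict (Icc a b)) := by
  unfold wm
  rw [Measure.smul_apply, smul_eq_mul, withDensity_apply _ hs]

theorem ae_wm {P : ℝ → Prop} (h : ∀ᵐ t ∂(volume.restrict (Icc a b)), P t) :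
    ∀ᵐ t ∂(wm ρ a b), P t := by
  have h1 : wm ρ a b ≪ volume.restrict (Icc a b) :=
    (Measure.smul_absolutelyContinuous).trans (withDensity_absolutelyContinuous _ _)
  exact h1.ae_le h

theorem integral_wm (hρ : Measurable ρ) (hab : a < b) (hρ0 : ∀ u, 0 ≤ ρ u) (f : ℝ → ℝ) :
    ∫ t, f t ∂(wm ρ a b) = (1 / (b - a)) * ∫ t in Icc a b, ρ t * f t := by
  unfold wm
  have h0 : 0 ≤ 1 / (b - a) := by
    have : 0 < b - a := by linarith
    positivity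
  rw [integral_smul_measure, ENNReal.toReal_ofReal h0, smul_eq_mul,
    integral_withDensity_eq_integral_toReal_smul hρ.ennreal_ofReal
      (Eventually.of_forall fun _ => ENNReal.ofReal_lt_top)]
  congr 1
  refine integral_congr_ae (Eventually.of_forall fun t => ?_)
  simp only [smul_eq_mul, ENNReal.toReal_ofReal (hρ0 t)]

theorem wm_univ (hab : a < b) (hρ0 : ∀ u, 0 ≤ ρ u)
    (hi : IntervalIntegrable ρ volume a b) (h : ∫ u in a..b, ρ u = b - a) :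
    wm ρ a b univ = 1 := by
  rw [wm_apply MeasurableSet.univ, Measure.restrict_univ]
  have h0 : 0 < b - a := by linarith
  have i1 : IntegrableOn ρ (Icc a b) := by
    rw [integrableOn_Icc_iff_integrableOn_Ioc]
    exact (intervalIntegrable_iff_integrableOn_Ioc_of_le hab.le).1 hi
  rw [← ofReal_integral_eq_lintegral_ofReal i1 (Eventually.of_forall hρ0),
    integral_Icc_eq_integral_Ioc, ← intervalIntegral.integral_of_le hab.le, h,
    ← ENNReal.ofReal_mul (by positivity), one_div, inv_mul_cancel₀ h0.ne', ENNReal.ofReal_one]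

end

end Vale.Agent.P073.H253
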