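import Vale.Agent.P073.H253.LineE

/-!
# P073, rank one, `[LINE-OK]`: the real form, conclusion
-/

open Set Metric Topology MeasureTheory Filter
open scoped ENNReal NNReal

namespace Vale.Agent.P073.H253

open Vale.Agent.P073.St (V)
open Vale.Agent.P073.SQ (ev)
open _root_.P073 (ConicalOn)

namespace L1

variable {p C D c ε v₀ η w : ℝ} {α β : ℤ} {G : Finset ℤ} {y : ℝ → ℝ} {χ : ℝ → V} {l x : ℤ → ℝ}

open Classical in
/-- the edges which meet `(a, b)` -/
noncomputable def KK (v₀ η a b : ℝ) (α β : ℤ) : Finset ℤ :=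
  (Finset.Ico α β).filter fun k => v₀ + k * η < b ∧ a < v₀ + (k + 1) * η

open Classical in
/-- the sharp edges -/
noncomputable def JJ (c v₀ η w a b : ℝ) (α β : ℤ) (G : Finset ℤ) (y : ℝ → ℝ) (x : ℤ → ℝ) :
    Finset ℤ :=
  (KK v₀ η a b α β).filter fun k => k ∈ G ∧ k ∉ zone c v₀ η w G y ∧ x k ≤ η ∧ a ≤ v₀ + k * η ∧
    v₀ + (k + 1) * η ≤ b

theorem mem_KK {a b : ℝ} {k : ℤ} : k ∈ KK v₀ η a b α β ↔
    k ∈ Finset.Ico α β ∧ v₀ + k * η < b ∧ a < v₀ + (k + 1) * η := by
  classical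
  unfold KK
  exact Finset.mem_filter

theorem mem_JJ {a b : ℝ} {k : ℤ} : k ∈ JJ c v₀ η w a b α β G y x ↔ k ∈ KK v₀ η a b α β ∧
    (k ∈ G ∧ k ∉ zone c v₀ η w G y ∧ x k ≤ η ∧ a ≤ v₀ + k * η ∧ v₀ + (k + 1) * η ≤ b) := by
  classical
  unfold JJ
  exact Finset.mem_filter

/-- at most two edges contain `a` or `b` -/
theorem exists_E (hη : 0 < η) (a b : ℝ) (K : Finset ℤ) :
    ∃ E : Finset ℤ, E.card ≤ 2 ∧ ∀ k ∈ K, a ∈ jo v₀ η k ∨ b ∈ jo v₀ η k → k ∈ E := by
  classical
  have h1 : ∀ t : ℝ, (K.filter fun k => t ∈ jo v₀ η k).card ≤ 1 := by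
    intro t
    rw [Finset.card_le_one]
    intro k hk k' hk'
    by_contra hne
    exact jo_disj hη hne (Finset.mem_filter.1 hk).2 (Finset.mem_filter.1 hk').2
  refine ⟨(K.filter fun k => a ∈ jo v₀ η k) ∪ (K.filter fun k => b ∈ jo v₀ η k), ?_, ?_⟩
  · have := Finset.card_union_le (K.filter fun k => a ∈ jo v₀ η k)
      (K.filter fun k => b ∈ jo v₀ η k)
    have h2 := h1 a
    have h3 := h1 b
    omega
  · intro k hk h
    rw [Finset.mem_union, Finset.mem_filter, Finset.mem_filter]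
    rcases h with h | h
    · exact Or.inl ⟨hk, h⟩
    · exact Or.inr ⟨hk, h⟩

theorem sok (L : L1 p C D c ε v₀ η w α β G y χ l x) (hC : 0 < C) (hD : 0 < D) (hε : 0 ≤ ε)
    (hε1 : ε ≤ 1) {a b : ℝ} :
    SOk (3 * (D * (2 * C + 1))) v₀ η (JJ c v₀ η w a b α β G y x) (spd χ) where
  meas := measurable_spd χ
  nonneg := spd_nonneg χ
  le k hk u hu := by
    have hη := L.η0
    obtain ⟨h1, h2, -, h3, -⟩ := mem_JJ.1 hk
    refine (L.spd_le' hD.le hε (L.Gsub h2) hu).trans ?_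
    have h4 := L.good k h2
    have h5 : (l k + ε * η) / η ≤ 2 * C + 1 := by
      rw [div_le_iff₀ hη]
      have h6 : C * (η + x k) ≤ C * (2 * η) := by
        apply mul_le_mul_of_nonneg_left _ hC.le
        linarith
      have h7 : ε * η ≤ 1 * η := by gcongr
      linarith
    gcongr

/-- the energy estimate -/
theorem energy (L : L1 p C D c ε v₀ η w α β G y χ l x) {ε₁ η₁ μ σ : ℝ} (hp : 2 ≤ p) (hC : 0 < C)
    (hD : 0 < D) (hc : 0 < c) (hc4 : c < 1 / 4) (hε : 0 ≤ ε) (hε1 : ε ≤ 1) (hη₁ : 0 < η₁)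
    (hLM : LM p ε₁ η₁) (hμ : 0 < μ) (hσ : ∑ k ∈ Finset.Ico α β, x k ≤ σ)
    (n1 : 2 * σ + 4 * (D * ε) ≤ η₁) (n2 : 2 * ε ≤ η₁) (n3 : ε + μ ≤ η₁) (n4 : c ≤ η₁)
    (n5 : 2 * (6 * D) ^ p * (ε + (2 * C) ^ p * (4 * c * (1 + σ) + 4 * c * ε + 2 * σ + 2 * ε + ε) +
      ε) ≤ η₁) {a b : ℝ} (hab : a + 1 / 2 ≤ b) (ha : v₀ + α * η ≤ a) (hb : b ≤ v₀ + β * η) :
    ∫⁻ u in Icc a b, ENNReal.ofReal
      (‖(dens μ v₀ η (JJ c v₀ η w a b α β G y x) (spd χ) u)⁻¹ • deriv χ u - ev 0‖ ^ p *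
        dens μ v₀ η (JJ c v₀ η w a b α β G y x) (spd χ) u) ≤ ENNReal.ofReal ε₁ := by
  classical
  have hη := L.η0
  have hp1 : 1 ≤ p := by linarith
  have hp0 : 0 ≤ p := by linarith
  have habl : a < b := by linarith
  set m : ℝ := b - a with hm
  have hm1 : 1 / 2 ≤ m := by rw [hm]; linarith
  have hm0 : 0 < m := by linarith
  have hm2 : m ≤ 1 := by
    have := L.unit
    rw [hm]; nlinarith
  set J := JJ c v₀ η w a b α β G y x with hJ
  set K := KK v₀ η a b α β with hK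
  set B := K \ J with hB
  set S := spd χ with hS
  have HS : SOk (3 * (D * (2 * C + 1))) v₀ η J S := L.sok hC hD hε hε1
  have hM0 : 0 ≤ 3 * (D * (2 * C + 1)) := by positivity
  set ρ := dens μ v₀ η J S with hρ
  have hρm : Measurable ρ := measurable_dens HS.meas
  have hρb := HS.bounds hη hμ hM0
  have hρ0 : ∀ u, 0 < ρ u := fun u => lt_of_lt_of_le (by positivity) (hρb u).1
  have hJK : J ⊆ K := fun k hk => (mem_JJ.1 hk).1
  have hKI : K ⊆ Finset.Ico α β := fun k hk => (mem_KK.1 hk).1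
  have hJB : J ∪ B = K := Finset.union_sdiff_of_subset hJK
  have hJa : ∀ k ∈ J, a ≤ v₀ + k * η := fun k hk => (mem_JJ.1 hk).2.2.2.2.1
  have hJb : ∀ k ∈ J, v₀ + (k + 1) * η ≤ b := fun k hk => (mem_JJ.1 hk).2.2.2.2.2
  have htot := HS.total hη hμ habl.le hJa hJb
  set ω := wm ρ a b with hω
  have hω1 : ω univ = 1 := wm_univ habl (fun u => (hρ0 u).le) (HS.ii a b) htot
  have : IsFiniteMeasure ω := ⟨by rw [hω1]; exact ENNReal.one_lt_top⟩
  have hωr : ω.real univ = 1 := by rw [measureReal_def, hω1, ENNReal.toReal_one]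
  have hρB : ∀ k ∈ B, ∀ u ∈ jo v₀ η k, ρ u = 1 := by
    intro k hk u hu
    refine dens_off fun k' hk' hu' => ?_
    have hne : k ≠ k' := fun h => (Finset.mem_sdiff.1 hk).2 (h ▸ hk')
    exact jo_disj hη hne hu hu'
  -- measure of the edges
  have hωj : ∀ k ∈ K, ω (jo v₀ η k) ≤ ENNReal.ofReal (2 * η) := by
    intro k hk
    rw [hω, wm_apply (measurableSet_jo k)]
    have h1 : ∫⁻ t in jo v₀ η k, ENNReal.ofReal (ρ t) ∂(volume.restrict (Icc a b)) ≤
        ∫⁻ t in jo v₀ η k, ENNReal.ofReal (ρ t) :=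
      lintegral_mono' (Measure.restrict_mono_measure Measure.restrict_le_self _) le_rfl
    have h2 : ∫⁻ t in jo v₀ η k, ENNReal.ofReal (ρ t) = ENNReal.ofReal η := by
      by_cases hkJ : k ∈ J
      · rw [← ofReal_integral_eq_lintegral_ofReal ?_ (Eventually.of_forall fun u => (hρ0 u).le),
          HS.mean_dens hη hμ hkJ]
        refine (HS.intr (μ := μ) hkJ).congr_fun (fun u hu => ?_) (measurableSet_jo k)
        exact (dens_of_mem hη hkJ hu).symm
      · have h3 : ∫⁻ t in jo v₀ η k, ENNReal.ofReal (ρ t) = ∫⁻ _t in jo v₀ η k, 1 :=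
          setLIntegral_congr_fun (measurableSet_jo k) fun u hu => by
            rw [hρB k (Finset.mem_sdiff.2 ⟨hk, hkJ⟩) u hu, ENNReal.ofReal_one]
        rw [h3, setLIntegral_one, volume_jo]
    calc ENNReal.ofReal (1 / m) *
          ∫⁻ t in jo v₀ η k, ENNReal.ofReal (ρ t) ∂(volume.restrict (Icc a b))
        ≤ ENNReal.ofReal 2 * ENNReal.ofReal η := by
          rw [← h2]
          gcongr
          rw [div_le_iff₀ hm0]; linarith
      _ = _ := by rw [← ENNReal.ofReal_mul (by norm_num)]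
  have hωr2 : ∀ k ∈ K, ω.real (jo v₀ η k) ≤ 2 * η := fun k hk =>
    ENNReal.toReal_le_of_le_ofReal (by positivity) (hωj k hk)
  -- covering
  have hcov : ∀ᵐ t ∂ω, ∃ j ∈ J ∪ B, t ∈ jo v₀ η j := by
    refine ae_wm ?_
    have h1 : ∀ᵐ t : ℝ, t ∉ range (fun k : ℤ => v₀ + k * η) := by
      rw [ae_iff]
      simp only [not_not]
      exact (countable_range _).measure_zero _
    have h2 : ∀ᵐ t : ℝ, t ≠ b := by rw [ae_iff]; simp
    rw [ae_restrict_iff' measurableSet_Icc]
    filter_upwards [h1, h2] with t ht htb htab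
    set k : ℤ := ⌊(t - v₀) / η⌋ with hk
    have h3 : (k : ℝ) * η ≤ t - v₀ := by
      have := Int.floor_le ((t - v₀) / η)
      rwa [le_div_iff₀ hη] at this
    have h4 : t - v₀ < (k + 1) * η := by
      have := Int.lt_floor_add_one ((t - v₀) / η)
      rwa [div_lt_iff₀ hη] at this
    have h5 : α ≤ k := by
      rw [hk]
      refine Int.le_floor.2 ?_
      rw [le_div_iff₀ hη]
      linarith [htab.1]
    have h6 : t < b := lt_of_le_of_ne htab.2 htb
    have h7 : k < β := by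
      by_contra hcon
      push Not at hcon
      have h8 : (β : ℝ) ≤ k := by exact_mod_cast hcon
      have : (β : ℝ) * η ≤ k * η := by gcongr
      linarith
    have h8 : v₀ + (k : ℝ) * η ≠ t := fun h => ht ⟨k, h⟩
    have h9 : v₀ + (k : ℝ) * η < t := lt_of_le_of_ne (by linarith) h8
    rw [hJB]
    refine ⟨k, mem_KK.2 ⟨Finset.mem_Ico.2 ⟨h5, h7⟩, by linarith, ?_⟩, h9, by linarith⟩
    linarith [htab.1]
  have hd : ((J ∪ B : Finset ℤ) : Set ℤ).PairwiseDisjoint (jo v₀ η) := by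
    intro i _ j _ hij
    exact Set.disjoint_left.2 fun u hu => jo_disj hη hij hu
  -- the functions
  set ϕ : ℤ → ℝ := fun k => (eVariationOn y (jv v₀ η k)).toReal / η with hϕ
  have hϕ0 : ∀ k, 0 ≤ ϕ k := fun k => by positivity
  set φ : ℝ → ℝ := step (J ∪ B) (jo v₀ η) ϕ with hφ
  have hφm : Measurable φ := by
    rw [hφ]
    unfold step
    exact Finset.measurable_sum _ fun k _ => measurable_const.indicator (measurableSet_jo k)
  set F : ℝ → Fin 3 → ℝ := fun t => Pi.single 0 (φ t) with hF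
  have hFm : Measurable F := by
    refine measurable_pi_iff.2 fun i => ?_
    by_cases hi : i = 0
    · subst hi
      simpa [hF] using hφm
    · have : (fun t => F t i) = fun _ => 0 := by
        funext t; simp [hF, hi]
      rw [this]; exact measurable_const
  set G' : ℝ → Fin 3 → ℝ := fun t => (ρ t)⁻¹ • deriv χ t with hG'
  have hGm : Measurable G' := hρm.inv.smul (measurable_deriv χ)
  set cc : ℤ → ℝ := fun k => if k ∈ J then av S v₀ η k + μ
    else 3 * (D * ((l k + ε * η) / η)) with hcc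
  have hcc0 : ∀ k, 0 ≤ cc k := by
    intro k
    simp only [hcc]
    split_ifs
    · have := HS.av0 hη k
      linarith
    · have := L.l0 k
      positivity
  have hφj : ∀ j ∈ J ∪ B, ∀ t ∈ jo v₀ η j, φ t = ϕ j := fun j hj t ht => step_of_mem hd hj ht
  have hxk : ∀ k ∈ K, |ϕ k - 1| ≤ x k / η := by
    intro k hk
    have h1 := (L.inc (hKI hk)).2.2
    rw [le_div_iff₀ hη]
    have e : |ϕ k - 1| * η = |(eVariationOn y (jv v₀ η k)).toReal - η| := by
      have : (eVariationOn y (jv v₀ η k)).toReal - η = (ϕ k - 1) * η := by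
        simp only [hϕ]; field_simp
      rw [this, abs_mul, abs_of_pos hη]
    rw [e]; exact h1
  -- conditions
  have C1 : ∫⁻ t, ENNReal.ofReal ((∑ i, |F t i - (Pi.single 0 1 : Fin 3 → ℝ) i|) ^ p) ∂ω ≤
      ENNReal.ofReal η₁ := by
    have h1 : ∀ᵐ t ∂ω, ENNReal.ofReal ((∑ i, |F t i - (Pi.single 0 1 : Fin 3 → ℝ) i|) ^ p) ≤
        ∑ k ∈ K, (jo v₀ η k).indicator (fun _ => ENNReal.ofReal ((x k / η) ^ p)) t := by
      filter_upwards [hcov] with t ht
      obtain ⟨k, hk, htk⟩ := ht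
      have hkK : k ∈ K := by rwa [hJB] at hk
      have e1 : ∑ i, |F t i - (Pi.single 0 1 : Fin 3 → ℝ) i| = |ϕ k - 1| := by
        rw [Finset.sum_eq_single_of_mem (0 : Fin 3) (Finset.mem_univ _)]
        · simp only [hF, Pi.single_eq_same, hφj k hk t htk]
        · intro i _ hi
          simp [hF, hi]
      rw [e1]
      refine le_trans ?_ (Finset.single_le_sum
        (f := fun k => (jo v₀ η k).indicator (fun _ => ENNReal.ofReal ((x k / η) ^ p)) t)
        (fun _ _ => bot_le) hkK)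
      show _ ≤ (jo v₀ η k).indicator (fun _ => ENNReal.ofReal ((x k / η) ^ p)) t
      rw [indicator_of_mem htk]
      exact ENNReal.ofReal_le_ofReal (Real.rpow_le_rpow (abs_nonneg _) (hxk k hkK) hp0)
    refine (lintegral_mono_ae h1).trans ?_
    rw [lintegral_finsetSum K fun k _ => measurable_const.indicator (measurableSet_jo k)]
    have h2 : ∀ k ∈ K, ∫⁻ t, (jo v₀ η k).indicator (fun _ => ENNReal.ofReal ((x k / η) ^ p)) t ∂ω ≤
        ENNReal.ofReal (2 * (η ^ (1 - p) * x k ^ p)) := by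
      intro k hk
      have hx := L.x0 k
      rw [lintegral_indicator_const (measurableSet_jo k)]
      calc ENNReal.ofReal ((x k / η) ^ p) * ω (jo v₀ η k)
          ≤ ENNReal.ofReal ((x k / η) ^ p) * ENNReal.ofReal (2 * η) := by
            gcongr
            exact hωj k hk
        _ = _ := by
            rw [← ENNReal.ofReal_mul (by positivity)]
            congr 1
            rw [Real.div_rpow hx hη.le, Real.rpow_sub hη 1 p, Real.rpow_one]
            ring
    refine (Finset.sum_le_sum h2).trans ?_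
    rw [← ENNReal.ofReal_sum_of_nonneg fun k _ => by have := L.x0 k; positivity]
    refine ENNReal.ofReal_le_ofReal ?_
    rw [← Finset.mul_sum]
    have h3 : ∑ k ∈ K, η ^ (1 - p) * x k ^ p ≤ ε :=
      (Finset.sum_le_sum_of_subset_of_nonneg hKI fun k _ _ => by
        have := L.x0 k
        positivity).trans L.close
    linarith
  have C2 : ∀ j ∈ J, ω.real (jo v₀ η j) * cc j ≤
      (1 + η₁) * ∫ t in jo v₀ η j, ∑ i, |F t i| ∂ω + η₁ * ω.real (jo v₀ η j) := by
    intro j hj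
    have hjB : j ∈ J ∪ B := Finset.mem_union_left _ hj
    obtain ⟨-, hjG, hjz, -, -⟩ := mem_JJ.1 hj
    have e1 : ∫ t in jo v₀ η j, ∑ i, |F t i| ∂ω = ω.real (jo v₀ η j) * ϕ j := by
      have h1 : ∫ t in jo v₀ η j, ∑ i, |F t i| ∂ω = ∫ _t in jo v₀ η j, ϕ j ∂ω := by
        refine setIntegral_congr_fun (measurableSet_jo j) fun t ht => ?_
        show ∑ i, |F t i| = ϕ j
        rw [Finset.sum_eq_single_of_mem (0 : Fin 3) (Finset.mem_univ _)]
        · simp only [hF, Pi.single_eq_same, hφj j hjB t ht, abs_of_nonneg (hϕ0 j)]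
        · intro i _ hi
          simp [hF, hi]
      rw [h1, setIntegral_const, smul_eq_mul]
    have e2 : cc j = av S v₀ η j + μ := by simp only [hcc, if_pos hj]
    have h2 := L.av_le hε hc.le hjG hjz
    rw [e1, e2]
    have hr : 0 ≤ ω.real (jo v₀ η j) := measureReal_nonneg
    have h3 : av S v₀ η j + μ ≤ (1 + η₁) * ϕ j + η₁ := by
      have h4 : c * ϕ j ≤ η₁ * ϕ j := mul_le_mul_of_nonneg_right n4 (hϕ0 j)
      have h5 : av S v₀ η j ≤ (1 + c) * ϕ j + ε := h2
      linarith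
    calc ω.real (jo v₀ η j) * (av S v₀ η j + μ)
        ≤ ω.real (jo v₀ η j) * ((1 + η₁) * ϕ j + η₁) := by gcongr
      _ = _ := by ring
  have C3 : ∑ j ∈ B, ω.real (jo v₀ η j) * cc j ^ p ≤ η₁ := by
    have hBI : B ⊆ Finset.Ico α β := Finset.sdiff_subset.trans hKI
    have h1 : ∑ j ∈ B, ω.real (jo v₀ η j) * cc j ^ p ≤
        ∑ k ∈ B, (2 * η) * (3 * (D * ((l k + ε * η) / η))) ^ p := by
      refine Finset.sum_le_sum fun k hk => ?_
      obtain ⟨hkK, hkJ⟩ := Finset.mem_sdiff.1 hk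
      have e : cc k = 3 * (D * ((l k + ε * η) / η)) := by simp only [hcc, if_neg hkJ]
      rw [e]
      have := L.l0 k
      exact mul_le_mul_of_nonneg_right (hωr2 k hkK) (by positivity)
    have h2 := L.bad_speed hp1 hD hε hε1 hBI
    obtain ⟨E, hE, hE'⟩ := exists_E (v₀ := v₀) hη a b K
    have h3 := L.bad_energy hp1 hC hc hc4 hBI hE fun k hk hkG => by
      obtain ⟨hkK, hkJ⟩ := Finset.mem_sdiff.1 hk
      by_contra hcon
      push Not at hcon
      obtain ⟨q1, q2, q3⟩ := hcon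
      have hnot : ¬ (a ∈ jo v₀ η k ∨ b ∈ jo v₀ η k) := fun h => q3 (hE' k hkK h)
      push Not at hnot
      obtain ⟨-, r1, r2⟩ := mem_KK.1 hkK
      refine hkJ (mem_JJ.2 ⟨hkK, hkG, q1, q2, ?_, ?_⟩)
      · by_contra hc'
        push Not at hc'
        exact hnot.1 ⟨hc', r2⟩
      · by_contra hc'
        push Not at hc'
        exact hnot.2 ⟨r1, hc'⟩
    have h4 : 4 * c * w ≤ 4 * c * ε := by
      have := L.mtε
      gcongr
    have h5 := L.fine
    have h6 : 4 * c * (1 + ∑ k ∈ Finset.Ico α β, x k) ≤ 4 * c * (1 + σ) := by gcongr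
    have h7 : (2 * C) ^ p * (4 * c * (1 + ∑ k ∈ Finset.Ico α β, x k) + 4 * c * w +
        2 * (∑ k ∈ Finset.Ico α β, x k) + 2 * η + ε) ≤
        (2 * C) ^ p * (4 * c * (1 + σ) + 4 * c * ε + 2 * σ + 2 * ε + ε) := by
      have : 0 ≤ (2 * C) ^ p := by positivity
      refine mul_le_mul_of_nonneg_left ?_ this
      linarith
    have h8 : 2 * (6 * D) ^ p * (∑ k ∈ B, η ^ (1 - p) * l k ^ p + ε) ≤
        2 * (6 * D) ^ p * (ε + (2 * C) ^ p * (4 * c * (1 + σ) + 4 * c * ε + 2 * σ + 2 * ε + ε) +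
          ε) := by
      have : 0 ≤ 2 * (6 * D) ^ p := by positivity
      refine mul_le_mul_of_nonneg_left ?_ this
      linarith
    exact h1.trans (h2.trans (h8.trans n5))
  have C4 : ∀ j ∈ J ∪ B, ∀ᵐ t ∂ω, t ∈ jo v₀ η j → ∑ i, |G' t i| ≤ cc j := by
    intro j hj
    refine Eventually.of_forall fun t ht => ?_
    have e1 : ∑ i, |G' t i| = (ρ t)⁻¹ * S t := by
      simp only [hG', Pi.smul_apply, smul_eq_mul, abs_mul, abs_of_pos (inv_pos.2 (hρ0 t))]
      rw [← Finset.mul_sum]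
      rfl
    rw [e1]
    by_cases hjJ : j ∈ J
    · simp only [hcc, if_pos hjJ]
      have h1 := HS.av0 hη j
      have h2 := HS.nonneg t
      have e2 : ρ t = (S t + μ) / (av S v₀ η j + μ) := dens_of_mem hη hjJ ht
      rw [e2, inv_div, div_mul_eq_mul_div, div_le_iff₀ (by linarith)]
      have : 0 ≤ av S v₀ η j + μ := by linarith
      nlinarith
    · simp only [hcc, if_neg hjJ]
      have hjB : j ∈ B := by
        rcases Finset.mem_union.1 hj with h | h
        · exact absurd h hjJ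
        · exact h
      rw [hρB j hjB t ht, inv_one, one_mul]
      exact L.spd_le' hD.le hε (hKI (Finset.mem_sdiff.1 hjB).1) ht
  have C5 : 1 - η₁ ≤ ∫ t, G' t 0 ∂ω := by
    rw [hω, integral_wm hρm habl fun u => (hρ0 u).le]
    have hsub : Icc a b ⊆ Icc (v₀ + α * η) (v₀ + β * η) := Icc_subset_Icc ha hb
    have hcχ : ConicalOn χ (Icc a b) :=
      L.cχ.mono (_root_.P073.Convex.conicalSet (convex_Icc _ _)) hsub
    obtain ⟨i1, i2⟩ := conical_ftc habl.le hcχ
    have i3 : IntegrableOn (deriv χ) (Icc a b) := by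
      rw [integrableOn_Icc_iff_integrableOn_Ioc]
      exact (intervalIntegrable_iff_integrableOn_Ioc_of_le habl.le).1 i1
    have e1 : ∫ t in Icc a b, ρ t * G' t 0 = ∫ t in Icc a b, deriv χ t 0 := by
      refine integral_congr_ae (Eventually.of_forall fun t => ?_)
      simp only [hG', Pi.smul_apply, smul_eq_mul]
      rw [mul_inv_cancel_left₀ (hρ0 t).ne']
    have e2 : ∫ t in Icc a b, deriv χ t 0 = χ b 0 - χ a 0 := by
      have h1 := ContinuousLinearMap.integral_comp_comm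
        (ContinuousLinearMap.proj (R := ℝ) (φ := fun _ : Fin 3 => ℝ) 0) i3
      simp only [ContinuousLinearMap.proj_apply] at h1
      rw [h1, integral_Icc_eq_integral_Ioc, ← intervalIntegral.integral_of_le habl.le, i2]
      rfl
    rw [e1, e2]
    have h1 := L.net habl.le ha hb
    have hx0 : 0 ≤ ∑ k ∈ Finset.Ico α β, x k := Finset.sum_nonneg fun k _ => L.x0 k
    have h2 : D * w ≤ D * ε := by
      have := L.mtε
      gcongr
    have h3 : m - σ - 2 * (D * ε) ≤ χ b 0 - χ a 0 := by linarith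
    have h4 : 1 / m * (m - σ - 2 * (D * ε)) ≤ 1 / m * (χ b 0 - χ a 0) := by gcongr
    have h5 : 1 / m * (m - σ - 2 * (D * ε)) = 1 - 1 / m * (σ + 2 * (D * ε)) := by
      field_simp
      ring
    have h6 : 1 / m ≤ 2 := by
      rw [div_le_iff₀ hm0]; linarith
    have h7 : 1 / m * (σ + 2 * (D * ε)) ≤ 2 * (σ + 2 * (D * ε)) := by
      have : 0 ≤ σ + 2 * (D * ε) := by
        have : 0 ≤ σ := hx0.trans hσ
        positivity
      gcongr
    linarith
  -- conclusion
  have hfin := hLM ω hωr J B (jo v₀ η) cc F G' hFm hGm (fun j _ => measurableSet_jo j) hd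
    Finset.disjoint_sdiff (fun j _ => hcc0 j) hcov C1 C2 C3 C4 C5
  rw [hω, lintegral_wm hρm (((hGm.sub_const _).norm.pow_const p).ennreal_ofReal)] at hfin
  have h1 : (1 : ℝ≥0∞) ≤ ENNReal.ofReal (1 / m) := by
    rw [← ENNReal.ofReal_one]
    refine ENNReal.ofReal_le_ofReal ?_
    rw [le_div_iff₀ hm0]; linarith
  have h2 : ∫⁻ t in Icc a b, ENNReal.ofReal (ρ t) *
      ENNReal.ofReal (‖G' t - Pi.single 0 1‖ ^ p) ≤ ENNReal.ofReal ε₁ :=
    le_trans (le_mul_of_one_le_left bot_le h1) hfin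
  refine le_trans (le_of_eq ?_) h2
  refine lintegral_congr fun t => ?_
  rw [← ENNReal.ofReal_mul (hρ0 t).le, mul_comm]
  rfl

end L1

end Vale.Agent.P073.H253
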