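import Vale.Agent.P073.H253.LineG
import Vale.Agent.P073.H582.ConC6

/-!
# P073, rank one: `[LINE-OK]`
-/

open Set Metric Topology MeasureTheory Filter
open scoped ENNReal NNReal

namespace Vale.Agent.P073.H253

open Vale.Agent.P073.St (V)
open Vale.Agent.P073.SQ (ev)
open Vale.Agent.P073.AB
open Vale.Agent.P073.H73 (segP onSeg)
open _root_.P073 (ConicalOn ConHomeo)

theorem conical_coord {χ : ℝ → V} {a b : ℝ} (hab : a ≤ b) (h : ConicalOn χ (Icc a b))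
    (j : Fin 3) : ConicalOn (fun u => χ u j) (Icc a b) := by
  have h3 : ConicalOn (fun z : V => (LinearMap.proj j : V →ₗ[ℝ] ℝ).toAffineMap z) univ :=
    _root_.P073.conicalOn_of_affine _ (_root_.P073.IsOpen.conicalSet isOpen_univ)
  exact h3.comp h (mapsTo_univ _ _) (by
    obtain ⟨K, hK⟩ := _root_.P073.Net.conical_lipschitz hab h
    exact hK.continuousOn)

theorem lt_top_of_term {p a ε : ℝ} (hp : 0 < p) (ha : 0 < a) {X : ℝ≥0∞}
    (h : ENNReal.ofReal a * X ^ p ≤ ENNReal.ofReal ε) : X < ⊤ := by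
  by_contra hX
  have hX' : X = ⊤ := not_lt_top_iff.1 hX
  rw [hX', ENNReal.top_rpow_of_pos hp,
    ENNReal.mul_top (ENNReal.ofReal_pos.2 ha).ne'] at h
  exact absurd h (not_le.2 ENNReal.ofReal_lt_top)

theorem term_eq {p a : ℝ} (hp : 0 ≤ p) (ha : 0 ≤ a) {X : ℝ≥0∞} (hX : X ≠ ⊤) :
    ENNReal.ofReal a * X ^ p = ENNReal.ofReal (a * X.toReal ^ p) := by
  rw [ENNReal.ofReal_mul ha, ← ENNReal.ofReal_rpow_of_nonneg ENNReal.toReal_nonneg hp,
    ENNReal.ofReal_toReal hX]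

theorem sum_real {p a ε : ℝ} (hp : 0 < p) (ha : 0 < a) (hε : 0 ≤ ε) {T : Finset ℤ} {X : ℤ → ℝ≥0∞}
    (h : ∑ k ∈ T, ENNReal.ofReal a * X k ^ p ≤ ENNReal.ofReal ε) :
    (∀ k ∈ T, X k < ⊤) ∧ ∑ k ∈ T, a * (X k).toReal ^ p ≤ ε := by
  have h1 : ∀ k ∈ T, X k < ⊤ := fun k hk =>
    lt_top_of_term hp ha ((Finset.single_le_sum (f := fun k => ENNReal.ofReal a * X k ^ p)
      (fun _ _ => bot_le) hk).trans h)
  refine ⟨h1, ?_⟩
  rw [← ENNReal.ofReal_le_ofReal_iff hε, ENNReal.ofReal_sum_of_nonneg fun k _ => by positivity]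
  refine le_trans (le_of_eq ?_) h
  exact Finset.sum_congr rfl fun k hk => (term_eq hp.le ha.le (h1 k hk).ne).symm

theorem norm_lpt_sub (c₁ c₂ s t : ℝ) : ‖lpt c₁ c₂ s - lpt c₁ c₂ t‖ = |s - t| := by
  have h : lpt c₁ c₂ s = lpt c₁ c₂ t + (s - t) • ev 0 := by
    rw [lpt_add]; congr 1; ring
  rw [h, add_sub_cancel_left, norm_smul, Real.norm_eq_abs]
  have : ‖(ev 0 : V)‖ = 1 := by
    apply le_antisymm
    · exact H582.norm_ev_le 0
    · have := norm_le_pi_norm (ev 0 : V) 0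
      simpa [ev] using this
  rw [this, mul_one]

/-- the real form of the data -/
theorem LineData.l1 {Ω Λ : Set V} {p C D c ε : ℝ} {v : V} {nS mt : ℕ} {k₁ k₂ α β : ℤ}
    {G : Finset ℤ} {h g : ConHomeo Ω Λ} {ℓ X : ℤ → ℝ≥0∞} (hp : 1 ≤ p) (hC : 0 < C) (hε : 0 ≤ ε)
    (H : LineData p C D c ε v nS mt k₁ k₂ α β G h g ℓ X) :
    L1 p C D c ε (v 0) (1 / 2 ^ nS) (1 / 2 ^ mt) α β G
      (fun u => h.toFun (lpt (v 1 + k₁ / 2 ^ nS) (v 2 + k₂ / 2 ^ nS) u) 0)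
      (fun u => g.toFun (lpt (v 1 + k₁ / 2 ^ nS) (v 2 + k₂ / 2 ^ nS) u))
      (fun k => (ℓ k).toReal) (fun k => (X k).toReal) := by
  set c₁ := v 1 + k₁ / 2 ^ nS with hc₁
  set c₂ := v 2 + k₂ / 2 ^ nS with hc₂
  set η : ℝ := 1 / 2 ^ nS with hη
  set w : ℝ := 1 / 2 ^ mt with hw
  have hη0 : 0 < η := by positivity
  have hw0 : 0 < w := by positivity
  have hp0 : 0 < p := by linarith
  have hηp : 0 < η ^ (1 - p) := by positivity
  have hαβ : (α : ℝ) < β := by exact_mod_cast H.lt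
  have hlt : v 0 + α * η ≤ v 0 + β * η := by
    have : (α : ℝ) * η ≤ β * η := by gcongr
    linarith
  have hΩ : ∀ u ∈ Icc (v 0 + α * η) (v 0 + β * η), lpt c₁ c₂ u ∈ Ω := by
    intro u hu
    obtain ⟨⟨k, hk⟩, hku⟩ := mem_iUnion.1 (pos_union hη0 le_rfl le_rfl H.lt hu)
    exact H.sub k hk (mem_ledge.2 ⟨u, hku, rfl⟩)
  have hmem : ∀ k ∈ Finset.Ico α β, ∀ u ∈ jv (v 0) η k, lpt c₁ c₂ u ∈ edge v (ledge nS k₁ k₂ k) :=
    fun k _ u hu => mem_ledge.2 ⟨u, hu, rfl⟩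
  have cχ := conical_lpt g hΩ
  have ch := conical_lpt h hΩ
  have cy : ConicalOn (fun u => h.toFun (lpt c₁ c₂ u) 0) (Icc (v 0 + α * η) (v 0 + β * η)) :=
    conical_coord hlt ch 0
  obtain ⟨hXt, hXs⟩ := sum_real hp0 hηp hε H.close
  obtain ⟨hℓt, hℓs⟩ := sum_real hp0 hηp hε H.bad
  have hGI := H.Gsub
  have hℓG : ∀ k ∈ G, ℓ k < ⊤ := fun k hk => lt_of_le_of_lt (H.good k hk)
    (ENNReal.mul_lt_top ENNReal.ofReal_lt_top
      (ENNReal.add_lt_top.2 ⟨ENNReal.ofReal_lt_top, hXt k (hGI hk)⟩))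
  have hℓI : ∀ k ∈ Finset.Ico α β, ℓ k < ⊤ := by
    intro k hk
    by_cases hkG : k ∈ G
    · exact hℓG k hkG
    · exact hℓt k (Finset.mem_sdiff.2 ⟨hk, hkG⟩)
  have hcoord : ∀ z z' : V, |z 0 - z' 0| ≤ ‖z - z'‖ := fun z z' => norm_le_pi_norm (z - z') 0
  refine ⟨hη0, hw0, H.lt, ?_, H.fine, H.mtε, hGI, cy, cχ, fun k => ENNReal.toReal_nonneg,
    fun k => ENNReal.toReal_nonneg, ?_, hXs, ?_, ?_, ?_, ?_, hℓs, ?_⟩
  · have := H.unit
    rw [hη, mul_one_div]; exact this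
  · intro k hk
    rw [ENNReal.ofReal_toReal (hXt k hk).ne]
    refine le_trans (le_of_eq ?_) (H.near k hk)
    unfold xL
    rw [eInt_ledge]
    have hle : v 0 + k * η ≤ v 0 + (k + 1) * η := by nlinarith
    have hsub : jv (v 0) η k ⊆ Icc (v 0 + α * η) (v 0 + β * η) := by
      rw [Finset.mem_Ico] at hk
      have h1 : (α : ℝ) ≤ k := by exact_mod_cast hk.1
      have h2 : (k : ℝ) + 1 ≤ β := by exact_mod_cast hk.2
      rintro u ⟨h3, h4⟩
      constructor <;> nlinarith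
    have chk : ConicalOn (fun u => h.toFun (lpt c₁ c₂ u)) (jv (v 0) η k) :=
      ch.mono (_root_.P073.Convex.conicalSet (convex_Icc _ _)) hsub
    unfold jv at chk ⊢
    rw [← restrict_Ioo_eq_restrict_Icc]
    refine lintegral_congr_ae ((ae_restrict_iff' measurableSet_Ioo).2 ?_)
    filter_upwards [conical_ae_hasDerivAt hle chk] with t ht htk
    have h5 := (hasDerivAt_pi.1 (ht htk) 0).deriv
    rw [h5, deriv_lpt]
  · intro k hk s hs t ht
    refine (hcoord _ _).trans ((H.osc k hk _ (hmem k hk s hs) _ (hmem k hk t ht)).trans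
      (le_of_eq ?_))
    rw [hw]; ring
  · intro u hu
    obtain ⟨⟨k, hk⟩, hku⟩ := mem_iUnion.1 (pos_union hη0 le_rfl le_rfl H.lt hu)
    refine (hcoord _ _).trans ((H.app k hk _ (hmem k hk u hku)).trans (le_of_eq ?_))
    rw [hw]; ring
  · rintro k hk ⟨z, hz⟩
    have h1 := H.tv k hk ⟨z, fun x hx => by
      obtain ⟨u, hu, rfl⟩ := mem_ledge.1 hx
      obtain ⟨h2, h3⟩ := hz u hu
      constructor
      · calc ((z : ℝ) + c) / 2 ^ mt = (z + c) * w := by rw [hw]; ring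
          _ ≤ _ := h2
      · calc h.toFun (lpt c₁ c₂ u) 0 ≤ (z + 1 - c) * w := h3
          _ = _ := by rw [hw]; ring⟩
    rw [tv_ledge, tv_ledge, Finset.sum_singleton] at h1
    refine h1.trans (le_of_eq ?_)
    congr 2
    rw [hη]; ring
  · intro k hk s hs t ht
    have h1 := H.elip k hk (hℓI k hk).ne _ (hmem k hk s hs) _ (hmem k hk t ht)
    rw [norm_lpt_sub] at h1
    refine h1.trans (le_of_eq ?_)
    have e : ((ℓ k).toReal + ε / 2 ^ nS) * 2 ^ nS = ((ℓ k).toReal + ε * η) / η := by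
      rw [hη]; field_simp
    rw [e]
  · intro k hk
    have h1 := H.good k hk
    have h2 := ENNReal.toReal_mono (ENNReal.mul_ne_top ENNReal.ofReal_ne_top
      (ENNReal.add_lt_top.2 ⟨ENNReal.ofReal_lt_top, hXt k (hGI hk)⟩).ne) h1
    rw [ENNReal.toReal_mul, ENNReal.toReal_ofReal hC.le, ENNReal.toReal_add ENNReal.ofReal_ne_top
      (hXt k (hGI hk)).ne, ENNReal.toReal_ofReal hη0.le] at h2
    exact h2

/-- **[LINE-OK]** -/
theorem specLineOK : SpecLineOK := by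
  intro p C D ε₁ hp hC hD hε₁
  obtain ⟨η₁, hη₁, hLM⟩ := exists_LM hp hε₁
  have hp1 : 1 ≤ p := by linarith
  set μ : ℝ := η₁ / 2 with hμd
  have hμ : 0 < μ := by positivity
  set M₀ : ℝ := 3 * (D * (2 * C + 1)) with hM₀
  have hM0 : 0 ≤ M₀ := by positivity
  set K₁ : ℝ := 2 * (6 * D) ^ p with hK₁
  have hK1 : 0 < K₁ := by positivity
  set K₂ : ℝ := (2 * C) ^ p with hK₂
  have hK2 : 0 < K₂ := by positivity
  refine ⟨(M₀ + μ) / μ, by rw [ge_iff_le, one_le_div hμ]; linarith,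
    min (1 / 8) (min η₁ (η₁ / (24 * K₁ * K₂))), by positivity, fun c hc hcc τ hτ => ?_⟩
  have q1 : c ≤ 1 / 8 := hcc.trans (min_le_left _ _)
  have q2 : c ≤ η₁ := hcc.trans ((min_le_right _ _).trans (min_le_left _ _))
  have q3 : c ≤ η₁ / (24 * K₁ * K₂) := hcc.trans ((min_le_right _ _).trans (min_le_right _ _))
  set s : ℝ := min (1 / 2) (min (η₁ / 8) (η₁ / (16 * K₁ * K₂))) with hs
  have s0 : 0 < s := by positivity
  have s1 : s ≤ 1 / 2 := min_le_left _ _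
  have s2 : s ≤ η₁ / 8 := (min_le_right _ _).trans (min_le_left _ _)
  have s3 : s ≤ η₁ / (16 * K₁ * K₂) := (min_le_right _ _).trans (min_le_right _ _)
  set ε : ℝ := min (min 1 (η₁ / 4)) (min (min (η₁ / (8 * D)) (τ / 2))
    (min (s ^ p) (η₁ / (4 * (K₁ * (2 + 3 * K₂)))))) with hε
  have e0 : 0 < ε := by positivity
  have e1 : ε ≤ 1 := (min_le_left _ _).trans (min_le_left _ _)
  have e2 : ε ≤ η₁ / 4 := (min_le_left _ _).trans (min_le_right _ _)
  have e3 : ε ≤ η₁ / (8 * D) :=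
    (min_le_right _ _).trans ((min_le_left _ _).trans (min_le_left _ _))
  have e4 : ε ≤ τ / 2 := (min_le_right _ _).trans ((min_le_left _ _).trans (min_le_right _ _))
  have e5 : ε ≤ s ^ p := (min_le_right _ _).trans ((min_le_right _ _).trans (min_le_left _ _))
  have e6 : ε ≤ η₁ / (4 * (K₁ * (2 + 3 * K₂))) :=
    (min_le_right _ _).trans ((min_le_right _ _).trans (min_le_right _ _))
  refine ⟨ε, e0, fun Ω Λ v nS mt k₁ k₂ α β G h g ℓ X H a b hab ha hb => ?_⟩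
  have L := H.l1 hp1 hC e0.le
  set c₁ := v 1 + k₁ / 2 ^ nS with hc₁
  set c₂ := v 2 + k₂ / 2 ^ nS with hc₂
  set χ : ℝ → V := fun u => g.toFun (lpt c₁ c₂ u) with hχ
  have ha' : v 0 + α * (1 / 2 ^ nS) ≤ a := by
    refine le_trans (le_of_eq ?_) ha
    ring
  have hb' : b ≤ v 0 + β * (1 / 2 ^ nS) := by
    refine hb.trans (le_of_eq ?_)
    ring
  have hσ : ∑ k ∈ Finset.Ico α β, (X k).toReal ≤ 2 * s := by
    refine (L.sumx hp1 s0).trans ?_
    have : s ^ (1 - p) * ε ≤ s := by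
      calc s ^ (1 - p) * ε ≤ s ^ (1 - p) * s ^ p := by gcongr
        _ = s := by rw [← Real.rpow_add s0, sub_add_cancel, Real.rpow_one]
    linarith
  have n1 : 2 * (2 * s) + 4 * (D * ε) ≤ η₁ := by
    have : D * ε ≤ η₁ / 8 := by
      rw [le_div_iff₀ (by positivity)] at e3
      linarith
    linarith
  have n5 : K₁ * (ε + K₂ * (4 * c * (1 + 2 * s) + 4 * c * ε + 2 * (2 * s) + 2 * ε + ε) + ε) ≤
      η₁ := by
    have t1 : K₁ * K₂ * (12 * c) ≤ η₁ / 2 := by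
      rw [le_div_iff₀ (by positivity)] at q3
      linarith
    have t2 : K₁ * K₂ * (4 * s) ≤ η₁ / 4 := by
      rw [le_div_iff₀ (by positivity)] at s3
      linarith
    have t3 : K₁ * (2 + 3 * K₂) * ε ≤ η₁ / 4 := by
      rw [le_div_iff₀ (by positivity)] at e6
      linarith
    have t4 : 4 * c * (1 + 2 * s) + 4 * c * ε ≤ 12 * c := by nlinarith
    have t5 : K₁ * K₂ * (4 * c * (1 + 2 * s) + 4 * c * ε) ≤ K₁ * K₂ * (12 * c) := by
      have : 0 ≤ K₁ * K₂ := by positivity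
      exact mul_le_mul_of_nonneg_left t4 this
    calc K₁ * (ε + K₂ * (4 * c * (1 + 2 * s) + 4 * c * ε + 2 * (2 * s) + 2 * ε + ε) + ε)
        = K₁ * K₂ * (4 * c * (1 + 2 * s) + 4 * c * ε) + K₁ * K₂ * (4 * s) +
            K₁ * (2 + 3 * K₂) * ε := by ring
      _ ≤ η₁ := by linarith
  have HS : SOk M₀ (v 0) (1 / 2 ^ nS) (L1.JJ c (v 0) (1 / 2 ^ nS) (1 / 2 ^ mt) a b α β G
      (fun u => h.toFun (lpt c₁ c₂ u) 0) (fun k => (X k).toReal)) (spd χ) :=
    L.sok hC hD e0.le e1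
  set J := L1.JJ c (v 0) (1 / 2 ^ nS) (1 / 2 ^ mt) a b α β G
      (fun u => h.toFun (lpt c₁ c₂ u) 0) (fun k => (X k).toReal) with hJ
  have hη := L.η0
  have habl : a < b := by linarith
  have hJa : ∀ k ∈ J, a ≤ v 0 + k * (1 / 2 ^ nS) := fun k hk => (L1.mem_JJ.1 hk).2.2.2.2.1
  have hJb : ∀ k ∈ J, v 0 + (k + 1) * (1 / 2 ^ nS) ≤ b := fun k hk =>
    (L1.mem_JJ.1 hk).2.2.2.2.2
  have hder : (fun u => lineDeriv ℝ g.toFun (lpt c₁ c₂ u) (ev 0)) = deriv χ := by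
    funext u
    rw [hχ, deriv_lpt]
  rw [hder]
  refine ⟨dens μ (v 0) (1 / 2 ^ nS) J (spd χ), measurable_dens HS.meas, HS.bounds hη hμ hM0, ?_,
    HS.total hη hμ habl.le hJa hJb, ?_, ?_⟩
  · intro u hu
    refine dens_off fun k hk huk => hu ⟨?_, ?_⟩
    · exact (hJa k hk).trans huk.1.le
    · exact huk.2.le.trans (hJb k hk)
  · intro u hu
    refine (HS.prim_le hη hμ hu.1 hJa).trans ?_
    have := L.fine
    linarith
  · exact L.energy hp hC hD hc (by linarith) e0.le e1 hη₁ hLM hμ hσ n1 (by linarith)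
      (by rw [hμd]; linarith) q2 n5 hab ha' hb'

end Vale.Agent.P073.H253
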