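import Mathlib.Analysis.Calculus.ContDiff.Operations
import Mathlib.Analysis.Calculus.Deriv.Inverse
import Mathlib.Analysis.SpecialFunctions.Integrals.Basic
import Mathlib.MeasureTheory.Integral.IntervalIntegral.FundThmCalculus
import Mathlib.Analysis.Calculus.MeanValue
import Mathlib.MeasureTheory.Function.Jacobian
import Mathlib

/-!
# P073, rank one: the reparametrisation of an interval
-/

namespace Vale.Agent.P073.H253

open MeasureTheory Set Filter Topology Metric
open scoped ContDiff ENNReal

/-- **[ROW1]** -/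
theorem row1 (N : ℕ) (y : ℕ → ℝ) (r : ℝ → ℝ) (ℓ s q : ℝ) (hr : Monotone r)
    (hr' : Monotone fun t => t - r t)
    (h1 : ∑ i ∈ Finset.range N, |y (i + 1) - y i| ≤ ℓ + s) (h2 : ℓ - s ≤ y N - y 0)
    (h3 : r (y N) - r (y 0) ≤ q) :
    ∑ i ∈ Finset.range N, |r (y (i + 1)) - r (y i)| ≤ q + 2 * s := by
  have key : ∀ a b : ℝ, |b - a| = |r b - r a| + |(b - r b) - (a - r a)| := by
    intro a b
    rcases le_total a b with h | h
    · have e1 := hr h
      have e2 := hr' h
      simp only at e2
      rw [abs_of_nonneg (by linarith), abs_of_nonneg (by linarith), abs_of_nonneg (by linarith)]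
      ring
    · have e1 := hr h
      have e2 := hr' h
      simp only at e2
      rw [abs_of_nonpos (by linarith), abs_of_nonpos (by linarith), abs_of_nonpos (by linarith)]
      ring
  have h4 : (y N - r (y N)) - (y 0 - r (y 0)) ≤
      ∑ i ∈ Finset.range N, |(y (i + 1) - r (y (i + 1))) - (y i - r (y i))| := by
    rw [← Finset.sum_range_sub fun i => y i - r (y i)]
    exact Finset.sum_le_sum fun i _ => le_abs_self _
  have h5 : ∑ i ∈ Finset.range N, |y (i + 1) - y i| =
      ∑ i ∈ Finset.range N, |r (y (i + 1)) - r (y i)| +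
        ∑ i ∈ Finset.range N, |(y (i + 1) - r (y (i + 1))) - (y i - r (y i))| := by
    rw [← Finset.sum_add_distrib]
    exact Finset.sum_congr rfl fun i _ => key _ _
  linarith

/-- the smooth change of the parameter with inverse density `r` -/
theorem exists_rep {M τ a b : ℝ} {r : ℝ → ℝ} (hM : 1 ≤ M) (hab : a ≤ b) (hr : ContDiff ℝ ∞ r)
    (hb : ∀ u, 1 / M ≤ r u ∧ r u ≤ M) (h1 : ∀ u, u ∉ Icc a b → r u = 1)
    (hi : ∫ u in a..b, r u = b - a) (hτ : ∀ u, |∫ t in a..u, (r t - 1)| ≤ τ) :
    ∃ ψ σ : ℝ → ℝ, ContDiff ℝ ∞ ψ ∧ StrictMono ψ ∧ (∀ t, σ (ψ t) = t) ∧ (∀ u, ψ (σ u) = u) ∧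
      (∀ t, HasDerivAt ψ (r (ψ t))⁻¹ t) ∧ (∀ u, HasDerivAt σ (r u) u) ∧ StrictMono σ ∧
      (∀ t, t ∉ Icc a b → ψ t = t) ∧ (∀ t, |ψ t - t| ≤ τ) ∧ ∀ u, |σ u - u| ≤ τ := by
  have hM0 : 0 < M := by linarith
  have hpos : ∀ u, 0 < r u := fun u => lt_of_lt_of_le (by positivity) (hb u).1
  have hrc : Continuous r := hr.continuous
  have hrc1 : Continuous fun t => r t - 1 := hrc.sub continuous_const
  set σ : ℝ → ℝ := fun u => u + ∫ t in a..u, (r t - 1) with hσ
  have hder : ∀ u, HasDerivAt σ (r u) u := by
    intro u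
    have := (hasDerivAt_id u).add (hrc1.integral_hasStrictDerivAt a u).hasDerivAt
    have e : (1:ℝ) + (r u - 1) = r u := by ring
    rw [e] at this
    exact this
  have hσd : deriv σ = r := funext fun u => (hder u).deriv
  have hσs : ContDiff ℝ ∞ σ := by
    rw [contDiff_infty_iff_deriv]
    exact ⟨fun u => (hder u).differentiableAt, by rw [hσd]; exact hr⟩
  have hσm : StrictMono σ := strictMono_of_deriv_pos fun u => by rw [hσd]; exact hpos u
  have hσ1 : ∀ u, u ∉ Icc a b → σ u = u := by
    intro u hu
    have hcase : u < a ∨ b < u := by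
      by_contra hcon
      push Not at hcon
      exact hu ⟨hcon.1, hcon.2⟩
    rcases hcase with h | h
    · have e1 : ∫ t in a..u, (r t - 1) = ∫ t in a..u, (0:ℝ) := by
        refine intervalIntegral.integral_congr_ae ?_
        have : ∀ᵐ t : ℝ, t ≠ a := by simp [ae_iff]
        filter_upwards [this] with t hta ht
        rw [uIoc_of_ge h.le] at ht
        rw [h1 t (fun h' => hta (le_antisymm ht.2 h'.1)), sub_self]
      simp only [hσ, e1, intervalIntegral.integral_zero, add_zero]
    · have e0 : ∫ t in a..b, (r t - 1) = 0 := by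
        rw [intervalIntegral.integral_sub (hrc.intervalIntegrable _ _)
          (continuous_const.intervalIntegrable _ _), hi]
        simp
      have e1 : ∫ t in b..u, (r t - 1) = ∫ t in b..u, (0:ℝ) := by
        refine intervalIntegral.integral_congr_ae ?_
        filter_upwards with t ht
        rw [uIoc_of_le h.le] at ht
        rw [h1 t (fun h' => absurd h'.2 (not_le.2 ht.1)), sub_self]
      have e2 : ∫ t in a..u, (r t - 1) = 0 := by
        rw [← intervalIntegral.integral_add_adjacent_intervals
          (hrc1.intervalIntegrable a b) (hrc1.intervalIntegrable b u), e0, e1]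
        simp
      simp only [hσ, e2, add_zero]
  have hbot : Tendsto σ atBot atBot := by
    refine tendsto_id.congr' ?_
    filter_upwards [eventually_lt_atBot a] with u hu
    exact (hσ1 u fun h => absurd h.1 (not_le.2 hu)).symm
  have htop : Tendsto σ atTop atTop := by
    refine tendsto_id.congr' ?_
    filter_upwards [eventually_gt_atTop b] with u hu
    exact (hσ1 u fun h => absurd h.2 (not_le.2 hu)).symm
  have hsurj : Function.Surjective σ := hσs.continuous.surjective htop hbot
  set e : ℝ ≃ₜ ℝ := (hσm.orderIsoOfSurjective σ hsurj).toHomeomorph with he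
  have hee : ∀ u, e u = σ u := fun u => rfl
  have h3 : ContDiff ℝ ∞ e.symm := by
    refine e.contDiff_symm_deriv (f' := r) (fun u => (hpos u).ne') ?_ ?_
    · intro u; exact hder u
    · exact hσs
  have e1 : ∀ t, σ (e.symm t) = t := fun t => e.apply_symm_apply t
  have e2 : ∀ u, e.symm (σ u) = u := fun u => e.symm_apply_apply u
  have hψm : StrictMono e.symm := (hσm.orderIsoOfSurjective σ hsurj).symm.strictMono
  have hψd : ∀ t, |e.symm t - t| ≤ τ := by
    intro t
    have h6 : t - e.symm t = ∫ s in a..(e.symm t), (r s - 1) := by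
      have h7 := e1 t
      simp only [hσ] at h7
      linarith
    rw [abs_sub_comm, h6]
    exact hτ _
  refine ⟨e.symm, σ, h3, hψm, e1, e2, fun t => ?_, hder, hσm, fun t ht => ?_, hψd, fun u => ?_⟩
  · exact (hder (e.symm t)).of_local_left_inverse e.symm.continuous.continuousAt
      (hpos _).ne' (Filter.Eventually.of_forall e1)
  · have := e2 t
    rwa [hσ1 t ht] at this
  · have h7 : σ u - u = ∫ s in a..u, (r s - 1) := by simp only [hσ]; ring
    rw [h7]
    exact hτ u

end Vale.Agent.P073.H253
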