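import Vale.Agent.P073.H253.BeamSpec
import Vale.Agent.P073.H253.Rep1
import Vale.Agent.P073.H732.U1
import Vale.Agent.P073.H16.UncU3

/-!
# P073, rank one: the map which reparametrises the lines of direction `0`
-/

namespace Vale.Agent.P073.H253

open MeasureTheory Set Filter Topology Metric Vale.Agent.P073.LOC Vale.Agent.P073.H235
open Vale.Agent.P073.St (V Mat)
open Vale.Agent.P073.SQ (ev)
open scoped ContDiff ENNReal

/-- a reparametrisation of the line, bi-Lipschitz with constant `M`, displacement `τ` -/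
structure RepD (M τ a b : ℝ) (ψ : ℝ → ℝ) : Prop where
  one : 1 ≤ M
  nn : 0 ≤ τ
  smooth : ContDiff ℝ ∞ ψ
  lo : ∀ t, 1 / M ≤ deriv ψ t
  hi : ∀ t, deriv ψ t ≤ M
  off : ∀ t, t ∉ Icc a b → ψ t = t
  disp : ∀ t, |ψ t - t| ≤ τ

/-- a cut-off function which does not depend on `x 0`, with `m τ ≤ 1` -/
structure Cut (τ : ℝ) (φ : V → ℝ) : Prop where
  smooth : ContDiff ℝ ∞ φ
  nonneg : ∀ x, 0 ≤ φ x
  le_one : ∀ x, φ x ≤ 1
  indep : ∀ x t, φ (Function.update x 0 t) = φ x
  der : ∀ x j, |fderiv ℝ φ x (ev j)| * τ ≤ 1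

/-- the reparametrisation -/
noncomputable def Rm (φ : V → ℝ) (ψ : ℝ → ℝ) (x : V) : V :=
  Function.update x 0 (x 0 + φ x * (ψ (x 0) - x 0))

variable {M τ a b : ℝ} {ψ : ℝ → ℝ} {φ : V → ℝ}

theorem Rm_zero (x : V) : Rm φ ψ x 0 = x 0 + φ x * (ψ (x 0) - x 0) := by simp [Rm]

theorem Rm_ne {i : Fin 3} (hi : i ≠ 0) (x : V) : Rm φ ψ x i = x i := by simp [Rm, hi]

theorem RepD.hasDerivAt (P : RepD M τ a b ψ) (t : ℝ) : HasDerivAt ψ (deriv ψ t) t :=
  (P.smooth.differentiable (by simp) t).hasDerivAt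

theorem Cut.hasFDerivAt (Q : Cut τ φ) (x : V) : HasFDerivAt φ (fderiv ℝ φ x) x :=
  (Q.smooth.differentiable (by simp) x).hasFDerivAt

/-- the coordinate `x 0` -/
noncomputable def pr0 : V →L[ℝ] ℝ := ContinuousLinearMap.proj (R := ℝ) (φ := fun _ : Fin 3 => ℝ) 0

/-- the coordinate `x 1` -/
noncomputable def pr1 : V →L[ℝ] ℝ := ContinuousLinearMap.proj (R := ℝ) (φ := fun _ : Fin 3 => ℝ) 1

theorem pr0_apply (x : V) : pr0 x = x 0 := rfl

theorem pr1_apply (x : V) : pr1 x = x 1 := rfl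

/-- the derivative -/
noncomputable def dR (φ : V → ℝ) (ψ : ℝ → ℝ) (x : V) : V →L[ℝ] V :=
  ContinuousLinearMap.id ℝ V +
    ((φ x) • ((deriv ψ (x 0) - 1) • pr0)
      + (ψ (x 0) - x 0) • fderiv ℝ φ x).smulRight (ev 0)

theorem Rm_eq (φ : V → ℝ) (ψ : ℝ → ℝ) (x : V) :
    Rm φ ψ x = x + (φ x * (ψ (x 0) - x 0)) • ev 0 := by
  funext i
  by_cases hi : i = 0
  · subst hi
    simp [Rm, ev]
  · simp [Rm, ev, hi]

theorem contDiff_Rm (P : RepD M τ a b ψ) (Q : Cut τ φ) : ContDiff ℝ ∞ (Rm φ ψ) := by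
  have h0 : ContDiff ℝ ∞ fun x : V => x 0 := contDiff_apply ℝ ℝ 0
  have h : Rm φ ψ = fun x => x + (φ x * (ψ (x 0) - x 0)) • ev 0 := funext fun x => Rm_eq φ ψ x
  rw [h]
  exact contDiff_id.add ((Q.smooth.mul ((P.smooth.comp h0).sub h0)).smul contDiff_const)

theorem hasFDerivAt_Rm (P : RepD M τ a b ψ) (Q : Cut τ φ) (x : V) :
    HasFDerivAt (Rm φ ψ) (dR φ ψ x) x := by
  have h : Rm φ ψ = fun x => x + (φ x * (ψ (x 0) - x 0)) • ev 0 := funext fun x => Rm_eq φ ψ x
  rw [h]
  have h0 : HasFDerivAt (fun x : V => x 0)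
      pr0 x :=
    pr0.hasFDerivAt
  have h1 : HasFDerivAt (fun x : V => ψ (x 0) - x 0)
      ((deriv ψ (x 0) - 1) • pr0) x := by
    have h2 := (P.hasDerivAt (x 0)).comp_hasFDerivAt x h0
    have h3 := h2.sub h0
    have e : (deriv ψ (x 0) - 1) • pr0 =
        deriv ψ (x 0) • pr0 -
          pr0 := by
      refine ContinuousLinearMap.ext fun v => ?_
      simp only [smul_apply, sub_apply, smul_eq_mul]
      ring
    rw [e]
    exact h3
  have h4 := (Q.hasFDerivAt x).mul h1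
  have h5 := (hasFDerivAt_id x).add (h4.smul_const (ev 0))
  exact h5

theorem dR_zero (Q : Cut τ φ) (x : V) :
    dR φ ψ x (ev 0) = (1 + φ x * (deriv ψ (x 0) - 1)) • ev 0 := by
  have h0 : fderiv ℝ φ x (ev 0) = 0 := by
    have h1 : HasDerivAt (fun t : ℝ => φ (x + t • ev 0)) (fderiv ℝ φ x (ev 0)) 0 := by
      have h2 : HasDerivAt (fun t : ℝ => x + t • ev 0) (ev 0) 0 := by
        simpa using ((hasDerivAt_id (0:ℝ)).smul_const (ev 0)).const_add x
      have h3 : HasFDerivAt φ (fderiv ℝ φ x) (x + (0:ℝ) • ev 0) := by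
        simpa using Q.hasFDerivAt x
      exact h3.comp_hasDerivAt 0 h2
    have h4 : (fun t : ℝ => φ (x + t • ev 0)) = fun _ => φ x := by
      funext t
      have : x + t • ev 0 = Function.update x 0 (x 0 + t) := by
        funext i
        by_cases hi : i = 0
        · subst hi; simp [ev]
        · simp [ev, hi]
      rw [this, Q.indep]
    rw [h4] at h1
    exact h1.unique (hasDerivAt_const _ _)
  unfold dR
  simp only [add_apply, ContinuousLinearMap.id_apply,
    ContinuousLinearMap.smulRight_apply, smul_apply, h0,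
    pr0_apply, smul_eq_mul, mul_zero, add_zero]
  have : (ev 0 : V) 0 = 1 := by simp [ev]
  rw [this, mul_one, add_smul, one_smul]

theorem dR_ne (x : V) {j : Fin 3} (hj : j ≠ 0) :
    dR φ ψ x (ev j) = ev j + ((ψ (x 0) - x 0) * fderiv ℝ φ x (ev j)) • ev 0 := by
  unfold dR
  simp only [add_apply, ContinuousLinearMap.id_apply,
    ContinuousLinearMap.smulRight_apply, smul_apply,
    pr0_apply, smul_eq_mul]
  have : (ev j : V) 0 = 0 := by simp [ev, hj.symm]
  rw [this]
  congr 2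
  ring

theorem coef_bd (P : RepD M τ a b ψ) (Q : Cut τ φ) (x : V) :
    1 / M ≤ 1 + φ x * (deriv ψ (x 0) - 1) ∧ 1 + φ x * (deriv ψ (x 0) - 1) ≤ M := by
  have h1 := P.lo (x 0)
  have h2 := P.hi (x 0)
  have h3 := Q.nonneg x
  have h4 := Q.le_one x
  have hM := P.one
  have h5 : 1 / M ≤ 1 := by rw [div_le_one (by linarith)]; exact hM
  constructor
  · nlinarith
  · nlinarith

theorem det_dR (Q : Cut τ φ) (x : V) : (dR φ ψ x).det = 1 + φ x * (deriv ψ (x 0) - 1) := by
  show LinearMap.det ((dR φ ψ x : V →L[ℝ] V) : V →ₗ[ℝ] V) = _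
  rw [← LinearMap.det_toMatrix']
  have hA : ∀ i j, LinearMap.toMatrix' ((dR φ ψ x : V →L[ℝ] V) : V →ₗ[ℝ] V) i j =
      dR φ ψ x (ev j) i := by
    intro i j
    rw [LinearMap.toMatrix'_apply]
    rfl
  rw [Matrix.det_fin_three]
  simp only [hA]
  rw [dR_zero Q, dR_ne x (show (1 : Fin 3) ≠ 0 by decide), dR_ne x (show (2 : Fin 3) ≠ 0 by decide)]
  simp [ev]

theorem strictMono_line (P : RepD M τ a b ψ) {c : ℝ} (h0 : 0 ≤ c) (h1 : c ≤ 1) :
    StrictMono fun t => t + c * (ψ t - t) := by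
  refine strictMono_of_deriv_pos fun t => ?_
  have h := (hasDerivAt_id t).add (((P.hasDerivAt t).sub (hasDerivAt_id t)).const_mul c)
  have h' : HasDerivAt (fun t => t + c * (ψ t - t)) (1 + c * (deriv ψ t - 1)) t := h
  rw [h'.deriv]
  have h2 := P.lo t
  have hM := P.one
  have h3 : 0 < 1 / M := by positivity
  rcases h0.eq_or_lt with h | h
  · rw [← h]; norm_num
  · nlinarith

theorem surjective_line (P : RepD M τ a b ψ) {c : ℝ} (h0 : 0 ≤ c) (h1 : c ≤ 1) :
    Function.Surjective fun t => t + c * (ψ t - t) := by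
  have hc : Continuous fun t => t + c * (ψ t - t) :=
    continuous_id.add ((P.smooth.continuous.sub continuous_id).const_mul c)
  have hb : ∀ t, |c * (ψ t - t)| ≤ τ := by
    intro t
    rw [abs_mul, abs_of_nonneg h0]
    have := P.disp t
    have := abs_nonneg (ψ t - t)
    nlinarith
  refine hc.surjective ?_ ?_
  · have h : Tendsto (fun t : ℝ => t + (-τ)) atTop atTop :=
      tendsto_atTop_add_const_right _ _ tendsto_id
    refine tendsto_atTop_mono (fun t => ?_) h
    have := (abs_le.1 (hb t)).1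
    linarith
  · have h : Tendsto (fun t : ℝ => t + τ) atBot atBot :=
      tendsto_atBot_add_const_right _ _ tendsto_id
    refine tendsto_atBot_mono (fun t => ?_) h
    have := (abs_le.1 (hb t)).2
    linarith

theorem injective_Rm (P : RepD M τ a b ψ) (Q : Cut τ φ) : Function.Injective (Rm φ ψ) := by
  intro x y hxy
  have h1 : y = Function.update x 0 (y 0) := by
    funext i
    by_cases h : i = 0
    · subst h; simp
    · rw [Function.update_of_ne h, ← Rm_ne (φ := φ) (ψ := ψ) h y, ← hxy, Rm_ne h]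
  have h2 : φ y = φ x := by rw [h1, Q.indep]
  have h3 := congrFun hxy 0
  rw [Rm_zero, Rm_zero, h2] at h3
  have h4 := (strictMono_line P (Q.nonneg x) (Q.le_one x)).injective h3
  rw [h1, ← h4, Function.update_eq_self]

theorem surjective_Rm (P : RepD M τ a b ψ) (Q : Cut τ φ) : Function.Surjective (Rm φ ψ) := by
  intro y
  obtain ⟨t, ht⟩ := surjective_line P (Q.nonneg y) (Q.le_one y) (y 0)
  refine ⟨Function.update y 0 t, ?_⟩
  funext i
  by_cases h : i = 0
  · subst h
    rw [Rm_zero, Q.indep]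
    simpa using ht
  · rw [Rm_ne h, Function.update_of_ne h]

theorem inj_dR (P : RepD M τ a b ψ) (Q : Cut τ φ) (x v : V) (h : dR φ ψ x v = 0) : v = 0 := by
  have h1 : (dR φ ψ x).det ≠ 0 := by
    rw [det_dR Q]
    have h2 := (coef_bd P Q x).1
    have hM := P.one
    have : 0 < 1 / M := by positivity
    exact (lt_of_lt_of_le this h2).ne'
  have h2 : Function.Injective (dR φ ψ x) :=
    (LinearMap.equivOfDetNeZero ((dR φ ψ x : V →L[ℝ] V) : V →ₗ[ℝ] V) h1).injective
  exact h2 (by rw [h, map_zero])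

theorem mem_Rm (P : RepD M τ a b ψ) (Q : Cut τ φ) {s : V} (ha : 0 < a) (hb : b < s 0)
    (hab : a ≤ b) (x : V) : x ∈ Bx s ↔ Rm φ ψ x ∈ Bx s := by
  have hm := strictMono_line P (Q.nonneg x) (Q.le_one x)
  have e0 : (0:ℝ) + φ x * (ψ 0 - 0) = 0 := by
    rw [P.off 0 (fun h => absurd h.1 (not_le.2 ha))]; ring
  have e1 : s 0 + φ x * (ψ (s 0) - s 0) = s 0 := by
    rw [P.off (s 0) (fun h => absurd h.2 (not_le.2 hb))]; ring
  have key : (0 < x 0 ∧ x 0 < s 0) ↔ (0 < Rm φ ψ x 0 ∧ Rm φ ψ x 0 < s 0) := by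
    rw [Rm_zero]
    constructor
    · rintro ⟨h1, h2⟩
      have h3 := hm h1
      have h4 := hm h2
      simp only [e0, e1] at h3 h4
      exact ⟨h3, h4⟩
    · rintro ⟨h1, h2⟩
      constructor
      · rw [← hm.lt_iff_lt]
        simp only [e0]
        exact h1
      · rw [← hm.lt_iff_lt]
        simp only [e1]
        exact h2
  constructor
  · intro h i
    by_cases hi : i = 0
    · subst hi; exact key.1 (h 0)
    · rw [Rm_ne hi]; exact h i
  · intro h i
    by_cases hi : i = 0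
    · subst hi; exact key.2 (h 0)
    · have := h i
      rwa [Rm_ne hi] at this

theorem fderiv_Rm (P : RepD M τ a b ψ) (Q : Cut τ φ) (x : V) :
    fderiv ℝ (Rm φ ψ) x = dR φ ψ x := (hasFDerivAt_Rm P Q x).fderiv

theorem isDiffeo_Rm (P : RepD M τ a b ψ) (Q : Cut τ φ) {s : V} (ha : 0 < a) (hb : b < s 0)
    (hab : a ≤ b) : St.IsDiffeo (Bx s) (Bx s) (Rm φ ψ) := by
  obtain ⟨t, ht, ht1, ht2⟩ := H732.exists_inv (contDiff_Rm P Q)
    ⟨injective_Rm P Q, surjective_Rm P Q⟩ (fun x v h => by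
      rw [fderiv_Rm P Q] at h
      exact inj_dR P Q x v h)
  refine ⟨t, ⟨fun x hx => ⟨(mem_Rm P Q ha hb hab x).1 hx, ht1 x⟩, fun y hy => ⟨?_, ht2 y⟩⟩,
    fun i => ?_, fun i => ?_⟩
  · rw [mem_Rm P Q ha hb hab, ht2]
    exact hy
  · exact (contDiff_pi.1 (contDiff_Rm P Q) i).contDiffOn
  · exact (contDiff_pi.1 ht i).contDiffOn

theorem norm_Rm_sub (P : RepD M τ a b ψ) (Q : Cut τ φ) (x : V) : ‖Rm φ ψ x - x‖ ≤ τ := by
  rw [pi_norm_le_iff_of_nonneg P.nn]
  intro i
  rw [Pi.sub_apply, Real.norm_eq_abs]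
  by_cases hi : i = 0
  · subst hi
    rw [Rm_zero, add_sub_cancel_left, abs_mul, abs_of_nonneg (Q.nonneg x)]
    have := P.disp (x 0)
    have := abs_nonneg (ψ (x 0) - x 0)
    have := Q.nonneg x
    have := Q.le_one x
    nlinarith
  · rw [Rm_ne hi, sub_self, abs_zero]
    exact P.nn

/-! ### energies -/

/-- the constant -/
noncomputable def KR (p M : ℝ) : ℝ := 2 ^ p + 3 * (2 ^ p * M ^ p)

theorem KR_pos {p M : ℝ} (hM : 0 ≤ M) : 0 < KR p M := by unfold KR; positivity

/-- pointwise inequality -/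
theorem re_Rm_le {p : ℝ} (hp : 0 ≤ p) (P : RepD M τ a b ψ) (Q : Cut τ φ) {g : V → V} {x : V}
    (hg : DifferentiableAt ℝ g (Rm φ ψ x)) (J : Finset (Fin 3)) (hJ : 0 ∈ J) :
    ∑ j ∈ J, ENNReal.ofReal (‖fderiv ℝ (fun x => g (Rm φ ψ x)) x (ev j)‖ ^ p) ≤
      ENNReal.ofReal (KR p M) * ∑ j ∈ J, ENNReal.ofReal (‖fderiv ℝ g (Rm φ ψ x) (ev j)‖ ^ p) := by
  set y := Rm φ ψ x with hy
  set B : Fin 3 → ℝ := fun j => ‖fderiv ℝ g y (ev j)‖ with hB
  have hB0 : ∀ j, 0 ≤ B j := fun j => norm_nonneg _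
  have hM := P.one
  have hcomp : ∀ v, fderiv ℝ (fun x => g (Rm φ ψ x)) x v = fderiv ℝ g y (dR φ ψ x v) := by
    intro v
    have h1 := (hg.hasFDerivAt.comp x (hasFDerivAt_Rm P Q x)).fderiv
    have e : fderiv ℝ (fun x => g (Rm φ ψ x)) x = fderiv ℝ (g ∘ Rm φ ψ) x := rfl
    rw [e, h1]
    rfl
  have hj : ∀ j, ‖fderiv ℝ (fun x => g (Rm φ ψ x)) x (ev j)‖ ^ p ≤
      2 ^ p * (B j ^ p + M ^ p * B 0 ^ p) := by
    intro j
    rw [hcomp, ← Real.mul_rpow (by linarith) (hB0 0)]
    refine le_trans ?_ (H16.add_rpow_le (hB0 j) (mul_nonneg (by linarith) (hB0 0)) hp)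
    refine Real.rpow_le_rpow (norm_nonneg _) ?_ hp
    by_cases h : j = 0
    · subst h
      rw [dR_zero Q, map_smul, norm_smul, Real.norm_eq_abs]
      have h1 := coef_bd P Q x
      have h2 : 0 < 1 / M := by positivity
      rw [abs_of_pos (lt_of_lt_of_le h2 h1.1)]
      have := mul_le_mul_of_nonneg_right h1.2 (hB0 0)
      have := hB0 0
      simp only [hB] at *
      linarith
    · rw [dR_ne x h, map_add, map_smul]
      refine (norm_add_le _ _).trans ?_
      rw [norm_smul, Real.norm_eq_abs, abs_mul]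
      have h1 := P.disp (x 0)
      have h2 := Q.der x j
      have h3 : |ψ (x 0) - x 0| * |fderiv ℝ φ x (ev j)| ≤ 1 := by
        refine le_trans ?_ h2
        rw [mul_comm]
        gcongr
      have h4 := mul_le_mul_of_nonneg_right h3 (hB0 0)
      have h5 := mul_le_mul_of_nonneg_right hM (hB0 0)
      simp only [hB] at *
      linarith
  have hsum : ∑ j ∈ J, ‖fderiv ℝ (fun x => g (Rm φ ψ x)) x (ev j)‖ ^ p ≤
      KR p M * ∑ j ∈ J, B j ^ p := by
    have hBp : ∀ j, 0 ≤ B j ^ p := fun j => Real.rpow_nonneg (hB0 j) p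
    have h0 : B 0 ^ p ≤ ∑ j ∈ J, B j ^ p :=
      Finset.single_le_sum (f := fun j => B j ^ p) (fun i _ => hBp i) hJ
    have hc : (J.card : ℝ) ≤ 3 := by
      have := Finset.card_le_univ J
      rw [Fintype.card_fin] at this
      exact_mod_cast this
    have hS0 : 0 ≤ ∑ j ∈ J, B j ^ p := Finset.sum_nonneg fun j _ => hBp j
    calc _ ≤ ∑ j ∈ J, 2 ^ p * (B j ^ p + M ^ p * B 0 ^ p) := Finset.sum_le_sum fun j _ => hj j
      _ = 2 ^ p * ∑ j ∈ J, B j ^ p + J.card * (2 ^ p * M ^ p * B 0 ^ p) := by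
          rw [← Finset.mul_sum, Finset.sum_add_distrib, Finset.sum_const, nsmul_eq_mul]
          ring
      _ ≤ 2 ^ p * ∑ j ∈ J, B j ^ p + 3 * (2 ^ p * M ^ p * ∑ j ∈ J, B j ^ p) := by
          have : 0 ≤ 2 ^ p * M ^ p * B 0 ^ p := by positivity
          gcongr
      _ = _ := by unfold KR; ring
  rw [← ENNReal.ofReal_sum_of_nonneg fun j _ => Real.rpow_nonneg (norm_nonneg _) _,
    ← ENNReal.ofReal_sum_of_nonneg fun j _ => Real.rpow_nonneg (norm_nonneg _) _,
    ← ENNReal.ofReal_mul (KR_pos (by linarith)).le]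
  exact ENNReal.ofReal_le_ofReal hsum

/-- change of variables -/
theorem lintegral_Rm_le (P : RepD M τ a b ψ) (Q : Cut τ φ) {S T : Set V} (hS : MeasurableSet S)
    (hST : MapsTo (Rm φ ψ) S T) (H : V → ℝ≥0∞) :
    ∫⁻ x in S, H (Rm φ ψ x) ≤ ENNReal.ofReal M * ∫⁻ y in T, H y := by
  have hM := P.one
  have h1 := lintegral_image_eq_lintegral_abs_det_fderiv_mul volume hS
    (fun x _ => (hasFDerivAt_Rm P Q x).hasFDerivWithinAt) (injective_Rm P Q).injOn H
  calc ∫⁻ x in S, H (Rm φ ψ x)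
      ≤ ∫⁻ x in S, ENNReal.ofReal M * (ENNReal.ofReal |(dR φ ψ x).det| * H (Rm φ ψ x)) := by
        refine lintegral_mono fun x => ?_
        rw [← mul_assoc, ← ENNReal.ofReal_mul (by linarith)]
        have h2 := (coef_bd P Q x).1
        have h3 : 1 ≤ M * |(dR φ ψ x).det| := by
          rw [det_dR Q, abs_of_pos (lt_of_lt_of_le (by positivity) h2)]
          have h4 : M * (1 / M) = 1 := by field_simp
          calc (1:ℝ) = M * (1 / M) := h4.symm
            _ ≤ _ := by gcongr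
        calc H (Rm φ ψ x) = 1 * H (Rm φ ψ x) := (one_mul _).symm
          _ ≤ _ := by
              gcongr
              rw [← ENNReal.ofReal_one]
              exact ENNReal.ofReal_le_ofReal h3
    _ = ENNReal.ofReal M * ∫⁻ y in Rm φ ψ '' S, H y := by
        rw [lintegral_const_mul' _ _ ENNReal.ofReal_ne_top, h1]
    _ ≤ _ := by
        gcongr
        exact hST.image_subset

theorem measurable_fd (g : V → V) (p : ℝ) (j : Fin 3) :
    Measurable fun x => ENNReal.ofReal (‖fderiv ℝ g x (ev j)‖ ^ p) :=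
  ((measurable_fderiv_apply_const ℝ g (ev j)).norm.pow_const p).ennreal_ofReal

/-- **energy of the reparametrised map** -/
theorem En_Rm_le {p : ℝ} (hp : 0 ≤ p) (P : RepD M τ a b ψ) (Q : Cut τ φ) {g : V → V} {S T : Set V}
    (hS : MeasurableSet S) (hg : ∀ x ∈ S, DifferentiableAt ℝ g (Rm φ ψ x))
    (hST : MapsTo (Rm φ ψ) S T) :
    En p (fun x => g (Rm φ ψ x)) Finset.univ S ≤
      ENNReal.ofReal (KR p M * M) * En p g Finset.univ T := by
  have hM := P.one
  unfold En
  rw [← lintegral_finsetSum _ fun j _ => measurable_fd _ p j,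
    ← lintegral_finsetSum _ fun j _ => measurable_fd g p j]
  calc ∫⁻ x in S, ∑ j, ENNReal.ofReal (‖fderiv ℝ (fun x => g (Rm φ ψ x)) x (ev j)‖ ^ p)
      ≤ ∫⁻ x in S, ENNReal.ofReal (KR p M) *
          ∑ j, ENNReal.ofReal (‖fderiv ℝ g (Rm φ ψ x) (ev j)‖ ^ p) := by
        refine setLIntegral_mono' hS fun x hx => ?_
        exact re_Rm_le hp P Q (hg x hx) Finset.univ (Finset.mem_univ 0)
    _ = ENNReal.ofReal (KR p M) *
          ∫⁻ x in S, ∑ j, ENNReal.ofReal (‖fderiv ℝ g (Rm φ ψ x) (ev j)‖ ^ p) := by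
        rw [lintegral_const_mul' _ _ ENNReal.ofReal_ne_top]
    _ ≤ ENNReal.ofReal (KR p M) * (ENNReal.ofReal M *
          ∫⁻ y in T, ∑ j, ENNReal.ofReal (‖fderiv ℝ g y (ev j)‖ ^ p)) := by
        gcongr
        exact lintegral_Rm_le P Q hS hST
          (fun y => ∑ j, ENNReal.ofReal (‖fderiv ℝ g y (ev j)‖ ^ p))
    _ = _ := by rw [ENNReal.ofReal_mul (KR_pos (by linarith)).le, mul_assoc]

/-- the cut-off function of a slice -/
theorem Cut.slice (Q : Cut τ φ) (c : ℝ) : Cut τ fun x => φ (Function.update x 1 c) where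
  smooth := by
    have h : ContDiff ℝ ∞ fun x : V => Function.update x 1 c := by
      rw [contDiff_pi]
      intro i
      by_cases hi : i = 1
      · subst hi
        simp only [Function.update_self]
        exact contDiff_const
      · simp only [Function.update_of_ne hi]
        exact contDiff_apply ℝ ℝ i
    exact Q.smooth.comp h
  nonneg := fun x => Q.nonneg _
  le_one := fun x => Q.le_one _
  indep := by
    intro x t
    rw [Function.update_comm (by decide), Q.indep]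
  der := by
    intro x j
    have h1 : HasFDerivAt (fun x : V => Function.update x 1 c)
        (ContinuousLinearMap.id ℝ V - pr1.smulRight (ev 1)) x := by
      have e : (fun x : V => Function.update x 1 c) = fun x => (x - (x 1) • ev 1) + c • ev 1 := by
        funext x i
        by_cases hi : i = 1
        · subst hi; simp [ev]
        · simp [ev, hi]
      rw [e]
      have h0 : HasFDerivAt (fun x : V => x 1)
          pr1 x :=
        pr1.hasFDerivAt
      exact ((hasFDerivAt_id x).sub (h0.smul_const (ev 1))).add_const _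
    have h2 := ((Q.hasFDerivAt (Function.update x 1 c)).comp x h1).fderiv
    have e : fderiv ℝ (fun x : V => φ (Function.update x 1 c)) x =
        fderiv ℝ (φ ∘ fun x : V => Function.update x 1 c) x := rfl
    rw [e, h2]
    have h3 : (ContinuousLinearMap.id ℝ V - pr1.smulRight (ev 1)) (ev j) = if j = 1 then 0 else ev j := by
      by_cases hj : j = 1
      · subst hj
        simp [ev, pr1_apply]
      · rw [if_neg hj]
        funext i
        simp [ev, pr1_apply, Ne.symm hj]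
    rw [ContinuousLinearMap.comp_apply, h3]
    split_ifs
    · simp
    · exact Q.der _ _

theorem Rm_slice (c : ℝ) (x : V) : Rm φ ψ (Function.update x 1 c) =
    Function.update (Rm (fun x => φ (Function.update x 1 c)) ψ x) 1 c := by
  funext i
  fin_cases i <;> simp [Rm]

theorem measurable_fd2 (g : V → V) (p c : ℝ) (j : Fin 3) :
    Measurable fun x : V => ENNReal.ofReal (‖fderiv ℝ g (Function.update x 1 c) (ev j)‖ ^ p) :=
  (measurable_fd g p j).comp (SQ.measurable_upd 1 c)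

/-- **energy of the reparametrised map on a slice** -/
theorem En2_Rm_le {p : ℝ} (hp : 0 ≤ p) (P : RepD M τ a b ψ) (Q : Cut τ φ) {g : V → V} {c : ℝ}
    {S T : Set V} (hS : MeasurableSet S)
    (hg : ∀ x ∈ S, DifferentiableAt ℝ g (Rm φ ψ (Function.update x 1 c)))
    (hST : MapsTo (Rm (fun x => φ (Function.update x 1 c)) ψ) S T) :
    En2 p (fun x => g (Rm φ ψ x)) (Finset.univ.erase 1) 1 c S ≤
      ENNReal.ofReal (KR p M * M) * En2 p g (Finset.univ.erase 1) 1 c T := by
  have hM := P.one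
  unfold En2
  rw [← lintegral_finsetSum _ fun j _ => measurable_fd2 _ p c j,
    ← lintegral_finsetSum _ fun j _ => measurable_fd2 g p c j]
  calc ∫⁻ x in S, ∑ j ∈ Finset.univ.erase (1 : Fin 3), ENNReal.ofReal
          (‖fderiv ℝ (fun x => g (Rm φ ψ x)) (Function.update x 1 c) (ev j)‖ ^ p)
      ≤ ∫⁻ x in S, ENNReal.ofReal (KR p M) * ∑ j ∈ Finset.univ.erase (1 : Fin 3),
          ENNReal.ofReal (‖fderiv ℝ g (Rm φ ψ (Function.update x 1 c)) (ev j)‖ ^ p) := by
        refine setLIntegral_mono' hS fun x hx => ?_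
        exact re_Rm_le hp P Q (hg x hx) _ (by simp)
    _ = ENNReal.ofReal (KR p M) * ∫⁻ x in S, ∑ j ∈ Finset.univ.erase (1 : Fin 3),
          ENNReal.ofReal (‖fderiv ℝ g (Function.update
            (Rm (fun x => φ (Function.update x 1 c)) ψ x) 1 c) (ev j)‖ ^ p) := by
        rw [lintegral_const_mul' _ _ ENNReal.ofReal_ne_top]
        simp only [Rm_slice]
    _ ≤ ENNReal.ofReal (KR p M) * (ENNReal.ofReal M *
          ∫⁻ y in T, ∑ j ∈ Finset.univ.erase (1 : Fin 3),
            ENNReal.ofReal (‖fderiv ℝ g (Function.update y 1 c) (ev j)‖ ^ p)) := by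
        gcongr
        exact lintegral_Rm_le P (Q.slice c) hS hST
          (fun y => ∑ j ∈ Finset.univ.erase (1 : Fin 3),
            ENNReal.ofReal (‖fderiv ℝ g (Function.update y 1 c) (ev j)‖ ^ p))
    _ = _ := by rw [ENNReal.ofReal_mul (KR_pos (by linarith)).le, mul_assoc]

end Vale.Agent.P073.H253
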