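import Vale.Agent.P073.H253.Rep2
import Vale.Agent.P073.H253.R1Spec
import Vale.Agent.P073.H582.ConC6
import Vale.Agent.P073.H732.C3

/-!
# P073, rank one: reparametrisation of the line and shift (`SpecRP`)
-/

namespace Vale.Agent.P073.H253

open MeasureTheory Set Filter Topology Metric Vale.Agent.P073.LOC Vale.Agent.P073.H235
open Vale.Agent.P073.St (V Mat)
open Vale.Agent.P073.SQ (ev)
open Vale.Agent.P073.H582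
open scoped ContDiff ENNReal

theorem fr_shift' {a x y : V} {ν ν' t : ℝ} {J : Finset (Fin 3)} (hx : x ∈ Fr a ν J)
    (h : ∀ i ∈ J, |y i - x i| ≤ t) (ht : ∀ i ∈ J, t ≤ (ν' - ν) * a i) : y ∈ Fr a ν' J := by
  obtain ⟨i, hi, h1⟩ := hx
  refine ⟨i, hi, ?_⟩
  have h3 := abs_le.1 (h i hi)
  have h4 := ht i hi
  rcases h1 with h1 | h1
  · left; linarith
  · right; linarith

theorem Bx_one_eq : Bx (1 : V) = Set.pi univ fun _ : Fin 3 => Ioo (0:ℝ) 1 := by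
  ext x
  simp [Bx, Set.mem_pi]

/-- integrals of functions of the first coordinate -/
theorem lintegral_coord0 {F : ℝ → ℝ≥0∞} (hF : Measurable F) (ν : ℝ) :
    ∫⁻ x in Bx (1 : V) ∩ Co 1 ν {0}, F (x 0) ≤ ∫⁻ t in Icc (ν / 4) (1 - ν / 4), F t := by
  have hm : MeasurableSet (Icc (ν / 4) (1 - ν / 4)) := measurableSet_Icc
  have h1 : Bx (1 : V) ∩ Co 1 ν {0} ⊆ (fun x : V => x 0) ⁻¹' (Icc (ν / 4) (1 - ν / 4)) ∩ Bx 1 := by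
    rintro x ⟨hx, hc⟩
    have h0 := hc 0 (by simp)
    simp only [Pi.one_apply, mul_one] at h0
    exact ⟨h0, hx⟩
  refine (lintegral_mono_set h1).trans ?_
  rw [← lintegral_indicator hm]
  have h2 : ∫⁻ x in (fun x : V => x 0) ⁻¹' (Icc (ν / 4) (1 - ν / 4)) ∩ Bx 1, F (x 0) =
      ∫⁻ x in Bx (1 : V), (Icc (ν / 4) (1 - ν / 4)).indicator F (x 0) := by
    rw [inter_comm, ← Measure.restrict_restrict_of_subset (s := Bx (1 : V)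
      ∩ (fun x : V => x 0) ⁻¹' (Icc (ν / 4) (1 - ν / 4))) (t := Bx 1) inter_subset_left]
    rw [← lintegral_indicator (((measurableSet_bx 1)).inter (hm.preimage (measurable_pi_apply 0)))]
    refine setLIntegral_congr_fun (measurableSet_bx 1) fun x hx => ?_
    by_cases h : x 0 ∈ Icc (ν / 4) (1 - ν / 4)
    · rw [indicator_of_mem (show x ∈ Bx (1:V) ∩ (fun x : V => x 0) ⁻¹' (Icc (ν / 4) (1 - ν / 4))
        from ⟨hx, h⟩), indicator_of_mem h]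
    · rw [indicator_of_notMem (fun h' => h h'.2), indicator_of_notMem h]
  rw [h2]
  have hvol : (volume : Measure V).restrict (Bx 1) =
      Measure.pi fun _ : Fin 3 => (volume : Measure ℝ).restrict (Ioo 0 1) := by
    rw [Bx_one_eq, volume_pi, Measure.restrict_pi_pi]
  rw [hvol]
  have hprob : IsProbabilityMeasure ((volume : Measure ℝ).restrict (Ioo 0 1)) :=
    ⟨by simp⟩
  have hmp := measurePreserving_eval (fun _ : Fin 3 => (volume : Measure ℝ).restrict (Ioo 0 1)) 0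
  have h3 := hmp.lintegral_comp (hF.indicator hm)
  calc _ = ∫⁻ t in Ioo 0 1, (Icc (ν / 4) (1 - ν / 4)).indicator F t := h3
    _ ≤ _ := setLIntegral_le_lintegral _ _

theorem lpt_zero (c₁ c₂ u : ℝ) : lpt c₁ c₂ u 0 = u := rfl
theorem lpt_one (c₁ c₂ u : ℝ) : lpt c₁ c₂ u 1 = c₁ := rfl
theorem lpt_two (c₁ c₂ u : ℝ) : lpt c₁ c₂ u 2 = c₂ := rfl

theorem continuous_lpt (c₁ c₂ : ℝ) : Continuous (lpt c₁ c₂) := by
  refine continuous_pi fun i => ?_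
  fin_cases i
  · exact continuous_id
  · exact continuous_const
  · exact continuous_const

theorem update_update_eq (c₁ c₂ : ℝ) (x : V) :
    Function.update (Function.update x 1 c₁) 2 c₂ = lpt c₁ c₂ (x 0) := by
  funext i
  fin_cases i <;> simp [lpt]

theorem Rm_lpt {φ : V → ℝ} {ψ : ℝ → ℝ} {c₁ c₂ t : ℝ} (h : φ (lpt c₁ c₂ t) = 1) :
    Rm φ ψ (lpt c₁ c₂ t) = lpt c₁ c₂ (ψ t) := by
  funext i
  fin_cases i
  · show Rm φ ψ (lpt c₁ c₂ t) 0 = _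
    rw [Rm_zero, h]
    simp [lpt]
  · simp [Rm, lpt]
  · simp [Rm, lpt]


/-- the parameters -/
structure Dat (M θ₁ θ₂ ν₁ ν τ c₁ c₂ : ℝ) (φ : V → ℝ) (ψ : ℝ → ℝ) : Prop where
  hθ₁ : 0 < θ₁
  hθ₂ : 0 < θ₂
  hν₁ : 0 < ν₁
  hν : 0 < ν
  hν₁ν : ν₁ ≤ ν / 4
  hν4 : ν ≤ 1 / 4
  t1 : τ ≤ θ₁ / 2
  t2 : τ ≤ θ₂ / 2
  t3 : τ ≤ ν₁ * θ₂ / 8
  t4 : τ ≤ ν₁ / 32
  hc₁ : |c₁ - θ₁| ≤ τ
  hc₂ : |c₂ - θ₂| ≤ τ
  P : RepD M τ (ν / 8 - ν / 16) (1 - ν / 8 + ν / 16) ψ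
  Q : Cut τ φ
  one : ∀ t, φ (lpt c₁ c₂ t) = 1
  zero : ∀ x : V, (∃ i, i ≠ 0 ∧ (x i ≤ 1 / 8 * bm θ₁ θ₂ i ∨ 7 / 8 * bm θ₁ θ₂ i ≤ x i)) → φ x = 0

/-- the result of the reparametrisation -/
structure Mid (p C θ₁ θ₂ ν₁ ν ε c₁ c₂ : ℝ) (L : V →L[ℝ] V) (Λ : Set V) (f g : V → V) : Prop where
  diffeo : St.IsDiffeo (Bx (bm θ₁ θ₂)) Λ g
  close : BdClose (Bx (bm θ₁ θ₂)) (cmp (bm θ₁ θ₂) f) g
  bulk : En p g Finset.univ (Bx (bm θ₁ θ₂)) ≤ ENNReal.ofReal (C * θ₁ * θ₂)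
  frame : En p g Finset.univ (Bx (bm θ₁ θ₂) ∩ Fr (bm θ₁ θ₂) (3 / 2 * ν₁) {0, 2}) ≤
    ENNReal.ofReal (C * ν₁ * θ₁ * θ₂)
  pl : En2 p g (Finset.univ.erase 1) 1 c₁ (Bx (fl θ₂) ∩ Co (fl θ₂) (3 / 4 * ν₁) {0, 2}) ≤
    ENNReal.ofReal (C * θ₂)
  plFrame : En2 p g (Finset.univ.erase 1) 1 c₁
    (Bx (fl θ₂) ∩ Co (fl θ₂) (3 / 4 * ν₁) {0, 2} ∩ Fr (fl θ₂) ν {0}) ≤
      ENNReal.ofReal (C * ν * θ₂)
  line : ∫⁻ x in Bx 1 ∩ Co 1 ν {0},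
    ENNReal.ofReal (‖fderiv ℝ g (lpt c₁ c₂ (x 0)) (ev 0) - L (ev 0)‖ ^ p) ≤ ENNReal.ofReal ε

section

variable {p C M θ₁ θ₂ ν₁ ν τ ε c₁ c₂ : ℝ} {φ : V → ℝ} {ψ : ℝ → ℝ} {L : V →L[ℝ] V} {Λ : Set V}
  {f g : V → V}

theorem Dat.mapsB (D : Dat M θ₁ θ₂ ν₁ ν τ c₁ c₂ φ ψ) :
    MapsTo (Rm φ ψ) (Bx (bm θ₁ θ₂)) (Bx (bm θ₁ θ₂)) := fun x hx =>
  (mem_Rm D.P D.Q (by linarith [D.hν]) (by
    have : (bm θ₁ θ₂) 0 = 1 := rfl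
    rw [this]; linarith [D.hν]) (by linarith [D.hν, D.hν4]) x).1 hx

theorem Dat.diffeo (D : Dat M θ₁ θ₂ ν₁ ν τ c₁ c₂ φ ψ) :
    St.IsDiffeo (Bx (bm θ₁ θ₂)) (Bx (bm θ₁ θ₂)) (Rm φ ψ) :=
  isDiffeo_Rm D.P D.Q (by linarith [D.hν]) (by
    have : (bm θ₁ θ₂) 0 = 1 := rfl
    rw [this]; linarith [D.hν]) (by linarith [D.hν, D.hν4])

theorem Dat.off (D : Dat M θ₁ θ₂ ν₁ ν τ c₁ c₂ φ ψ) : ∃ K ⊆ Bx (bm θ₁ θ₂), IsCompact K ∧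
    ∀ x ∉ K, Rm φ ψ x = x := by
  have hν := D.hν
  have hν4 := D.hν4
  have hθ₁ := D.hθ₁
  have hθ₂ := D.hθ₂
  refine ⟨{x : V | ∀ i, (![ν / 16, 1 / 8 * (2 * θ₁), 1 / 8 * (2 * θ₂)] : V) i ≤ x i ∧
    x i ≤ (![1 - ν / 16, 7 / 8 * (2 * θ₁), 7 / 8 * (2 * θ₂)] : V) i}, ?_, isCompact_rect _ _, ?_⟩
  · intro x hx i
    have h0 := hx 0
    have h1 := hx 1
    have h2 := hx 2
    simp at h0 h1 h2
    fin_cases i
    · simp [bm]; constructor <;> linarith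
    · simp [bm]; constructor <;> linarith
    · simp [bm]; constructor <;> linarith
  · intro x hx
    have h7 : φ x * (ψ (x 0) - x 0) = 0 := by
      by_contra hne
      apply hx
      have hφ : φ x ≠ 0 := fun h => hne (by rw [h, zero_mul])
      have hψx : ψ (x 0) ≠ x 0 := fun h => hne (by rw [h, sub_self, mul_zero])
      have h8 : x 0 ∈ Icc (ν / 8 - ν / 16) (1 - ν / 8 + ν / 16) := by
        by_contra h9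
        exact hψx (D.P.off _ h9)
      have h9 : ∀ i, i ≠ 0 → 1 / 8 * bm θ₁ θ₂ i ≤ x i ∧ x i ≤ 7 / 8 * bm θ₁ θ₂ i := by
        intro i hi
        by_contra hcon
        apply hφ
        refine D.zero x ⟨i, hi, ?_⟩
        rw [not_and_or] at hcon
        rcases hcon with h | h
        · left; push Not at h; linarith
        · right; push Not at h; linarith
      intro i
      have h91 := h9 1 (by decide)
      have h92 := h9 2 (by decide)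
      simp [bm] at h91 h92
      fin_cases i
      · simp; constructor <;> linarith [h8.1, h8.2]
      · simp; constructor <;> linarith
      · simp; constructor <;> linarith
    unfold Rm
    rw [h7, add_zero, Function.update_eq_self]

theorem Dat.frame (D : Dat M θ₁ θ₂ ν₁ ν τ c₁ c₂ φ ψ) :
    MapsTo (Rm φ ψ) (Bx (bm θ₁ θ₂) ∩ Fr (bm θ₁ θ₂) (3 / 2 * ν₁) {0, 2})
        (Bx (bm θ₁ θ₂) ∩ Fr (bm θ₁ θ₂) (2 * ν₁) {0, 2}) := by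
  rintro x ⟨hx1, hx2⟩
  have t3 := D.t3
  have t4 := D.t4
  have hν₁ := D.hν₁
  have hνθ : 0 < ν₁ * θ₂ := mul_pos D.hν₁ D.hθ₂
  refine ⟨D.mapsB hx1, fr_shift' hx2 (fun i _ => (norm_le_pi_norm (Rm φ ψ x - x) i).trans
    (norm_Rm_sub D.P D.Q x)) fun i hi => ?_⟩
  simp only [Finset.mem_insert, Finset.mem_singleton] at hi
  rcases hi with rfl | rfl
  · have : (bm θ₁ θ₂) 0 = 1 := rfl
    rw [this]
    linarith
  · have : (bm θ₁ θ₂) 2 = 2 * θ₂ := rfl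
    rw [this]
    nlinarith

theorem Dat.core (D : Dat M θ₁ θ₂ ν₁ ν τ c₁ c₂ φ ψ) :
    MapsTo (Rm (fun x => φ (Function.update x 1 c₁)) ψ)
      (Bx (fl θ₂) ∩ Co (fl θ₂) (3 / 4 * ν₁) {0, 2})
      (Bx (fl θ₂) ∩ Co (fl θ₂) (ν₁ / 2) {0, 2}) := by
  intro x hx
  have hν := D.hν
  have hν4 := D.hν4
  have t4 := D.t4
  have hν₁ := D.hν₁
  have hνθ : 0 < ν₁ * θ₂ := mul_pos D.hν₁ D.hθ₂
  have hs0' : (fl θ₂) 0 = 1 := rfl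
  refine ⟨(mem_Rm D.P (D.Q.slice c₁) (by linarith) (by rw [hs0']; linarith) (by linarith) x).1 hx.1,
    fun i hi => ?_⟩
  have h1 : |Rm (fun x => φ (Function.update x 1 c₁)) ψ x 0 - x 0| ≤ τ :=
    (norm_le_pi_norm (Rm (fun x => φ (Function.update x 1 c₁)) ψ x - x) 0).trans
      (norm_Rm_sub D.P (D.Q.slice c₁) x)
  have h2 := abs_le.1 h1
  have hx0 := hx.2 0 (by simp)
  have hx2 := hx.2 2 (by simp)
  simp only [Finset.mem_insert, Finset.mem_singleton] at hi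
  rcases hi with rfl | rfl
  · rw [hs0'] at hx0 ⊢
    constructor <;> linarith [hx0.1, hx0.2]
  · rw [Rm_ne (by decide)]
    have e : fl θ₂ 2 = 2 * θ₂ := rfl
    rw [e] at hx2 ⊢
    constructor <;> nlinarith [hx2.1, hx2.2]

theorem Dat.coreFrame (D : Dat M θ₁ θ₂ ν₁ ν τ c₁ c₂ φ ψ) :
    MapsTo (Rm (fun x => φ (Function.update x 1 c₁)) ψ)
      (Bx (fl θ₂) ∩ Co (fl θ₂) (3 / 4 * ν₁) {0, 2} ∩ Fr (fl θ₂) ν {0})
      (Bx (fl θ₂) ∩ Co (fl θ₂) (ν₁ / 2) {0, 2} ∩ Fr (fl θ₂) (2 * ν) {0}) := by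
  rintro x ⟨hx1, hx2⟩
  have hν := D.hν
  have hν₁ν := D.hν₁ν
  have hν₁ := D.hν₁
  have t4 := D.t4
  refine ⟨D.core hx1, fr_shift' hx2 (fun i _ => (norm_le_pi_norm
    (Rm (fun x => φ (Function.update x 1 c₁)) ψ x - x) i).trans
    (norm_Rm_sub D.P (D.Q.slice c₁) x)) fun i hi => ?_⟩
  rw [Finset.mem_singleton] at hi
  subst hi
  have hs0' : (fl θ₂) 0 = 1 := rfl
  rw [hs0']
  linarith

theorem Dat.coreB (D : Dat M θ₁ θ₂ ν₁ ν τ c₁ c₂ φ ψ) :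
    ∀ x ∈ Bx (fl θ₂) ∩ Co (fl θ₂) (3 / 4 * ν₁) {0, 2},
      Function.update x 1 c₁ ∈ Bx (bm θ₁ θ₂) := by
  intro x hx i
  have h0 := hx.1 0
  have h2 := hx.1 2
  have t1 := D.t1
  have hθ₁ := D.hθ₁
  have hc := abs_le.1 D.hc₁
  simp [fl] at h0 h2
  fin_cases i
  · simpa [bm] using h0
  · simp [bm]; constructor <;> linarith
  · simpa [bm] using h2

theorem Dat.lptB (D : Dat M θ₁ θ₂ ν₁ ν τ c₁ c₂ φ ψ) {t : ℝ} (h0 : 0 < t) (h1 : t < 1) :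
    lpt c₁ c₂ t ∈ Bx (bm θ₁ θ₂) := by
  have t1 := D.t1
  have t2 := D.t2
  have hθ₁ := D.hθ₁
  have hθ₂ := D.hθ₂
  have hc₁ := abs_le.1 D.hc₁
  have hc₂ := abs_le.1 D.hc₂
  intro i
  fin_cases i
  · simp [lpt, bm]; exact ⟨h0, h1⟩
  · simp [lpt, bm]; constructor <;> linarith
  · simp [lpt, bm]; constructor <;> linarith

/-- the derivative of the reparametrised map on the line -/
theorem Dat.fderiv_line (D : Dat M θ₁ θ₂ ν₁ ν τ c₁ c₂ φ ψ)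
    (hgd : ∀ x ∈ Bx (bm θ₁ θ₂), DifferentiableAt ℝ g x) {t : ℝ} (h0 : 0 < t) (h1 : t < 1) :
    fderiv ℝ (fun x => g (Rm φ ψ x)) (lpt c₁ c₂ t) (ev 0) =
      deriv ψ t • fderiv ℝ g (lpt c₁ c₂ (ψ t)) (ev 0) := by
  have h7 : DifferentiableAt ℝ g (Rm φ ψ (lpt c₁ c₂ t)) := hgd _ (D.mapsB (D.lptB h0 h1))
  have h9 := (h7.hasFDerivAt.comp _ (hasFDerivAt_Rm D.P D.Q (lpt c₁ c₂ t))).fderiv
  have h10 : fderiv ℝ (fun x => g (Rm φ ψ x)) (lpt c₁ c₂ t) =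
    fderiv ℝ (g ∘ Rm φ ψ) (lpt c₁ c₂ t) := rfl
  rw [h10, h9, ContinuousLinearMap.comp_apply, dR_zero D.Q, map_smul, D.one, Rm_lpt (D.one _)]
  congr 1
  rw [lpt_zero]
  ring

theorem line_bound {r σ : ℝ → ℝ} {w : V} (hτν : τ ≤ ν / 8)
    (hr : ∀ u, 0 < r u) (e1 : ∀ t, σ (ψ t) = t)
    (e2 : ∀ u, ψ (σ u) = u) (hψd : ∀ t, deriv ψ t = (r (ψ t))⁻¹)
    (hσd : ∀ u, HasDerivAt σ (r u) u) (hσm : StrictMono σ) (hψτ : ∀ t, |ψ t - t| ≤ τ)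
    {G : ℝ → V} (hGm : Measurable G) (hψc : Continuous ψ)
    (hrl : ∫⁻ u in Icc (ν / 8) (1 - ν / 8), ENNReal.ofReal (‖(r u)⁻¹ • G u - w‖ ^ p * r u) ≤
      ENNReal.ofReal ε) :
    ∫⁻ x in Bx (1 : V) ∩ Co 1 ν {0}, ENNReal.ofReal (‖deriv ψ (x 0) • G (ψ (x 0)) - w‖ ^ p) ≤
      ENNReal.ofReal ε := by
  set F : ℝ → ℝ≥0∞ := fun t => ENNReal.ofReal (‖deriv ψ t • G (ψ t) - w‖ ^ p) with hF
  have hFm : Measurable F := by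
    have h1 : Measurable fun t => deriv ψ t • G (ψ t) - w :=
      ((measurable_deriv ψ).smul (hGm.comp hψc.measurable)).sub measurable_const
    exact (h1.norm.pow_const p).ennreal_ofReal
  calc ∫⁻ x in Bx (1 : V) ∩ Co 1 ν {0}, F (x 0)
      ≤ ∫⁻ t in Icc (ν / 4) (1 - ν / 4), F t := lintegral_coord0 hFm ν
    _ ≤ ∫⁻ t in σ '' Icc (ν / 8) (1 - ν / 8), F t := by
        refine lintegral_mono_set fun t ht => ⟨ψ t, ?_, e1 t⟩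
        have h5 := abs_le.1 (hψτ t)
        constructor
        · linarith [ht.1]
        · linarith [ht.2]
    _ = ∫⁻ u in Icc (ν / 8) (1 - ν / 8), ENNReal.ofReal |r u| * F (σ u) :=
        lintegral_image_eq_lintegral_abs_deriv_mul measurableSet_Icc
          (fun u _ => (hσd u).hasDerivWithinAt) hσm.injective.injOn F
    _ = ∫⁻ u in Icc (ν / 8) (1 - ν / 8),
          ENNReal.ofReal (‖(r u)⁻¹ • G u - w‖ ^ p * r u) := by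
        refine lintegral_congr fun u => ?_
        simp only [hF]
        rw [hψd, e2, abs_of_pos (hr u), ← ENNReal.ofReal_mul (hr u).le, mul_comm]
    _ ≤ _ := hrl

/-- **the reparametrisation** -/
theorem Dat.mid (D : Dat M θ₁ θ₂ ν₁ ν τ c₁ c₂ φ ψ) (hp : 1 ≤ p)
    (hB : BeamT p C M θ₁ θ₂ ν₁ ν (2 * ν₁) (2 * ν) τ ε c₁ c₂ L Λ f g) {r σ : ℝ → ℝ}
    (hr : ∀ u, 0 < r u) (e1 : ∀ t, σ (ψ t) = t) (e2 : ∀ u, ψ (σ u) = u)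
    (hψd : ∀ t, deriv ψ t = (r (ψ t))⁻¹) (hσd : ∀ u, HasDerivAt σ (r u) u) (hσm : StrictMono σ)
    {ε' : ℝ} (hrl : ∫⁻ u in Icc (ν / 8) (1 - ν / 8),
      ENNReal.ofReal (‖(r u)⁻¹ • fderiv ℝ g (lpt c₁ c₂ u) (ev 0) - L (ev 0)‖ ^ p * r u) ≤
        ENNReal.ofReal ε') :
    Mid p (KR p M * M * C) θ₁ θ₂ ν₁ ν ε' c₁ c₂ L Λ f (fun x => g (Rm φ ψ x)) := by
  have hp0 : 0 ≤ p := by linarith
  have hM := D.P.one
  have hKR := KR_pos (p := p) (show 0 ≤ M by linarith)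
  have hK : 0 ≤ KR p M * M := by positivity
  have hgs : ContDiffOn ℝ ∞ g (Bx (bm θ₁ θ₂)) := AB.diffeo_smooth hB.diffeo
  have hBo : IsOpen (Bx (bm θ₁ θ₂)) := isOpen_bx _
  have hgd : ∀ x ∈ Bx (bm θ₁ θ₂), DifferentiableAt ℝ g x := fun x hx =>
    ((hgs x hx).contDiffAt (hBo.mem_nhds hx)).differentiableAt (by simp)
  have hT₁m : MeasurableSet (Bx (fl θ₂) ∩ Co (fl θ₂) (3 / 4 * ν₁) {0, 2}) :=
    (measurableSet_bx _).inter (measurableSet_co _ _ _)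
  obtain ⟨K, hK1, hK2, hK3⟩ := D.off
  refine ⟨AB.isDiffeo_comp D.diffeo hB.diffeo, bdClose_shift hK2 hK1 hK3 hB.close, ?_, ?_, ?_, ?_,
    ?_⟩
  · refine (En_Rm_le hp0 D.P D.Q (measurableSet_bx _) (fun x hx => hgd _ (D.mapsB hx))
      D.mapsB).trans ((mul_le_mul' le_rfl hB.bulk).trans (le_of_eq ?_))
    rw [← ENNReal.ofReal_mul hK]
    congr 1; ring
  · refine (En_Rm_le hp0 D.P D.Q ((measurableSet_bx _).inter (measurableSet_fr _ _ _))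
      (fun x hx => hgd _ (D.mapsB hx.1)) D.frame).trans
      ((mul_le_mul' le_rfl hB.frame).trans (le_of_eq ?_))
    rw [← ENNReal.ofReal_mul hK]
    congr 1; ring
  · refine (En2_Rm_le hp0 D.P D.Q hT₁m (fun x hx => hgd _ (D.mapsB (D.coreB x hx)))
      D.core).trans ((mul_le_mul' le_rfl hB.pl).trans (le_of_eq ?_))
    rw [← ENNReal.ofReal_mul hK]
    congr 1; ring
  · refine (En2_Rm_le hp0 D.P D.Q (hT₁m.inter (measurableSet_fr _ _ _))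
      (fun x hx => hgd _ (D.mapsB (D.coreB x hx.1))) D.coreFrame).trans
      ((mul_le_mul' le_rfl hB.plFrame).trans (le_of_eq ?_))
    rw [← ENNReal.ofReal_mul hK]
    congr 1; ring
  · have hGm : Measurable fun u => fderiv ℝ g (lpt c₁ c₂ u) (ev 0) := by
      have h1 : Measurable fun x : V => fderiv ℝ g x (ev 0) := measurable_fderiv_apply_const ℝ g _
      exact h1.comp (continuous_lpt c₁ c₂).measurable
    refine le_trans (le_of_eq ?_) (line_bound (w := L (ev 0))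
      (by linarith [D.t4, D.hν₁ν, D.hν₁]) hr e1 e2 hψd hσd hσm D.P.disp hGm
      D.P.smooth.continuous hrl)
    refine setLIntegral_congr_fun ((measurableSet_bx _).inter (measurableSet_co _ _ _))
      fun x hx => ?_
    have hx0 := hx.2 0 (by simp)
    simp only [Pi.one_apply, mul_one] at hx0
    have hν := D.hν
    show ENNReal.ofReal (‖fderiv ℝ (fun x => g (Rm φ ψ x)) (lpt c₁ c₂ (x 0)) (ev 0) -
      L (ev 0)‖ ^ p) = _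
    rw [D.fderiv_line hgd (by linarith [hx0.1]) (by linarith [hx0.2])]

end

/-! ### the shift -/

section

variable {p C θ₁ θ₂ ν₁ ν τ ε c₁ c₂ : ℝ} {L : V →L[ℝ] V} {Λ : Set V} {f g : V → V}

/-- the parameters of the shift -/
structure Sft (θ₁ θ₂ ν₁ ν τ c₁ c₂ : ℝ) (ψ : V → V) (U : Set V) : Prop where
  hθ₁ : 0 < θ₁
  hθ₂ : 0 < θ₂
  hν₁ : 0 < ν₁
  hν : 0 < ν
  hν₁ν : ν₁ ≤ ν / 4
  hν4 : ν ≤ 1 / 4
  t3 : τ ≤ ν₁ * θ₂ / 8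
  t4 : τ ≤ ν₁ / 32
  hc₂ : |c₂ - θ₂| ≤ τ
  hU : IsOpen U
  sub : ∀ x : V, (∀ i, (![ν₁ / 4, θ₁, ν₁ / 4 * (2 * θ₂)] : V) i ≤ x i ∧
    x i ≤ (![1 - ν₁ / 4, θ₁, (1 - ν₁ / 4) * (2 * θ₂)] : V) i) → x ∈ U
  shift : ∀ x ∈ U, ψ x = x + ((c₁ - θ₁) • ev 1 + (c₂ - θ₂) • ev 2)
  disp : ∀ x, ‖ψ x - x‖ ≤ τ
  maps : MapsTo ψ (Bx (bm θ₁ θ₂)) (Bx (bm θ₁ θ₂))

variable {ψ : V → V} {U : Set V}

theorem Sft.plane (S : Sft θ₁ θ₂ ν₁ ν τ c₁ c₂ ψ U) : ∀ x ∈ Co (fl θ₂) ν₁ {0, 2}, ∀ j,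
    fderiv ℝ (fun x => g (ψ x)) (Function.update x 1 θ₁) (ev j) =
      fderiv ℝ g (Function.update (x + (c₂ - θ₂) • ev 2) 1 c₁) (ev j) := by
  intro x hx j
  have hx0 := hx 0 (by simp)
  have hx2 := hx 2 (by simp)
  simp [fl] at hx0 hx2
  have hxK : Function.update x 1 θ₁ ∈ U := by
    refine S.sub _ fun i => ?_
    fin_cases i
    · simpa using hx0
    · simp
    · simpa using hx2
  have e1 : Function.update x 1 θ₁ + ((c₁ - θ₁) • ev 1 + (c₂ - θ₂) • ev 2) =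
      Function.update (x + (c₂ - θ₂) • ev 2) 1 c₁ := by
    funext i
    fin_cases i <;> simp [ev]
  rw [fderiv_shift S.hU S.shift hxK, e1]

theorem Sft.core (S : Sft θ₁ θ₂ ν₁ ν τ c₁ c₂ ψ U) :
    ∀ x : V, x ∈ Bx (fl θ₂) ∩ Co (fl θ₂) ν₁ {0, 2} →
      x + (c₂ - θ₂) • ev 2 ∈ Bx (fl θ₂) ∩ Co (fl θ₂) (3 / 4 * ν₁) {0, 2} := by
  intro x hx
  have hν₁ := S.hν₁
  have hνθ : 0 < ν₁ * θ₂ := mul_pos S.hν₁ S.hθ₂
  have h0 := hx.1 0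
  have h1 := hx.1 1
  have hx0 := hx.2 0 (by simp)
  have hx2 := hx.2 2 (by simp)
  simp [fl] at hx0 hx2 h0 h1
  have h3 := abs_le.1 (S.hc₂.trans S.t3)
  constructor
  · intro i
    fin_cases i
    · simpa [fl, ev] using h0
    · simpa [fl, ev] using h1
    · simp [fl, ev]
      constructor <;> nlinarith
  · intro i hi
    simp only [Finset.mem_insert, Finset.mem_singleton] at hi
    rcases hi with rfl | rfl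
    · simp [fl, ev]
      constructor <;> linarith
    · simp [fl, ev]
      constructor <;> nlinarith

theorem Sft.coreFrame (S : Sft θ₁ θ₂ ν₁ ν τ c₁ c₂ ψ U) :
    ∀ x : V, x ∈ Bx (fl θ₂) ∩ Co (fl θ₂) ν₁ {0, 2} ∩ Fr (fl θ₂) ν {0} →
      x + (c₂ - θ₂) • ev 2 ∈ Bx (fl θ₂) ∩ Co (fl θ₂) (3 / 4 * ν₁) {0, 2} ∩ Fr (fl θ₂) ν {0} := by
  intro x hx
  refine ⟨S.core x hx.1, ?_⟩
  refine fr_shift' (t := 0) hx.2 (fun i hi => ?_) fun i hi => ?_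
  · rw [Finset.mem_singleton] at hi
    subst hi
    simp [ev]
  · simp

theorem Sft.frame (S : Sft θ₁ θ₂ ν₁ ν τ c₁ c₂ ψ U) :
    ψ '' (Bx (bm θ₁ θ₂) ∩ Fr (bm θ₁ θ₂) ν₁ {0, 2}) ⊆
        Bx (bm θ₁ θ₂) ∩ Fr (bm θ₁ θ₂) (3 / 2 * ν₁) {0, 2} := by
  rintro _ ⟨x, hx, rfl⟩
  have t3 := S.t3
  have t4 := S.t4
  have hν₁ := S.hν₁
  have hνθ : 0 < ν₁ * θ₂ := mul_pos S.hν₁ S.hθ₂
  refine ⟨S.maps hx.1, fr_shift' hx.2 (fun i _ => (norm_le_pi_norm (ψ x - x) i).trans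
    (S.disp x)) fun i hi => ?_⟩
  simp only [Finset.mem_insert, Finset.mem_singleton] at hi
  rcases hi with rfl | rfl
  · have : (bm θ₁ θ₂) 0 = 1 := rfl
    rw [this]
    linarith
  · have : (bm θ₁ θ₂) 2 = 2 * θ₂ := rfl
    rw [this]
    nlinarith

theorem Sft.pl (S : Sft θ₁ θ₂ ν₁ ν τ c₁ c₂ ψ U) :
    En2 p (fun x => g (ψ x)) (Finset.univ.erase 1) 1 θ₁
        (Bx (fl θ₂) ∩ Co (fl θ₂) ν₁ {0, 2}) ≤ En2 p g (Finset.univ.erase 1) 1 c₁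
          (Bx (fl θ₂) ∩ Co (fl θ₂) (3 / 4 * ν₁) {0, 2}) := by
  refine Finset.sum_le_sum fun j _ => ?_
  calc _ = ∫⁻ x in Bx (fl θ₂) ∩ Co (fl θ₂) ν₁ {0, 2}, ENNReal.ofReal
        (‖fderiv ℝ g (Function.update (x + (c₂ - θ₂) • ev 2) 1 c₁) (ev j)‖ ^ p) := by
        refine setLIntegral_congr_fun ((measurableSet_bx _).inter (measurableSet_co _ _ _))
          fun x hx => ?_
        show ENNReal.ofReal (‖fderiv ℝ (fun x => g (ψ x)) (Function.update x 1 θ₁) (ev j)‖ ^ p)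
          = _
        rw [S.plane x hx.2 j]
    _ ≤ _ := setLIntegral_shift (fun x => ENNReal.ofReal
        (‖fderiv ℝ g (Function.update x 1 c₁) (ev j)‖ ^ p)) _ S.core

theorem Sft.plF (S : Sft θ₁ θ₂ ν₁ ν τ c₁ c₂ ψ U) :
    En2 p (fun x => g (ψ x)) (Finset.univ.erase 1) 1 θ₁
        (Bx (fl θ₂) ∩ Co (fl θ₂) ν₁ {0, 2} ∩ Fr (fl θ₂) ν {0}) ≤
          En2 p g (Finset.univ.erase 1) 1 c₁
          (Bx (fl θ₂) ∩ Co (fl θ₂) (3 / 4 * ν₁) {0, 2} ∩ Fr (fl θ₂) ν {0}) := by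
  refine Finset.sum_le_sum fun j _ => ?_
  calc _ = ∫⁻ x in Bx (fl θ₂) ∩ Co (fl θ₂) ν₁ {0, 2} ∩ Fr (fl θ₂) ν {0}, ENNReal.ofReal
        (‖fderiv ℝ g (Function.update (x + (c₂ - θ₂) • ev 2) 1 c₁) (ev j)‖ ^ p) := by
        refine setLIntegral_congr_fun (((measurableSet_bx _).inter (measurableSet_co _ _ _)).inter
          (measurableSet_fr _ _ _)) fun x hx => ?_
        show ENNReal.ofReal (‖fderiv ℝ (fun x => g (ψ x)) (Function.update x 1 θ₁) (ev j)‖ ^ p)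
          = _
        rw [S.plane x hx.1.2 j]
    _ ≤ _ := setLIntegral_shift (fun x => ENNReal.ofReal
        (‖fderiv ℝ g (Function.update x 1 c₁) (ev j)‖ ^ p)) _ S.coreFrame

theorem Sft.line (S : Sft θ₁ θ₂ ν₁ ν τ c₁ c₂ ψ U)
    (h : ∫⁻ x in Bx 1 ∩ Co 1 ν {0},
      ENNReal.ofReal (‖fderiv ℝ g (lpt c₁ c₂ (x 0)) (ev 0) - L (ev 0)‖ ^ p) ≤
        ENNReal.ofReal ε) :
    ∫⁻ x in Bx 1 ∩ Co 1 ν {0}, ENNReal.ofReal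
      (‖fderiv ℝ (fun x => g (ψ x)) (Function.update (Function.update x 1 θ₁) 2 θ₂) (ev 0) -
        L (ev 0)‖ ^ p) ≤ ENNReal.ofReal ε := by
  refine le_trans (le_of_eq ?_) h
  have hν₁ν := S.hν₁ν
  have hν₁ := S.hν₁
  have hν4 := S.hν4
  have hν := S.hν
  have hθ₂ := S.hθ₂
  refine setLIntegral_congr_fun ((measurableSet_bx _).inter (measurableSet_co _ _ _))
    fun x hx => ?_
  have hx0 := hx.2 0 (by simp)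
  simp at hx0
  have hxK : Function.update (Function.update x 1 θ₁) 2 θ₂ ∈ U := by
    refine S.sub _ fun i => ?_
    fin_cases i
    · simp
      constructor <;> linarith
    · simp
    · simp
      constructor <;> nlinarith
  have e1 : Function.update (Function.update x 1 θ₁) 2 θ₂ +
      ((c₁ - θ₁) • ev 1 + (c₂ - θ₂) • ev 2) = lpt c₁ c₂ (x 0) := by
    rw [← update_update_eq]
    funext i
    fin_cases i <;> simp [ev]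
  show ENNReal.ofReal (‖fderiv ℝ (fun x => g (ψ x))
    (Function.update (Function.update x 1 θ₁) 2 θ₂) (ev 0) - L (ev 0)‖ ^ p) = _
  rw [fderiv_shift S.hU S.shift hxK, e1]

/-- **the shift** -/
theorem Sft.beam2 (S : Sft θ₁ θ₂ ν₁ ν τ c₁ c₂ ψ U) (hp : 1 ≤ p) (hC : 0 < C)
    (hB : Mid p C θ₁ θ₂ ν₁ ν ε c₁ c₂ L Λ f g)
    (hψd : St.IsDiffeo (Bx (bm θ₁ θ₂)) (Bx (bm θ₁ θ₂)) ψ) {K : Set V} (hK : IsCompact K)
    (hKs : K ⊆ Bx (bm θ₁ θ₂)) (hψK : ∀ x ∉ K, ψ x = x)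
    (hψE : ∀ T : Set V, MeasurableSet T → T ⊆ Bx (bm θ₁ θ₂) →
      En p (fun x => g (ψ x)) Finset.univ T ≤
        ENNReal.ofReal (8 ^ p * 8) * En p g Finset.univ (ψ '' T)) :
    Beam2 p (8 ^ p * 8 * C) θ₁ θ₂ ν₁ ν ε L Λ f (fun x => g (ψ x)) := by
  have hθ₁ := S.hθ₁
  have hθ₂ := S.hθ₂
  have hν := S.hν
  have hE : 0 < (8 : ℝ) ^ p * 8 := by positivity
  have hE1 : (1 : ℝ) ≤ 8 ^ p * 8 := by
    have := Real.one_le_rpow (by norm_num : (1:ℝ) ≤ 8) (show 0 ≤ p by linarith)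
    linarith
  refine ⟨AB.isDiffeo_comp hψd hB.diffeo, bdClose_shift hK hKs hψK hB.close, ?_, ?_, ?_, ?_,
    S.line hB.line⟩
  · refine (hψE _ (measurableSet_bx _) subset_rfl).trans
      ((mul_le_mul' le_rfl ((en_mono S.maps.image_subset).trans hB.bulk)).trans (le_of_eq ?_))
    rw [← ENNReal.ofReal_mul hE.le]
    congr 1; ring
  · refine (hψE _ ((measurableSet_bx _).inter (measurableSet_fr _ _ _)) inter_subset_left).trans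
      ((mul_le_mul' le_rfl ((en_mono S.frame).trans hB.frame)).trans (le_of_eq ?_))
    rw [← ENNReal.ofReal_mul hE.le]
    congr 1; ring
  · refine S.pl.trans (hB.pl.trans (ENNReal.ofReal_le_ofReal ?_))
    have : 0 ≤ C * θ₂ := by positivity
    calc C * θ₂ = 1 * (C * θ₂) := by ring
      _ ≤ (8 ^ p * 8) * (C * θ₂) := by gcongr
      _ = _ := by ring
  · refine S.plF.trans (hB.plFrame.trans (ENNReal.ofReal_le_ofReal ?_))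
    have : 0 ≤ C * ν * θ₂ := by positivity
    calc C * ν * θ₂ = 1 * (C * ν * θ₂) := by ring
      _ ≤ (8 ^ p * 8) * (C * ν * θ₂) := by gcongr
      _ = _ := by ring

end

theorem beam2_mono {p C C' θ₁ θ₂ ν₁ ν ε ε' : ℝ} {L : V →L[ℝ] V} {Λ : Set V} {f g : V → V}
    (h : Beam2 p C θ₁ θ₂ ν₁ ν ε L Λ f g) (hC : C ≤ C') (hε : ε ≤ ε') (h1 : 0 ≤ θ₁) (h2 : 0 ≤ θ₂)
    (h3 : 0 ≤ ν₁) (h4 : 0 ≤ ν) : Beam2 p C' θ₁ θ₂ ν₁ ν ε' L Λ f g := by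
  refine ⟨h.diffeo, h.close, h.bulk.trans (ENNReal.ofReal_le_ofReal ?_),
    h.frame.trans (ENNReal.ofReal_le_ofReal ?_), h.pl.trans (ENNReal.ofReal_le_ofReal ?_),
    h.plFrame.trans (ENNReal.ofReal_le_ofReal ?_), h.line.trans (ENNReal.ofReal_le_ofReal hε)⟩
  · gcongr
  · gcongr
  · gcongr
  · gcongr

theorem cut_of_lat {a : V} {ν m τ : ℝ} {φ : V → ℝ} (hlat : Lat 0 a ν m φ) (hm : 0 ≤ m)
    (hτ0 : 0 < τ) (hτ6 : m * τ ≤ 1) : Cut τ φ := by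
  refine ⟨hlat.smooth, hlat.nonneg, hlat.le_one, hlat.indep, fun x j => ?_⟩
  have h1 : |fderiv ℝ φ x (ev j)| ≤ m := by
    have h2 := (fderiv ℝ φ x).le_opNorm (ev j)
    have h4 := norm_ev_le j
    have h5 := hlat.der x
    have h6 : ‖fderiv ℝ φ x‖ * ‖(ev j : V)‖ ≤ m * 1 := by gcongr
    rw [Real.norm_eq_abs] at h2
    linarith
  calc |fderiv ℝ φ x (ev j)| * τ ≤ m * τ := by gcongr
    _ ≤ 1 := hτ6

theorem repD_of {M τ a b : ℝ} {ψ r : ℝ → ℝ} (hM : 1 ≤ M) (hτ : 0 ≤ τ) (hψs : ContDiff ℝ ∞ ψ)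
    (hrb : ∀ u, 1 / M ≤ r u ∧ r u ≤ M) (hψder : ∀ t, deriv ψ t = (r (ψ t))⁻¹)
    (hψ1 : ∀ t, t ∉ Icc a b → ψ t = t) (hψτ : ∀ t, |ψ t - t| ≤ τ) : RepD M τ a b ψ := by
  have hM0 : 0 < M := by linarith
  have hrpos : ∀ u, 0 < r u := fun u => lt_of_lt_of_le (by positivity) (hrb u).1
  refine ⟨hM, hτ, hψs, fun t => ?_, fun t => ?_, hψ1, hψτ⟩
  · rw [hψder, one_div]
    exact inv_anti₀ (hrpos _) (hrb _).2
  · rw [hψder]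
    rw [inv_le_comm₀ (hrpos _) hM0, ← one_div]
    exact (hrb _).1

theorem lpt_mem {θ₁ θ₂ c₁ c₂ τ : ℝ} (hτ2 : τ ≤ θ₁ / 2) (hτ3 : τ ≤ θ₂ / 2) (h1 : 0 < θ₁)
    (h2 : 0 < θ₂) (hc₁ : |c₁ - θ₁| ≤ τ) (hc₂ : |c₂ - θ₂| ≤ τ) {t : ℝ} (h0 : 0 < t) (h1 : t < 1) :
    lpt c₁ c₂ t ∈ Bx (bm θ₁ θ₂) := by
  have hc₁' := abs_le.1 hc₁
  have hc₂' := abs_le.1 hc₂
  intro i
  fin_cases i
  · simp [lpt, bm]; exact ⟨h0, h1⟩
  · simp [lpt, bm]; constructor <;> linarith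
  · simp [lpt, bm]; constructor <;> linarith

theorem cont_line {Λ : Set V} {g : V → V} {θ₁ θ₂ c₁ c₂ τ ν : ℝ} (hν : 0 < ν)
    (hg : St.IsDiffeo (Bx (bm θ₁ θ₂)) Λ g) (hτ2 : τ ≤ θ₁ / 2) (hτ3 : τ ≤ θ₂ / 2) (h1 : 0 < θ₁)
    (h2 : 0 < θ₂) (hc₁ : |c₁ - θ₁| ≤ τ) (hc₂ : |c₂ - θ₂| ≤ τ) :
    ContinuousOn (fun u => fderiv ℝ g (lpt c₁ c₂ u) (ev 0)) (Icc (ν / 8) (1 - ν / 8)) := by
  have hgs : ContDiffOn ℝ ∞ g (Bx (bm θ₁ θ₂)) := AB.diffeo_smooth hg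
  have hBo : IsOpen (Bx (bm θ₁ θ₂)) := isOpen_bx _
  have h1 : ContinuousOn (fun x => fderiv ℝ g x) (Bx (bm θ₁ θ₂)) :=
    hgs.continuousOn_fderiv_of_isOpen hBo (by simp)
  have h2 : ContinuousOn (fun u => fderiv ℝ g (lpt c₁ c₂ u)) (Icc (ν / 8) (1 - ν / 8)) :=
    h1.comp (continuous_lpt c₁ c₂).continuousOn fun t ht =>
      lpt_mem hτ2 hτ3 (by assumption) (by assumption) hc₁ hc₂ (by linarith [ht.1])
        (by linarith [ht.2])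
  exact h2.clm_apply continuousOn_const

theorem dat_of_lat {M θ₁ θ₂ ν₁ ν τ c₁ c₂ m : ℝ} {φ : V → ℝ} {ψ : ℝ → ℝ}
    (hlat : Lat 0 (bm θ₁ θ₂) (1 / 2) m φ) (hθ₁ : 0 < θ₁) (hθ₂ : 0 < θ₂) (hν₁ : 0 < ν₁)
    (hν : 0 < ν) (hν₁ν : ν₁ ≤ ν / 4) (hν4 : ν ≤ 1 / 4) (hτ2 : τ ≤ θ₁ / 2) (hτ3 : τ ≤ θ₂ / 2)
    (hτ4 : τ ≤ ν₁ * θ₂ / 8) (hτ5 : τ ≤ ν₁ / 32) (hc₁ : |c₁ - θ₁| ≤ τ) (hc₂ : |c₂ - θ₂| ≤ τ)
    (P : RepD M τ (ν / 8 - ν / 16) (1 - ν / 8 + ν / 16) ψ) (Q : Cut τ φ) :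
    Dat M θ₁ θ₂ ν₁ ν τ c₁ c₂ φ ψ := by
  have hc₁' := abs_le.1 hc₁
  have hc₂' := abs_le.1 hc₂
  refine ⟨hθ₁, hθ₂, hν₁, hν, hν₁ν, hν4, hτ2, hτ3, hτ4, hτ5, hc₁, hc₂, P, Q, fun t => ?_,
    fun x hx => ?_⟩
  · refine hlat.one _ fun i hi => ?_
    fin_cases i
    · exact absurd rfl hi
    · simp [lpt, bm]; constructor <;> linarith
    · simp [lpt, bm]; constructor <;> linarith
  · obtain ⟨i, hi, h⟩ := hx
    refine hlat.zero x ⟨i, hi, ?_⟩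
    rcases h with h | h
    · left; linarith
    · right; linarith

theorem rectK {θ₁ θ₂ ν₁ : ℝ} (hθ₁ : 0 < θ₁) (hνθ : 0 < ν₁ * θ₂) (hν₁ : 0 < ν₁) :
    {x : V | ∀ i, (![ν₁ / 4, θ₁, ν₁ / 4 * (2 * θ₂)] : V) i ≤ x i ∧
      x i ≤ (![1 - ν₁ / 4, θ₁, (1 - ν₁ / 4) * (2 * θ₂)] : V) i} ⊆ Bx (bm θ₁ θ₂) := by
  intro x hx i
  have h0 := hx 0
  have h1 := hx 1
  have h2 := hx 2
  simp at h0 h1 h2
  fin_cases i
  · simp [bm]; constructor <;> linarith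
  · simp [bm]; constructor <;> linarith
  · simp [bm]; constructor <;> nlinarith

/-- the number `τ` -/
theorem exists_tau {τ₀ θ₁ θ₂ ν₁ m : ℝ} (h0 : 0 < τ₀) (h1 : 0 < θ₁) (h2 : 0 < θ₂) (h3 : 0 < ν₁)
    (h4 : θ₂ ≤ 1 / 4) (hm : 0 ≤ m) : ∃ τ > 0, τ ≤ τ₀ ∧ τ ≤ θ₁ / 2 ∧ τ ≤ θ₂ / 2 ∧
      τ ≤ ν₁ * θ₂ / 8 ∧ τ ≤ ν₁ / 32 ∧ m * τ ≤ 1 := by
  have hνθ : 0 < ν₁ * θ₂ := by positivity
  set τ : ℝ := min (min (min τ₀ (θ₁ / 2)) (min (θ₂ / 2) (ν₁ * θ₂ / 8))) (1 / (m + 1)) with hτ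
  have hτ0 : 0 < τ := by positivity
  have hτ1 : τ ≤ τ₀ := (min_le_left _ _).trans ((min_le_left _ _).trans (min_le_left _ _))
  have hτ2 : τ ≤ θ₁ / 2 := (min_le_left _ _).trans ((min_le_left _ _).trans (min_le_right _ _))
  have hτ3 : τ ≤ θ₂ / 2 := (min_le_left _ _).trans ((min_le_right _ _).trans (min_le_left _ _))
  have hτ4 : τ ≤ ν₁ * θ₂ / 8 :=
    (min_le_left _ _).trans ((min_le_right _ _).trans (min_le_right _ _))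
  refine ⟨τ, hτ0, hτ1, hτ2, hτ3, hτ4, by nlinarith, ?_⟩
  have h7 : τ ≤ 1 / (m + 1) := min_le_right _ _
  calc m * τ ≤ m * (1 / (m + 1)) := by gcongr
    _ ≤ 1 := by rw [mul_one_div, div_le_one (by positivity)]; linarith

theorem norm_w_le {θ₁ θ₂ c₁ c₂ τ : ℝ} (hτ0 : 0 < τ) (hc₁ : |c₁ - θ₁| ≤ τ)
    (hc₂ : |c₂ - θ₂| ≤ τ) : ‖(c₁ - θ₁) • (ev 1 : V) + (c₂ - θ₂) • ev 2‖ ≤ τ := by
  refine (pi_norm_le_iff_of_nonneg hτ0.le).2 fun k => ?_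
  fin_cases k
  · simp [ev, hτ0.le]
  · simpa [ev] using hc₁
  · simpa [ev] using hc₂

/-- reparametrisation -/
theorem exists_mid (hA : SpecRPA) {p C M θ₁ θ₂ ν₁ ν τ ε c₁ c₂ m : ℝ} (hp : 1 ≤ p) (hM : 1 ≤ M)
    {φ : V → ℝ} {L : V →L[ℝ] V} {Λ : Set V} {f g : V → V}
    (hlat : Lat 0 (bm θ₁ θ₂) (1 / 2) m φ) (hm : 0 ≤ m) (hθ₁ : 0 < θ₁) (hθ₂ : 0 < θ₂)
    (hν₁ : 0 < ν₁) (hν : 0 < ν) (hν₁ν : ν₁ ≤ ν / 4) (hν4 : ν ≤ 1 / 4) (hτ0 : 0 < τ)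
    (hτ2 : τ ≤ θ₁ / 2) (hτ3 : τ ≤ θ₂ / 2) (hτ4 : τ ≤ ν₁ * θ₂ / 8) (hτ5 : τ ≤ ν₁ / 32)
    (hτ6 : m * τ ≤ 1) (hε : 0 < ε)
    (hc₁ : |c₁ - θ₁| ≤ τ) (hc₂ : |c₂ - θ₂| ≤ τ)
    (hB : BeamT p C M θ₁ θ₂ ν₁ ν (2 * ν₁) (2 * ν) τ ε c₁ c₂ L Λ f g) :
    ∃ g₁, Mid p (KR p M * M * C) θ₁ θ₂ ν₁ ν (2 * ε) c₁ c₂ L Λ f g₁ := by
  have hM0 : 0 < M := by linarith
  have hGc := cont_line hν hB.diffeo hτ2 hτ3 hθ₁ hθ₂ hc₁ hc₂
  obtain ⟨r, hr, hrb, hr1, hri, hrτ, hrl⟩ := hA p ε M τ (ν / 8) (1 - ν / 8) (L (ev 0)) _ hp hM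
    (by linarith) hε hGc hB.line (ν / 16) (by positivity)
  obtain ⟨ψ₁, σ, hψs, hψm, e1, e2, hψd, hσd, hσm, hψ1, hψτ, hστ⟩ := exists_rep hM
    (by linarith) hr hrb hr1 hri hrτ
  have hrpos : ∀ u, 0 < r u := fun u => lt_of_lt_of_le (by positivity) (hrb u).1
  have hψder : ∀ t, deriv ψ₁ t = (r (ψ₁ t))⁻¹ := fun t => (hψd t).deriv
  have P := repD_of hM hτ0.le hψs hrb hψder hψ1 hψτ
  have Q : Cut τ φ := cut_of_lat hlat hm hτ0 hτ6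
  have D := dat_of_lat hlat hθ₁ hθ₂ hν₁ hν hν₁ν hν4 hτ2 hτ3 hτ4 hτ5 hc₁ hc₂ P Q
  exact ⟨_, D.mid hp hB hrpos e1 e2 hψder hσd hσm hrl⟩

/-- **(RP)**, strong form: the error on the line does not depend on `M` -/
theorem rp_strong (h3 : SpecC3) (hA : SpecRPA) {p M : ℝ} (hp : 1 ≤ p) (hM : 1 ≤ M) :
    ∃ K > 0, ∀ (C θ₁ θ₂ ν₁ ν ε : ℝ), 0 < C → 0 < θ₁ → 0 < θ₂ →
    θ₂ ≤ 1 / 4 → 0 < ν₁ → ν₁ ≤ ν / 4 → ν ≤ 1 / 4 → 0 < ε → ∃ τ > 0, τ < θ₁ ∧ τ < θ₂ ∧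
    ∀ (c₁ c₂ : ℝ)
    (L : V →L[ℝ] V) (Λ : Set V) (f g : V → V), |c₁ - θ₁| ≤ τ → |c₂ - θ₂| ≤ τ →
    BeamT p C M θ₁ θ₂ ν₁ ν (2 * ν₁) (2 * ν) τ ε c₁ c₂ L Λ f g →
    ∃ g', Beam2 p (K * C) θ₁ θ₂ ν₁ ν (2 * ε) L Λ f g' := by
  have hM0 : 0 < M := by linarith
  have hKR := KR_pos (p := p) hM0.le
  set K' : ℝ := KR p M * M with hK'
  have hK'0 : 0 < K' := by positivity
  refine ⟨8 ^ p * 8 * K', by positivity,
    fun C θ₁ θ₂ ν₁ ν ε hC hθ₁ hθ₂ hθ₂4 hν₁ hν₁ν hν4 hε => ?_⟩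
  have hν : 0 < ν := by linarith
  have ha : ∀ i, 0 < bm θ₁ θ₂ i := by
    intro i
    fin_cases i <;> simp [bm, hθ₁, hθ₂]
  have hνθ : 0 < ν₁ * θ₂ := by positivity
  obtain ⟨K, hKs, hK, τ₀, hτ₀, hψ⟩ := h3 (bm θ₁ θ₂) ha _ (rectK hθ₁ hνθ hν₁)
    (isCompact_rect _ _)
  obtain ⟨Mφ, φ, hMφ, hlat⟩ := exists_lat 0 (bm θ₁ θ₂) (fun i _ => ha i)
    (show (0:ℝ) < 1 / 2 by norm_num)
  obtain ⟨τ, hτ0, hτ1, hτ2, hτ3, hτ4, hτ5, hτ6⟩ := exists_tau hτ₀ hθ₁ hθ₂ hν₁ hθ₂4 hMφ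
  refine ⟨τ, hτ0, by linarith, by linarith, fun c₁ c₂ L Λ f g hc₁ hc₂ hB => ?_⟩
  obtain ⟨g₁, hmid⟩ := exists_mid hA hp hM hlat hMφ hθ₁ hθ₂ hν₁ hν hν₁ν hν4 hτ0 hτ2 hτ3 hτ4 hτ5
    hτ6 hε hc₁ hc₂ hB
  have hwn := norm_w_le hτ0 hc₁ hc₂
  obtain ⟨ψ, hψd', ⟨U, hU, hKU, hψU⟩, hψK, hψn, hψE⟩ := hψ _ (hwn.trans hτ1)
  have S : Sft θ₁ θ₂ ν₁ ν τ c₁ c₂ ψ U :=
    ⟨hθ₁, hθ₂, hν₁, hν, hν₁ν, hν4, hτ4, hτ5, hc₂, hU, fun x hx => hKU hx, hψU,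
      fun x => (hψn x).trans hwn, fun x hx => (hψd'.choose_spec.1.1 x hx).1⟩
  have hC' : 0 < KR p M * M * C := by positivity
  refine ⟨_, beam2_mono (S.beam2 hp hC' hmid hψd' hK hKs hψK fun T hT hTB =>
    hψE p _ T hp hT hTB (AB.diffeo_smooth hmid.diffeo)) ?_ le_rfl hθ₁.le hθ₂.le hν₁.le hν.le⟩
  rw [hK']
  exact le_of_eq (by ring)

/-- **(RP)** -/
theorem specRP_of (h3 : SpecC3) (hA : SpecRPA) : SpecRP := by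
  intro p M hp hM
  obtain ⟨K, hK, h⟩ := rp_strong h3 hA hp hM
  refine ⟨K, hK, fun C θ₁ θ₂ ν₁ ν ε hC hθ₁ hθ₂ hθ₂4 hν₁ hν₁ν hν4 hε => ?_⟩
  obtain ⟨τ, hτ, -, -, h⟩ := h C θ₁ θ₂ ν₁ ν ε hC hθ₁ hθ₂ hθ₂4 hν₁ hν₁ν hν4 hε
  exact ⟨τ, hτ, fun c₁ c₂ L Λ f g hc₁ hc₂ _ hB => h c₁ c₂ L Λ f g hc₁ hc₂ hB⟩

end Vale.Agent.P073.H253
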